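import Vale.Agent.P236K.Cert.Spec
import Vale.Agent.P236K.Alg.Col

/-!
# P236K / Cert / Lift : existence of the exact lift (block L)
-/

set_option linter.unusedSectionVars false

noncomputable section

namespace Vale.Agent.P236K.Cert

open Vale.Agent.P236K.Alg MvPolynomial

namespace Lf

variable [PL 3 F3]

theorem h3 : ((3 : ℕ) : F3) = 0 := rfl

theorem wE_nn (b : Ex) : 0 ≤ wE 3 b := (Int.natCast_nonneg _).trans (degree_le_wE b)

theorem wE_pos {b : Ex} (hb : b ≠ 0) : 0 < wE 3 b :=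
  lt_of_lt_of_le (by
    exact_mod_cast Nat.pos_of_ne_zero (mt (Finsupp.degree_eq_zero_iff b).1 hb)) (degree_le_wE b)

theorem wa_nn {w : ℤ} {a : Av F3} (ha : WA 3 w a) (h : a ≠ 0) : 0 ≤ w := by
  obtain ⟨e, he⟩ := ne_zero_iff.1 h
  exact ha he ▸ wE_nn e

theorem wa_pos {w : ℤ} {a : Av F3} (ha : WA 3 w a) (h : a ≠ 0) (h0 : cc F3 a = 0) : 0 < w := by
  obtain ⟨e, he⟩ := ne_zero_iff.1 h
  exact ha he ▸ wE_pos fun h1 => he (h1 ▸ h0)

/-! ### weights on `Gam` -/

/-- homogeneous of weight `w` -/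
def WG (w : ℤ) (y : Gam F3) : Prop := ∀ b, WA 3 (w - wE 3 b) (coeff b y)

theorem lv_coeff (b : Ex) (y : Gam F3) :
    lv F3 0 (coeff b y) = Ph1 3 (fun c => if c = b then 1 else 0) 0 (be1 3 F3 0 y) := by
  rw [Ph1_be1, al_zero, fn_eq_sum]
  congr 1
  simp only [mul_ite, mul_one, mul_zero, Finset.sum_ite_eq', mem_support_iff]
  split_ifs with h
  · rfl
  · exact not_not.1 h

theorem WG.ck {w : ℤ} {y : Gam F3} (h : WG w y) : be1 3 F3 0 y ∈ CK 3 F3 Uall 1 w := by
  rw [y.as_sum, map_sum]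
  refine sum_mem fun b _ => ⟨lev_be1 0 _, ?_, mem_JM_all _⟩
  rw [← mul_one (coeff b y), ← C_mul_monomial, map_mul, be1_C, be1_monomial]
  have h1 := (wt_al 0 (h b)).mul ((wt_lv (n := 0 + 1)).2
    (isWeightedHomogeneous_monomial (wz 3) b (1 : F3) (m := wE 3 b) rfl))
  rwa [sub_add_cancel] at h1

theorem wg_of_ck {w : ℤ} {y : Gam F3} (h : be1 3 F3 0 y ∈ CK 3 F3 Uall 1 w) : WG w y := by
  intro b
  rw [← wt_lv (n := 0), lv_coeff, sub_eq_add_neg]
  refine (Ph1_CK (fun c => ?_) h).2.1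
  split_ifs with h1
  · rw [h1, add_neg_cancel]
    exact isWeightedHomogeneous_one _ _
  · exact isWeightedHomogeneous_zero _ _ _

theorem WG.op {w c : ℤ} {y : Gam F3} (h : WG w y) {l : Ex → Av F3}
    (hl : ∀ b, WA 3 (wE 3 b + c) (l b)) : WG (w + c) (op 3 l y) := by
  apply wg_of_ck
  rw [← Ph1_D_be1]
  exact Ph1_CK hl (inv_all.D_CK _ h.ck)

theorem WG.op_eq_zero {w : ℤ} {y : Gam F3} (h : WG w y) {l : Ex → Av F3}
    (hl : ∀ b, wE 3 b ≤ w → l b = 0) : Alg.op 3 l y = 0 := by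
  have h1 : be1 3 F3 0 (Alg.op 3 l y) = 0 := by
    rw [← Ph1_D_be1]
    refine CK.ind (P := fun z => Ph1 3 l (0 + 1) z = 0) (map_zero _) (fun x y hx hy => ?_)
      (fun x b hx => ?_) (inv_all.D_CK _ h.ck)
    · rw [map_add, hx, hy, add_zero]
    · rw [Ph1_mul hx.1, Ph1_lv]
      by_cases h2 : w - wE 3 b < 0
      · rw [Wt.eq_zero hx.2.1 h2, zero_mul]
      · rw [hl b (by omega), map_zero, mul_zero]
  ext1 b
  rw [← rA_lv (coeff b _), lv_coeff, h1, map_zero, map_zero, coeff_zero]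

theorem wg_monomial (b : Ex) : WG (wE 3 b) (monomial b 1) := by
  intro c
  rw [coeff_monomial]
  split_ifs with h
  · rw [h, sub_self]
    exact isWeightedHomogeneous_one _ _
  · exact isWeightedHomogeneous_zero _ _ _

/-! ### the coefficient of `v ^ e` -/

/-- exchange of the two sets of variables -/
def sw : Gam F3 →+* Gam F3 := eval₂Hom (mA C) fun i => C (X i)

theorem cc_sw (y : Gam F3) : cc (Av F3) (sw y) = mA (cc F3) y := by
  have h : (cc (Av F3)).comp sw = mA (cc F3) := by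
    refine ringHom_ext (fun a => ?_) fun i => by simp [sw]
    rw [RingHom.comp_apply, sw, eval₂Hom_C, mA_C, cc_apply, coeff_mA, cc_apply]
  exact RingHom.congr_fun h y

theorem coeff_sw (e b : Ex) (y : Gam F3) : coeff b (coeff e (sw y)) = coeff e (coeff b y) := by
  induction y using induction_on' with
  | monomial c a =>
    have h1 : sw (monomial c a) = C (monomial c 1) * mA C a := by
      rw [sw, eval₂Hom_monomial, mul_comm, monomial_eq, C_1, one_mul, map_finsuppProd]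
      simp only [map_pow]
    rw [h1, coeff_C_mul, coeff_mA, mul_comm, C_mul_monomial, mul_one, coeff_monomial,
      coeff_monomial]
    split_ifs <;> rfl
  | add x y hx hy => simp only [map_add, coeff_add, hx, hy]

theorem coeff_sw_mul {e : Ex} {a : Av F3} (ha : ∀ c d, c + d = e → d ≠ 0 → coeff c a = 0)
    (q : Gam F3) : coeff e (sw (C a * q)) = C (coeff e a) * mA (cc F3) q := by
  rw [map_mul, sw, eval₂Hom_C, coeff_mul, Finset.sum_eq_single (e, 0), coeff_mA, ← cc_sw]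
  · rfl
  · rintro ⟨c, d⟩ h1 h2
    rw [Finset.HasAntidiagonal.mem_antidiagonal] at h1
    rw [coeff_mA, ha c d h1 (by rintro rfl; exact h2 (by rw [← h1, add_zero])), C_0, zero_mul]
  · intro h
    exact absurd (Finset.HasAntidiagonal.mem_antidiagonal.2 (add_zero e)) h

theorem coeff_sw_op {e : Ex} {y : Gam F3}
    (hy : ∀ b c d, c + d = e → d ≠ 0 → coeff c (coeff b y) = 0) (l : Ex → Av F3) :
    coeff e (sw (op 3 l y)) = op0 3 (fun b => cc F3 (l b)) (coeff e (sw y)) := by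
  conv_lhs => rw [y.as_sum]
  conv_rhs => rw [y.as_sum]
  simp only [map_sum, coeff_sum]
  refine Finset.sum_congr rfl fun b _ => ?_
  rw [← mul_one (coeff b y), ← C_mul_monomial, op_C_mul, coeff_sw_mul (hy b), coeff_sw_mul (hy b),
    red_op h3, ← smul_eq_C_mul, ← smul_eq_C_mul, map_smul]

/-! ### the free modules on the nodes -/

variable {G : Type} [Fintype G] [DecidableEq G]

/-- a node -/
def nd (g : G) (b : Ex) : G → Gam F3 := Pi.single g (monomial b 1)

/-- the functional -/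
def Ph (l : G → G → Ex → Av F3) : (G → Gam F3) →ₗ[Av F3] (G → Av F3) :=
  LinearMap.pi fun h => ∑ g, (fn (l g h)).comp (LinearMap.proj g)

/-- the differential -/
def Dl (l : G → G → Ex → Av F3) : (G → Gam F3) →ₗ[Av F3] (G → Gam F3) :=
  LinearMap.pi fun h => ∑ g, (op 3 (l g h)).comp (LinearMap.proj g)

/-- the linear map with given values on the nodes -/
def Zl (z : G → Ex → G → Gam F3) : (G → Gam F3) →ₗ[Av F3] (G → Gam F3) :=
  ∑ g, ((basisMonomials ℕ (Av F3)).constr ℕ (z g)).comp (LinearMap.proj g)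

theorem Ph_apply (l : G → G → Ex → Av F3) (y : G → Gam F3) (h : G) :
    Ph l y h = ∑ g, fn (l g h) (y g) := by simp [Ph]

theorem Dl_apply (l : G → G → Ex → Av F3) (y : G → Gam F3) (h : G) :
    Dl l y h = ∑ g, op 3 (l g h) (y g) := by simp [Dl]

theorem sum_nd {M : Type} [AddCommMonoid M] [Module (Av F3) M] (f : G → Gam F3 →ₗ[Av F3] M)
    (g : G) (b : Ex) : ∑ g', f g' (nd g b g') = f g (monomial b 1) := by
  rw [Finset.sum_eq_single g, nd, Pi.single_eq_same]
  · intro g' _ h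
    rw [nd, Pi.single_eq_of_ne h, map_zero]
  · intro h
    exact absurd (Finset.mem_univ g) h

theorem Ph_nd (l : G → G → Ex → Av F3) (g : G) (b : Ex) (h : G) : Ph l (nd g b) h = l g h b := by
  rw [Ph_apply, sum_nd fun g => fn (l g h), fn_one]

theorem Dl_nd (l : G → G → Ex → Av F3) (g : G) (b : Ex) (h : G) :
    Dl l (nd g b) h = op 3 (l g h) (monomial b 1) := by
  rw [Dl_apply, sum_nd fun g => op 3 (l g h)]

theorem Zl_nd (z : G → Ex → G → Gam F3) (g : G) (b : Ex) : Zl z (nd g b) = z g b := by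
  rw [Zl, LinearMap.sum_apply]
  exact (sum_nd (fun g => (basisMonomials ℕ (Av F3)).constr ℕ (z g)) g b).trans
    ((basisMonomials ℕ (Av F3)).constr_basis ℕ (z g) b)

theorem as_sum (y : G → Gam F3) : y = ∑ g, ∑ b ∈ (y g).support, coeff b (y g) • nd g b := by
  funext h
  simp only [Finset.sum_apply, Pi.smul_apply]
  rw [Finset.sum_eq_single h]
  · conv_lhs => rw [(y h).as_sum]
    refine Finset.sum_congr rfl fun b _ => ?_
    rw [nd, Pi.single_eq_same, smul_eq_C_mul, C_mul_monomial, mul_one]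
  · intro g _ hg
    exact Finset.sum_eq_zero fun b _ => by rw [nd, Pi.single_eq_of_ne hg.symm, smul_zero]
  · intro h1
    exact absurd (Finset.mem_univ h) h1

theorem Dl_Dl (τ : Tw F3 G) (y : G → Gam F3) (l : G) :
    Dl τ.lam (Dl τ.lam y) l = ∑ g, op 3 (τ.tau 3 g l) (y g) := by
  simp only [Dl_apply, map_sum]
  rw [Finset.sum_comm]
  refine Finset.sum_congr rfl fun g _ => ?_
  rw [show τ.tau 3 g l = fun b => ∑ h, conv 3 (τ.lam h l) (τ.lam g h) b from rfl, op_sum]
  exact Finset.sum_congr rfl fun h _ => (op_conv _ _ _).symm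

theorem tau_eq (τ : Tw F3 G) (g l : G) (b : Ex) :
    τ.tau 3 g l b = Ph τ.lam (Dl τ.lam (nd g b)) l := by
  rw [Ph_apply, Tw.tau]
  exact Finset.sum_congr rfl fun h _ => by rw [Dl_nd, conv]

variable (τ : Tw F3 G) (Cn : G → Ex → Prop)

/-- homogeneous elements -/
def HG (s : ℕ) (u : ℤ) : AddSubgroup (G → Gam F3) where
  carrier := {y | ∀ g, (τ.sd g ≠ s → y g = 0) ∧ WG (u - τ.dg g) (y g)}
  zero_mem' := fun _ => ⟨fun _ => rfl, fun _ => isWeightedHomogeneous_zero _ _ _⟩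
  add_mem' := fun {x y} hx hy g => ⟨fun h => by
    rw [Pi.add_apply, (hx g).1 h, (hy g).1 h, add_zero], fun b => by
    rw [Pi.add_apply, coeff_add]
    exact ((hx g).2 b).add ((hy g).2 b)⟩
  neg_mem' := fun {x} hx g => ⟨fun h => by rw [Pi.neg_apply, (hx g).1 h, neg_zero], fun b => by
    rw [Pi.neg_apply, coeff_neg]
    exact neg_mem (s := weightedHomogeneousSubmodule F3 (wz 3) _) ((hx g).2 b)⟩

/-- elements supported on `Cn` -/
def SG : Submodule (Av F3) (G → Gam F3) where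
  carrier := {y | ∀ g b, ¬ Cn g b → coeff b (y g) = 0}
  zero_mem' := fun _ _ _ => rfl
  add_mem' := fun {x y} hx hy g b h => by
    rw [Pi.add_apply, coeff_add, hx g b h, hy g b h, add_zero]
  smul_mem' := fun a x hx g b h => by rw [Pi.smul_apply, coeff_smul, hx g b h, smul_zero]

/-- reduction modulo `I` -/
def red (y : G → Gam F3) : G → Av F3 := fun g => mA (cc F3) (y g)

/-- constant coefficients -/
def inc (y : G → Av F3) : G → Gam F3 := fun g => mA C (y g)

variable {τ Cn} {s : ℕ} {u : ℤ}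

theorem HG_smul {w : ℤ} {a : Av F3} (ha : WA 3 w a) {y : G → Gam F3} (hy : y ∈ HG τ s u) :
    a • y ∈ HG τ s (w + u) := fun g => ⟨fun h => by rw [Pi.smul_apply, (hy g).1 h, smul_zero],
  fun b => by
    rw [Pi.smul_apply, coeff_smul, smul_eq_mul, add_sub_assoc, add_sub_assoc]
    exact ha.mul ((hy g).2 b)⟩

theorem nd_mem (g : G) (b : Ex) : nd g b ∈ HG τ (τ.sd g) (wN τ g b) := fun h => by
  by_cases e : h = g
  · subst e
    rw [nd, Pi.single_eq_same, wN, add_sub_cancel_right]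
    exact ⟨fun h1 => absurd rfl h1, wg_monomial b⟩
  · rw [nd, Pi.single_eq_of_ne e]
    exact ⟨fun _ => rfl, fun _ => isWeightedHomogeneous_zero _ _ _⟩

theorem nd_SG {g : G} {b : Ex} (h : Cn g b) : nd g b ∈ SG Cn := fun g' b' h' => by
  by_cases e : g' = g
  · subst e
    rw [nd, Pi.single_eq_same, coeff_monomial, if_neg]
    rintro rfl
    exact h' h
  · rw [nd, Pi.single_eq_of_ne e, coeff_zero]

theorem HG_wa {y : G → Gam F3} (hy : y ∈ HG τ s u) (g : G) (b : Ex) :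
    WA 3 (u - wN τ g b) (coeff b (y g)) := by
  rw [wN, add_comm, ← sub_sub]
  exact (hy g).2 b

theorem HG_sd {y : G → Gam F3} (hy : y ∈ HG τ s u) {g : G} {b : Ex} (h : coeff b (y g) ≠ 0) :
    τ.sd g = s := by
  by_contra h1
  exact h (by rw [(hy g).1 h1, coeff_zero])

theorem HG_le {y : G → Gam F3} (hy : y ∈ HG τ s u) {g : G} {b : Ex} (h : coeff b (y g) ≠ 0) :
    wN τ g b ≤ u := sub_nonneg.1 (wa_nn (HG_wa hy g b) h)

theorem lin_mem {M : Type} [AddCommGroup M] [Module (Av F3) M] (f : (G → Gam F3) →ₗ[Av F3] M)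
    (K : ℤ → AddSubgroup M) (hK : ∀ w (a : Av F3) v m, WA 3 w a → m ∈ K v → a • m ∈ K (w + v))
    {y : G → Gam F3} (hy : y ∈ HG τ s u)
    (h : ∀ g b, coeff b (y g) ≠ 0 → f (nd g b) ∈ K (wN τ g b)) : f y ∈ K u := by
  rw [as_sum y, map_sum]
  refine sum_mem fun g _ => ?_
  rw [map_sum]
  refine sum_mem fun b hb => ?_
  have h1 := hK _ _ _ _ (HG_wa hy g b) (h g b (mem_support_iff.1 hb))
  rwa [sub_add_cancel, ← map_smul] at h1

theorem lin_zero {M : Type} [AddCommGroup M] [Module (Av F3) M] (f : (G → Gam F3) →ₗ[Av F3] M)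
    {y : G → Gam F3} (hy : y ∈ HG τ s u)
    (h : ∀ g b, τ.sd g = s → wN τ g b ≤ u → f (nd g b) = 0) : f y = 0 :=
  lin_mem f (fun _ => ⊥) (fun _ _ _ _ _ h => by
    rw [AddSubgroup.mem_bot.1 h, smul_zero]; exact zero_mem _) hy
    fun g b h1 => h g b (HG_sd hy h1) (HG_le hy h1)

theorem red_hom {y : G → Gam F3} (hy : y ∈ HG τ s u) : τ.Hom 3 s u (red y) := fun g =>
  ⟨fun h => by rw [red, (hy g).1 h, map_zero], fun b hb => by
    rw [red, coeff_mA] at hb
    have h1 := (hy g).2 b hb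
    rw [map_zero] at h1
    change wE 3 b = _
    omega⟩

theorem inc_mem {y : G → Av F3} (hy : τ.Hom 3 s u y) : inc y ∈ HG τ s u := fun g =>
  ⟨fun h => by rw [inc, (hy g).1 h, map_zero], fun b => by
    rw [inc, coeff_mA]
    by_cases h : coeff b (y g) = 0
    · rw [h, C_0]
      exact isWeightedHomogeneous_zero _ _ _
    · rw [show u - τ.dg g - wE 3 b = 0 from sub_eq_zero.2 ((hy g).2 h).symm]
      exact isWeightedHomogeneous_C _ _⟩

theorem red_sup {y : G → Gam F3} (hy : y ∈ SG Cn) : Sup Cn (red y) := fun g b h => by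
  rw [red, coeff_mA, hy g b h, map_zero]

theorem inc_SG {y : G → Av F3} (hy : Sup Cn y) : inc y ∈ SG Cn := fun g b h => by
  rw [inc, coeff_mA, hy g b h, map_zero]

theorem red_inc (y : G → Av F3) : red (inc y) = y := funext fun g => by
  ext b
  rw [red, inc, coeff_mA, coeff_mA, cc_C]

theorem red_sub (x y : G → Gam F3) : red (x - y) = red x - red y := funext fun _ => map_sub _ _ _

variable (τ Cn) in
/-- a lift of `τ` -/
structure Pre (l : G → G → Ex → Av F3) : Prop where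
  sd_lam : ∀ g h b, τ.sd h ≠ τ.sd g + 1 → l g h b = 0
  wt_lam : ∀ g h b, WA 3 (wE 3 b + τ.dg g - τ.dg h) (l g h b)
  lam0 : ∀ h, l τ.g0 h 0 = 0
  onC : ∀ g h b, Cn g b → l g h b = τ.lam g h b
  red : ∀ g h b, cc F3 (l g h b) = cc F3 (τ.lam g h b)

variable {l : G → G → Ex → Av F3} {N : ℤ} {S : ℕ}

theorem Pre.red_Dl (P : Pre τ Cn l) (y : G → Gam F3) : Lf.red (Dl l y) = τ.d0 3 (Lf.red y) := by
  funext h
  rw [Lf.red, Dl_apply, map_sum, Tw.d0]
  refine Finset.sum_congr rfl fun g _ => ?_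
  rw [red_op h3, funext (P.red g h), Lf.red]

theorem Pre.Dl_mem (P : Pre τ Cn l) {y : G → Gam F3} (hy : y ∈ HG τ s u) :
    Dl l y ∈ HG τ (s + 1) u := by
  refine lin_mem _ (HG τ (s + 1)) (fun _ _ _ _ ha h => HG_smul ha h) hy
    fun g b h1 h => ⟨fun h2 => ?_, ?_⟩
  · rw [Dl_nd, show l g h = fun _ => 0 from funext fun b => P.sd_lam g h b (by rwa [HG_sd hy h1]),
      op_zero]
  · have h2 := (wg_monomial b).op (c := τ.dg g - τ.dg h) (l := l g h) fun b => by
      rw [← add_sub_assoc]; exact P.wt_lam g h b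
    rwa [Dl_nd, wN, add_sub_assoc]

theorem Pre.Ph_mem (P : Pre τ Cn l) {y : G → Gam F3} (hy : y ∈ HG τ s u) :
    Ph l y ∈ τ.WK 3 Uall (s + 1) u := by
  refine lin_mem _ (τ.WK 3 Uall (s + 1)) (fun w a v m ha hm => ⟨fun g => ⟨fun h => ?_, ?_⟩,
    fun _ => mem_JA_all _⟩) hy fun g b h1 => ⟨fun h => ⟨fun h2 => ?_, ?_⟩, fun _ => mem_JA_all _⟩
  · rw [Pi.smul_apply, (hm.1 g).1 h, smul_zero]
  · rw [Pi.smul_apply, smul_eq_mul, add_sub_assoc]
    exact ha.mul (hm.1 g).2
  · rw [Ph_nd, P.sd_lam g h b (by rwa [HG_sd hy h1])]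
  · rw [Ph_nd]
    exact P.wt_lam g h b

variable (τ Cn l) in
/-- the elements which are boundaries modulo `Cn` -/
def Dec (s : ℕ) (u : ℤ) : AddSubgroup (G → Gam F3) where
  carrier := {y | ∃ z ∈ HG τ s u, z ∈ SG Cn ∧ y - Dl l z ∈ SG Cn}
  zero_mem' := ⟨0, zero_mem _, zero_mem _, by rw [map_zero, sub_zero]; exact zero_mem _⟩
  add_mem' := by
    rintro x y ⟨z, h1, h2, h3⟩ ⟨z', h4, h5, h6⟩
    exact ⟨z + z', add_mem h1 h4, add_mem h2 h5, by
      rw [map_add, ← sub_add_sub_comm]; exact add_mem h3 h6⟩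
  neg_mem' := by
    rintro x ⟨z, h1, h2, h3⟩
    exact ⟨-z, neg_mem h1, neg_mem h2, by rw [map_neg, neg_sub_neg, ← neg_sub]; exact neg_mem h3⟩

/-- existence of the decomposition -/
theorem Pre.dec (P : Pre τ Cn l) (H : Lev0 τ Cn N S) (hs : s < S) (hu : u ≤ N) {y : G → Gam F3}
    (hy : y ∈ HG τ (s + 1) u) : y ∈ Dec τ Cn l s u := by
  obtain ⟨n, hn⟩ : ∃ n : ℕ, u + ∑ g, |τ.dg g| < n := ⟨(u + ∑ g, |τ.dg g|).toNat + 1, by omega⟩
  induction n generalizing u y with
  | zero =>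
    refine lin_mem LinearMap.id (fun _ => Dec τ Cn l s u ⊓ ⊥) (fun _ _ _ _ _ h => ?_) hy
      (fun g b h => ?_) |>.1
    · rw [AddSubgroup.mem_bot.1 h.2, smul_zero]
      exact zero_mem _
    · have h1 := HG_le hy h
      have h2 := Finset.single_le_sum (f := fun g => |τ.dg g|) (fun g _ => abs_nonneg _)
        (Finset.mem_univ g)
      have h4 := wE_nn b
      have h5 := neg_abs_le (τ.dg g)
      rw [wN] at h1
      omega
  | succ n ih =>
    obtain ⟨z, hz, h1, h2⟩ := H.span s hs u hu _ (red_hom hy)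
    have h4 := sub_mem hy (P.Dl_mem (inc_mem hz))
    rw [← red_inc z, ← P.red_Dl, ← red_sub] at h2
    have h5 := sub_mem h4 (inc_mem (red_hom h4))
    obtain ⟨z', h6, h7, h8⟩ := lin_mem LinearMap.id (Dec τ Cn l s) (by
      rintro w a v m ha ⟨z, h1, h2, h3⟩
      exact ⟨a • z, HG_smul ha h1, Submodule.smul_mem _ _ h2, by
        rw [map_smul, ← smul_sub]; exact Submodule.smul_mem _ _ h3⟩) h5 fun g b h => by
      have h9 := wa_pos (HG_wa h5 g b) h (by
        rw [← coeff_mA]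
        change coeff b (Lf.red _ g) = 0
        rw [red_sub, red_inc, sub_self, Pi.zero_apply, coeff_zero])
      exact ih (by omega) (HG_sd h5 h ▸ nd_mem g b) (by omega)
    refine ⟨inc z + z', add_mem (inc_mem hz) h6, add_mem (inc_SG h1) h7, ?_⟩
    have h9 := add_mem h8 (inc_SG h2)
    rwa [LinearMap.id_apply, sub_right_comm, sub_add_cancel, sub_sub, ← map_add] at h9

/-- uniqueness of the decomposition -/
theorem Pre.uniq (P : Pre τ Cn l) (H : Lev0 τ Cn N S) (hs : s < S) (hu : u ≤ N) {z : G → Gam F3}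
    (hz : z ∈ HG τ s u) (h1 : z ∈ SG Cn) (h2 : Dl l z ∈ SG Cn) : z = 0 := by
  have key : ∀ n e, Finsupp.degree e = n → ∀ g b, coeff e (coeff b (z g)) = 0 := by
    intro n
    induction n using Nat.strong_induction_on with
    | _ n ih =>
      intro e he g b
      have h4 : τ.Hom 3 s (u - wE 3 e) fun g => coeff e (sw (z g)) := fun g =>
        ⟨fun h => by simp only [(hz g).1 h, map_zero, coeff_zero], fun b hb => by
          rw [coeff_sw] at hb
          have h5 : wE 3 e = _ := (hz g).2 b hb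
          change wE 3 b = _
          omega⟩
      have h5 := H.inj s hs _ (by have := wE_nn e; omega) _ h4
        (fun g b h => by rw [coeff_sw, h1 g b h, coeff_zero]) fun h b h6 => by
          have h7 : τ.d0 3 (fun g => coeff e (sw (z g))) h = coeff e (sw (Dl l z h)) := by
            rw [Dl_apply, map_sum, coeff_sum, Tw.d0]
            refine Finset.sum_congr rfl fun g _ => ?_
            rw [coeff_sw_op, funext (P.red g h)]
            intro b c d h8 h9
            refine ih _ ?_ c rfl g b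
            have := Nat.pos_of_ne_zero (mt (Finsupp.degree_eq_zero_iff d).1 h9)
            rw [← he, ← h8, map_add]
            omega
          rw [h7, coeff_sw, h2 h b h6, coeff_zero]
      rw [← coeff_sw, congrFun h5 g, Pi.zero_apply, coeff_zero]
  funext g
  ext b e
  exact key _ e rfl g b

variable (τ l) in
/-- the square of the differential vanishes below the degree `s` -/
def Sq (N : ℤ) (s : ℕ) : Prop :=
  ∀ g b, τ.sd g < s → wN τ g b ≤ N → Ph l (Dl l (nd g b)) = 0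

theorem Sq.Dl_Dl (Q : Sq τ l N (s + 1)) (hu : u ≤ N) {z : G → Gam F3} (hz : z ∈ HG τ s u) :
    Dl l (Dl l z) = 0 := by
  funext h
  refine (Lf.Dl_Dl { τ with lam := l } z h).trans (Finset.sum_eq_zero fun g _ => ?_)
  by_cases hg : τ.sd g = s
  · refine (hz g).2.op_eq_zero fun b hb => (tau_eq _ _ _ _).trans ?_
    exact congrFun (Q g b (by omega) (by rw [wN]; omega)) h
  · rw [(hz g).1 hg, map_zero]

theorem Pre.step (P : Pre τ Cn l) (H : Lev0 τ Cn N S) (hs : s < S) (Q : Sq τ l N s) :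
    ∃ l', Pre τ Cn l' ∧ Sq τ l' N (s + 1) := by
  have key : ∀ g b, ∃ z, z ∈ HG τ s (wN τ g b) ∧ z ∈ SG Cn ∧
      (τ.sd g = s + 1 → wN τ g b ≤ N → nd g b - Dl l z ∈ SG Cn) ∧
      (τ.sd g ≠ s + 1 ∨ N < wN τ g b ∨ Cn g b → z = 0) := by
    intro g b
    by_cases h : τ.sd g ≠ s + 1 ∨ N < wN τ g b ∨ Cn g b
    · refine ⟨0, zero_mem _, zero_mem _, fun h1 h2 => ?_, fun _ => rfl⟩
      rw [map_zero, sub_zero]
      exact nd_SG ((h.resolve_left (not_not.2 h1)).resolve_left (not_lt.2 h2))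
    · push Not at h
      obtain ⟨z, h1, h2, h4⟩ := P.dec H hs h.2.1 (h.1 ▸ nd_mem g b)
      exact ⟨z, h1, h2, fun _ _ => h4, fun h5 => by
        rcases h5 with h5 | h5 | h5
        exacts [absurd h.1 h5, absurd h.2.1 (not_le.2 h5), absurd h5 h.2.2]⟩
  choose z hz hz1 hz2 hz0 using key
  set l' : G → G → Ex → Av F3 := fun g h b => Ph l (nd g b - Dl l (z g b)) h with hl'
  have e0 : ∀ g b, τ.sd g ≠ s + 1 ∨ N < wN τ g b ∨ Cn g b → ∀ h, l' g h b = l g h b :=
    fun g b h1 h => by simp only [hl', hz0 g b h1, map_zero, sub_zero, Ph_nd]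
  have e1 : ∀ y, Ph l' y = Ph l (y - Dl l (Zl z y)) := fun y => by
    have h : Ph l' = (Ph l).comp (LinearMap.id - (Dl l).comp (Zl z)) := by
      refine LinearMap.ext fun y => ?_
      rw [as_sum y]
      simp only [map_sum, map_smul]
      refine Finset.sum_congr rfl fun g _ => Finset.sum_congr rfl fun b _ => ?_
      congr 1
      funext h
      rw [Ph_nd, LinearMap.comp_apply, LinearMap.sub_apply, LinearMap.comp_apply, Zl_nd]
      rfl
    rw [h]
    rfl
  have e2 : ∀ g b, τ.sd g = s + 1 → (fun h => l' g h b) ∈ τ.WK 3 Uall (s + 1 + 1) (wN τ g b) :=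
    fun g b h => P.Ph_mem (sub_mem (h ▸ nd_mem g b) (P.Dl_mem (hz g b)))
  have e3 : ∀ g b, τ.sd g < s + 1 → Dl l' (nd g b) = Dl l (nd g b) := fun g b h => by
    funext h'
    rw [Dl_nd, Dl_nd, funext fun b => e0 g b (Or.inl h.ne) h']
  have e4 : ∀ u ≤ N, ∀ y ∈ HG τ s u, y ∈ SG Cn → Ph l' (Dl l y) = 0 := fun u hu y hy h1 => by
    have h2 := P.Dl_mem hy
    have h4 := lin_mem (Zl z) (fun u => HG τ s u ⊓ (SG Cn).toAddSubgroup)
      (fun _ _ _ _ ha h => ⟨HG_smul ha h.1, Submodule.smul_mem _ _ h.2⟩) h2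
      fun g b _ => by rw [Zl_nd]; exact ⟨hz g b, hz1 g b⟩
    have h5 := lin_mem (LinearMap.id - (Dl l).comp (Zl z)) (fun _ => (SG Cn).toAddSubgroup)
      (fun _ _ _ _ _ h => Submodule.smul_mem _ _ h) h2 fun g b h => by
        rw [LinearMap.sub_apply, LinearMap.comp_apply, Zl_nd]
        exact hz2 g b (HG_sd h2 h) ((HG_le h2 h).trans hu)
    have h6 := P.uniq H hs hu (sub_mem hy h4.1) (sub_mem h1 h4.2) (by rwa [map_sub])
    rw [e1, ← map_sub, h6, map_zero, map_zero]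
  refine ⟨l', ⟨fun g h b h1 => ?_, fun g h b => ?_, fun h => ?_, fun g h b h1 => ?_,
    fun g h b => ?_⟩, fun g b h1 h2 => ?_⟩
  · by_cases hg : τ.sd g = s + 1
    · exact ((e2 g b hg).1 h).1 (by rwa [← hg])
    · rw [e0 g b (Or.inl hg), P.sd_lam g h b h1]
  · by_cases hg : τ.sd g = s + 1
    · exact ((e2 g b hg).1 h).2
    · rw [e0 g b (Or.inl hg)]
      exact P.wt_lam g h b
  · rw [e0 _ _ (Or.inl (by rw [H.sd0]; omega)), P.lam0]
  · rw [e0 g b (Or.inr (Or.inr h1)), P.onC g h b h1]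
  · by_cases hN : N < wN τ g b
    · rw [e0 g b (Or.inr (Or.inl hN)), P.red]
    have h1 := H.sq s hs _ (not_lt.1 hN) _ (red_hom (hz g b)) (red_sup (hz1 g b)) h
    rw [← P.red_Dl] at h1
    simp only [hl']
    rw [map_sub, Pi.sub_apply, map_sub, Ph_nd, P.red, Ph_apply, map_sum, sub_eq_self, ← h1]
    exact Finset.sum_congr rfl fun g' _ => by rw [map_fn, funext (P.red g' h)]; rfl
  · rw [e3 g b h1]
    rcases Nat.lt_or_ge (τ.sd g) s with h4 | h4
    · rw [e1, lin_zero (Zl z) (P.Dl_mem (nd_mem g b)) fun g' b' h5 _ => by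
        rw [Zl_nd, hz0 g' b' (Or.inl (by omega))], map_zero, sub_zero, Q g b h4 h2]
    have hg : τ.sd g = s := by omega
    by_cases hC : Cn g b
    · exact e4 _ h2 _ (hg ▸ nd_mem g b) (nd_SG hC)
    rcases s with _ | s
    · obtain ⟨rfl, rfl⟩ := H.bot g b hg h2 hC
      have h5 : Dl l (nd τ.g0 0) = 0 := by
        funext h
        rw [Dl_nd, op_apply, monomial_zero', C_1, map_one, ← C_1, fn_C, P.lam0, map_zero, mul_zero,
          Pi.zero_apply]
      rw [h5, map_zero]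
    · obtain ⟨y, h5, -, h6⟩ := P.dec H (by omega) h2 (hg ▸ nd_mem g b)
      have h7 := e4 _ h2 _ (sub_mem (hg ▸ nd_mem g b) (P.Dl_mem h5)) h6
      rwa [map_sub, Q.Dl_Dl h2 h5, sub_zero] at h7

theorem exists_pre (H : Lev0 τ Cn N S) (hs : s ≤ S) : ∃ l, Pre τ Cn l ∧ Sq τ l N s := by
  induction s with
  | zero => exact ⟨τ.lam, ⟨H.sd_lam, H.wt_lam, H.lam0, fun _ _ _ _ => rfl, fun _ _ _ => rfl⟩,
      fun _ _ h => absurd h (Nat.not_lt_zero _)⟩
  | succ s ih =>
    obtain ⟨l, P, Q⟩ := ih (by omega)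
    exact P.step H hs Q

end Lf

open Lf in
/-- **Block L.** -/
theorem liftStmt [PL 3 F3] : LiftStmt := by
  intro G _ _ τ Cn N S H
  obtain ⟨l, P, Q⟩ := exists_pre H le_rfl
  refine ⟨{ τ with lam := l }, rfl, rfl, rfl, ⟨H.sd0, H.dg0, P.sd_lam, P.wt_lam,
    fun g h b hb => mem_JA_none.2 ?_, P.lam0⟩, P.onC, P.red⟩
  rw [tau_eq]
  by_cases hg : τ.sd g < S
  · exact congrFun (Q g b hg hb) h
  · refine ((P.Ph_mem (P.Dl_mem (nd_mem g b))).1 h).1 ?_
    have := H.top h
    omega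

end Vale.Agent.P236K.Cert
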