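import Vale.Agent.P236K.Cert.BarSpec
import Vale.Agent.P236K.Alg.OpB

/-!
# P236K / Cert / Bar : from a barcode to bases and to `Tors`
-/

set_option linter.unusedSectionVars false

noncomputable section

namespace Vale.Agent.P236K.Cert

open Vale.Agent.P236K.Alg MvPolynomial Finset

variable {G : Type} [Fintype G] [DecidableEq G]

/-! ### multiplication by `v_1` -/

theorem h3F : ((3 : ℕ) : F3) = 0 := ZMod.natCast_self 3

theorem vs_apply (i : ℕ) (u : G → Av F3) (g : G) : vs i u g = X 0 ^ i * u g := rfl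

theorem vs_zero (u : G → Av F3) : vs 0 u = u := by rw [vs, pow_zero, one_smul]

theorem vs_vs (i j : ℕ) (u : G → Av F3) : vs i (vs j u) = vs (i + j) u := by
  rw [vs, vs, vs, pow_add, mul_smul]

theorem vs_add (i : ℕ) (u u' : G → Av F3) : vs i (u + u') = vs i u + vs i u' := smul_add _ _ _

theorem vs_sub (i : ℕ) (u u' : G → Av F3) : vs i (u - u') = vs i u - vs i u' := smul_sub _ _ _

theorem vs_smul (i : ℕ) (c : F3) (u : G → Av F3) : vs i (c • u) = c • vs i u := smul_comm _ _ _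

theorem vs_sum {ι : Type} (i : ℕ) (F : Finset ι) (f : ι → G → Av F3) :
    vs i (∑ x ∈ F, f x) = ∑ x ∈ F, vs i (f x) := smul_sum

theorem mem_JW1 {j : ℕ} {u : G → Av F3} :
    u ∈ JW F3 G (U1 j) ↔ ∀ g e, e 0 < j → coeff e (u g) = 0 :=
  forall_congr' fun _ => mem_JA'.trans (forall_congr' fun _ => by rw [mem_U1, not_le])

theorem JW1_mono {i j : ℕ} (h : i ≤ j) {u : G → Av F3} (hu : u ∈ JW F3 G (U1 j)) :
    u ∈ JW F3 G (U1 i) := mem_JW1.2 fun g e he => mem_JW1.1 hu g e (by omega)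

theorem vs_JW (i : ℕ) {j : ℕ} {u : G → Av F3} (hu : u ∈ JW F3 G (U1 j)) :
    vs i u ∈ JW F3 G (U1 (i + j)) := mem_JW1.2 fun g e he => by
  classical
  rw [vs_apply, X_pow_eq_monomial, coeff_monomial_mul']
  split_ifs with h
  · rw [mem_JW1.1 hu g _ ?_, mul_zero]
    have := Finsupp.single_le_iff.1 h
    rw [Finsupp.tsub_apply, Finsupp.single_eq_same]
    omega
  · rfl

theorem vs_mem_JW (i : ℕ) (u : G → Av F3) : vs i u ∈ JW F3 G (U1 i) := Tw.smul_mem_JW i u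

theorem JW_of_vs {i j : ℕ} {u : G → Av F3} (hu : vs i u ∈ JW F3 G (U1 (i + j))) :
    u ∈ JW F3 G (U1 j) := mem_JW1.2 fun g e he => by
  have h := mem_JW1.1 hu g (Finsupp.single 0 i + e) (by simpa using he)
  rwa [vs_apply, X_pow_eq_monomial, coeff_monomial_mul, one_mul] at h

variable {τ : Tw F3 G}

theorem vs_WK (i : ℕ) {s : ℕ} {w w' : ℤ} {u : G → Av F3} (hu : u ∈ τ.WK 3 Uall s w)
    (e : w + 2 * i = w') : vs i u ∈ τ.WK 3 Uall s w' := by
  refine ⟨fun g => ⟨fun h => by rw [vs_apply, (hu.1 g).1 h, mul_zero], ?_⟩, fun _ => mem_JA_all _⟩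
  have h := ((isWeightedHomogeneous_X F3 (wz 3) 0).pow i).mul (hu.1 g).2
  rwa [nsmul_eq_mul, show wz 3 0 = 2 from rfl,
    show (i : ℤ) * 2 + (w - τ.dg g) = w' - τ.dg g by omega] at h

theorem exists_vs {j s : ℕ} {w w' : ℤ} {u : G → Av F3} (hu : u ∈ τ.WK 3 Uall s w)
    (h : u ∈ JW F3 G (U1 j)) (e : w' + 2 * j = w) : ∃ y ∈ τ.WK 3 Uall s w', u = vs j y := by
  classical
  refine ⟨fun g => (u g).divMonomial (Finsupp.single 0 j), ⟨fun g => ⟨fun h => ?_,
    fun m hm => ?_⟩, fun _ => mem_JA_all _⟩, funext fun g => ?_⟩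
  · change (u g).divMonomial _ = 0
    rw [(hu.1 g).1 h, zero_divMonomial]
  · rw [coeff_divMonomial] at hm
    have h1 := (hu.1 g).2 hm
    rw [map_add, Finsupp.weight_single, nsmul_eq_mul, ← e, show wz 3 0 = 2 from rfl] at h1
    omega
  · have h1 : (u g).modMonomial (Finsupp.single 0 j) = 0 := by
      ext m
      by_cases h' : Finsupp.single 0 j ≤ m
      · rw [coeff_modMonomial_of_le _ h', coeff_zero]
      · rw [coeff_modMonomial_of_not_le _ h', coeff_zero]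
        exact mem_JW1.1 h g m (by rwa [Finsupp.single_le_iff, not_le] at h')
    have h2 := divMonomial_add_modMonomial (u g) (Finsupp.single 0 j)
    rw [h1, add_zero, ← X_pow_eq_monomial] at h2
    exact h2.symm

theorem WK_neg (hd : ∀ g, 0 ≤ τ.dg g) {s : ℕ} {w : ℤ} {u : G → Av F3}
    (hu : u ∈ τ.WK 3 Uall s w) (hw : w < 0) : u = 0 := funext fun g => by
  ext m
  by_contra h
  have h1 := (hu.1 g).2 h
  have h2 := wE_nonneg 3 m
  have h3 := hd g
  change wE 3 m = _ at h1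
  omega

theorem etaA_X0 : etaA 3 F3 (X 0) = C (X 0) := by
  rw [etaA_X, etaT_X_zero 3 (cast_eq_zero_of (C.comp C) h3F), RingHom.comp_apply, io_X]

theorem act_vs (y : Gam F3) (i : ℕ) (u : G → Av F3) :
    τ.act 3 y (vs i u) = vs i (τ.act 3 y u) := funext fun h => by
  rw [vs_apply, Tw.act_apply, Tw.act_apply, mul_sum]
  refine sum_congr rfl fun g _ => ?_
  rw [vs_apply, map_mul (etaA 3 F3), map_pow, etaA_X0, mul_left_comm, ← map_pow, fn_C_mul]

theorem dW_vs (i : ℕ) (u : G → Av F3) : τ.dW 3 (vs i u) = vs i (τ.dW 3 u) := act_vs 1 i u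

theorem dW_JW {N : ℤ} {A : UpperSet Ex} (H : τ.Ok 3 N A) {j s : ℕ} {w : ℤ} {u : G → Av F3}
    (hu : u ∈ τ.WK 3 Uall s w) (h : u ∈ JW F3 G (U1 j)) : τ.dW 3 u ∈ JW F3 G (U1 j) :=
  (H.dW_mem (inv_U1 h3F j) ⟨hu.1, h⟩).2

/-! ### expansions -/

/-- the indices: a weight and a number -/
abbrev Ix : Type := (_ : ℕ) × ℕ

/-- the sum of the coefficients in a fibre -/
def pu {ι : Type} (F : Finset ι) (φ : ι → Ix) (c : ι → F3) (q : Ix) : F3 :=
  ∑ i ∈ F with φ i = q, c i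

theorem pu_self {ι : Type} {F : Finset ι} {φ : ι → Ix} (c : ι → F3) {i : ι} (hi : i ∈ F)
    (h : ∀ j ∈ F, φ j = φ i → j = i) : pu F φ c (φ i) = c i :=
  sum_eq_single_of_mem i (mem_filter.2 ⟨hi, rfl⟩) fun j hj h' =>
    absurd (h j (mem_filter.1 hj).1 (mem_filter.1 hj).2) h'

theorem pu_zero {ι : Type} {F : Finset ι} {φ : ι → Ix} (c : ι → F3) {q : Ix}
    (h : ∀ j ∈ F, φ j ≠ q) : pu F φ c q = 0 :=
  sum_eq_zero fun j hj => absurd (mem_filter.1 hj).2 (h j (mem_filter.1 hj).1)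

namespace Bar

variable (B : Bar G)

/-- the indices of weight at most `2 t` -/
def Sx (s t : ℕ) : Finset Ix := (range (t + 1)).sigma fun t' => range (B.cnt s t')

/-- the basis vector in weight `2 t` -/
def el (s t : ℕ) (q : Ix) : G → Av F3 := vs (t - q.1) (B.al s q.1 q.2)

/-- linear combinations -/
def cmb (s t : ℕ) (c : Ix → F3) : G → Av F3 := ∑ q ∈ B.Sx s t, c q • B.el s t q

/-- the end of the bar -/
def pp (s : ℕ) (q : Ix) : Ix := ⟨q.1 - B.len s q.1 q.2, B.par s q.1 q.2⟩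

/-- the sources -/
def Sr (s t : ℕ) : Finset Ix := (B.Sx s t).filter fun q => B.src s q.1 q.2 = true

variable {B}

theorem mem_Sx {s t : ℕ} {q : Ix} : q ∈ B.Sx s t ↔ q.1 ≤ t ∧ q.2 < B.cnt s q.1 := by
  rw [Sx, mem_sigma, mem_range, mem_range, Nat.lt_succ_iff]

theorem cmb_zero (s : ℕ) (c : Ix → F3) :
    B.cmb s 0 c = ∑ x ∈ range (B.cnt s 0), c ⟨0, x⟩ • B.al s 0 x := by
  simp only [cmb, Sx, sum_sigma, zero_add, range_one, sum_singleton, el, tsub_self, vs_zero]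

theorem cmb_succ (s t : ℕ) (c : Ix → F3) : B.cmb s (t + 1) c = vs 1 (B.cmb s t c) +
    ∑ x ∈ range (B.cnt s (t + 1)), c ⟨t + 1, x⟩ • B.al s (t + 1) x := by
  rw [cmb, cmb, Sx, Sx, sum_sigma, sum_sigma, sum_range_succ, vs_sum]
  congr 1
  · refine sum_congr rfl fun t' ht' => ?_
    rw [vs_sum]
    refine sum_congr rfl fun x _ => ?_
    rw [mem_range] at ht'
    rw [vs_smul, el, el, vs_vs, show t + 1 - t' = 1 + (t - t') by omega]
  · simp only [el, tsub_self, vs_zero]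

theorem cmb_congr {s t : ℕ} {c c' : Ix → F3} (h : ∀ q ∈ B.Sx s t, c q = c' q) :
    B.cmb s t c = B.cmb s t c' := sum_congr rfl fun q hq => by rw [h q hq]

theorem cmb_sub (s t : ℕ) (c c' : Ix → F3) :
    B.cmb s t (c - c') = B.cmb s t c - B.cmb s t c' := by
  simp only [cmb, Pi.sub_apply, sub_smul, sum_sub_distrib]

theorem sum_el {ι : Type} {s t : ℕ} {F : Finset ι} {φ : ι → Ix} (h : ∀ i ∈ F, φ i ∈ B.Sx s t)
    (c : ι → F3) : ∑ i ∈ F, c i • B.el s t (φ i) = B.cmb s t (pu F φ c) := by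
  rw [cmb, ← sum_fiberwise_of_maps_to h]
  refine sum_congr rfl fun q _ => ?_
  rw [pu, sum_smul]
  exact sum_congr rfl fun i hi => by rw [(mem_filter.1 hi).2]

theorem el_mem {s t : ℕ} (h : ∀ t' ≤ t, B.At τ s t') {q : Ix} (hq : q ∈ B.Sx s t) :
    B.el s t q ∈ τ.WK 3 Uall s (2 * (t : ℤ)) := by
  rw [mem_Sx] at hq
  refine vs_WK _ ((h _ hq.1).hom _ hq.2) ?_
  rw [Nat.cast_sub hq.1]
  ring

theorem exists_cmb (hd : ∀ g, 0 ≤ τ.dg g) {s t : ℕ} (h : ∀ t' ≤ t, B.At τ s t') {u : G → Av F3}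
    (hu : u ∈ τ.WK 3 Uall s (2 * (t : ℤ))) : ∃ c, u = B.cmb s t c := by
  induction t generalizing u with
  | zero =>
    obtain ⟨c, hc⟩ := (h 0 le_rfl).span u hu
    obtain ⟨y, hy, h1⟩ := exists_vs (w' := -2) (sub_mem hu (sum_mem fun x hx =>
      ZMod.smul_mem ((h 0 le_rfl).hom x (mem_range.1 hx)) (c x))) hc (by norm_num)
    rw [WK_neg hd hy (by norm_num), vs, smul_zero, sub_eq_zero] at h1
    exact ⟨fun q => c q.2, by rw [cmb_zero, h1]⟩
  | succ t ih =>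
    obtain ⟨c, hc⟩ := (h _ le_rfl).span u hu
    obtain ⟨y, hy, h1⟩ := exists_vs (w' := 2 * (t : ℤ)) (sub_mem hu (sum_mem fun x hx =>
      ZMod.smul_mem ((h _ le_rfl).hom x (mem_range.1 hx)) (c x))) hc (by push_cast; ring)
    obtain ⟨c', rfl⟩ := ih (fun t' ht' => h t' (by omega)) hy
    refine ⟨fun q => if q.1 = t + 1 then c q.2 else c' q, ?_⟩
    rw [cmb_succ, cmb_congr (c' := c') fun q hq => if_neg (by have := mem_Sx.1 hq; omega), ← h1]
    simp only [if_true, sub_add_cancel]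

theorem cmb_ind {s t : ℕ} (h : ∀ t' ≤ t, B.At τ s t') {j : ℕ} {c : Ix → F3}
    (hc : B.cmb s t c ∈ JW F3 G (U1 j)) {q : Ix} (hq : q ∈ B.Sx s t) (hj : t - q.1 < j) :
    c q = 0 := by
  rw [mem_Sx] at hq
  induction t generalizing j with
  | zero =>
    obtain ⟨t', x⟩ := q
    obtain rfl : t' = 0 := by simpa using hq.1
    rw [cmb_zero] at hc
    exact (h 0 le_rfl).ind _ (JW1_mono (by omega) hc) x hq.2
  | succ t ih =>
    obtain ⟨j, rfl⟩ : ∃ j', j = 1 + j' := ⟨j - 1, by omega⟩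
    rw [cmb_succ] at hc
    have h1 := sub_mem (JW1_mono (Nat.le_add_right 1 j) hc) (vs_mem_JW 1 (B.cmb s t c))
    rw [add_sub_cancel_left] at h1
    have h2 := (h _ le_rfl).ind _ h1
    by_cases h3 : q.1 = t + 1
    · obtain ⟨t', x⟩ := q
      obtain rfl : t' = t + 1 := h3
      exact h2 x hq.2
    · rw [sum_eq_zero fun x hx => by rw [h2 x (mem_range.1 hx), zero_smul], add_zero] at hc
      exact ih (fun t' ht' => h t' (by omega)) (JW_of_vs hc) ⟨by omega, hq.2⟩ (by omega)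

/-! ### the differential in coordinates -/

variable {a S T : ℕ} {N : ℤ} (H : B.Good τ a N S T)

include H

theorem Good.at {s t : ℕ} (hs : s ≤ S) (ht : t ≤ T) : ∀ t' ≤ t, B.At τ s t' :=
  fun t' h => H.bas s hs t' (h.trans ht)

theorem Good.d_src {s t' x : ℕ} (hs : s < S) (ht : t' ≤ T) (hx : x < B.cnt s t')
    (h : B.src s t' x = true) (i : ℕ) : τ.dW 3 (vs i (B.al s t' x)) -
      vs (i + B.len s t' x) (B.al (s + 1) (t' - B.len s t' x) (B.par s t' x)) ∈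
        JW F3 G (U1 (i + a)) := by
  rw [dW_vs, ← vs_vs, ← vs_sub]
  exact vs_JW i ((H.df s hs t' ht).src x hx h)

/-- a short bar: the vector is a boundary -/
theorem Good.hit {s t' x : ℕ} (hs : s ≤ S) (ht : t' ≤ T) (hx : x < B.cnt s t')
    (h : B.src s t' x = false) (hl : B.len s t' x < a) {i : ℕ} (hi : B.len s t' x ≤ i) :
    ∃ b ∈ τ.WBd 3 Uall (2 * (t' : ℤ) + 2 * i) s,
      b - vs i (B.al s t' x) ∈ JW F3 G (U1 (i - B.len s t' x + a)) := by
  obtain ⟨h0, h1, h2, h3, h4, h5⟩ := H.bk s hs t' ht x hx h hl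
  obtain ⟨s, rfl⟩ : ∃ s', s = s' + 1 := ⟨s - 1, by omega⟩
  rw [Nat.add_sub_cancel] at h2 h3 h4 h5
  have h6 := H.d_src hs h1 h2 h3 (i - B.len (s + 1) t' x)
  rw [h4, h5, Nat.add_sub_cancel, Nat.sub_add_cancel hi] at h6
  refine ⟨_, ⟨_, vs_WK _ ((H.bas s (by omega) _ h1).hom _ h2) ?_, rfl⟩, h6⟩
  rw [Nat.cast_sub hi]
  push_cast
  ring

theorem Good.hit_WT {s t' x : ℕ} (hs : s ≤ S) (ht : t' ≤ T) (hx : x < B.cnt s t')
    (h : B.src s t' x = false) (hl : B.len s t' x < a) {i m : ℕ} (hi : B.len s t' x ≤ i)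
    (hm : m + B.len s t' x ≤ i + a) {w : ℤ} (e : 2 * (t' : ℤ) + 2 * i = w) :
    vs i (B.al s t' x) ∈ τ.WT 3 (U1 m) w s := by
  obtain ⟨b, hb, h1⟩ := H.hit hs ht hx h hl hi
  have h2 := neg_mem (JW1_mono (show m ≤ _ by omega) h1)
  rw [neg_sub] at h2
  exact Tw.mem_WT.2 ⟨b, e ▸ hb, h2⟩

theorem Good.d_non {s t' x : ℕ} (hs : s < S) (ht : t' ≤ T) (hx : x < B.cnt s t')
    (h : B.src s t' x = false) : τ.dW 3 (B.al s t' x) ∈ JW F3 G (U1 a) := by
  rcases Nat.eq_zero_or_pos (B.len s t' x) with h0 | h0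
  · obtain ⟨b, hb, h1⟩ := H.hit hs.le ht hx h (by rw [h0]; exact H.pos) (i := 0) h0.le
    rw [vs_zero, Nat.zero_sub, zero_add] at h1
    rw [Nat.cast_zero, mul_zero, add_zero] at hb
    rcases s with _ | s
    · rw [AddSubgroup.mem_bot.1 hb, zero_sub] at h1
      exact dW_JW H.ok ((H.bas 0 hs.le t' ht).hom x hx) (neg_mem_iff.1 h1)
    · obtain ⟨y, hy, rfl⟩ := hb
      have h2 := dW_JW H.ok (sub_mem (H.ok.dW_mem inv_all hy) ((H.bas _ hs.le t' ht).hom x hx)) h1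
      have h3 : τ.dW 3 (τ.dW 3 y) ∈ JW F3 G (U1 a) :=
        (H.ok.hyp1 h3F le_rfl (by have := H.le; omega)).dW_dW hy
      have h4 := sub_mem h3 h2
      rwa [map_sub, sub_sub_cancel] at h4
  · exact (H.df s hs t' ht).cyc x hx h h0

theorem Good.pp_mem {s t : ℕ} (hs : s < S) (ht : t ≤ T) {q : Ix} (hq : q ∈ B.Sr s t) :
    B.pp s q ∈ B.Sx (s + 1) t := by
  obtain ⟨h1, h2⟩ := mem_filter.1 hq
  rw [mem_Sx] at h1
  exact mem_Sx.2 ⟨(Nat.sub_le _ _).trans h1.1,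
    ((H.cb s hs _ (h1.1.trans ht)).fwd _ h1.2 h2).2.2.1⟩

theorem Good.d_cmb {s t : ℕ} (hs : s < S) (ht : t ≤ T) (c : Ix → F3) :
    τ.dW 3 (B.cmb s t c) - B.cmb (s + 1) t (pu (B.Sr s t) (B.pp s) c) ∈ JW F3 G (U1 a) := by
  rw [← sum_el fun q hq => H.pp_mem hs ht hq, cmb, map_sum, Sr, sum_filter, ← sum_sub_distrib]
  refine sum_mem fun q hq => ?_
  rw [mem_Sx] at hq
  rw [ZMod.map_smul]
  split_ifs with h
  · rw [← smul_sub]
    refine ZMod.smul_mem ?_ _
    have h1 := ((H.cb s hs _ (hq.1.trans ht)).fwd _ hq.2 h).1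
    have h2 := H.d_src hs (hq.1.trans ht) hq.2 h (t - q.1)
    rw [show t - q.1 + B.len s q.1 q.2 = t - (q.1 - B.len s q.1 q.2) by omega] at h2
    exact JW1_mono (Nat.le_add_left _ _) h2
  · rw [sub_zero, el, dW_vs]
    exact ZMod.smul_mem (JW1_mono (Nat.le_add_left _ _)
      (vs_JW _ (H.d_non hs (hq.1.trans ht) hq.2 (by simpa using h)))) _

/-- a cocycle has no component on the visible sources -/
theorem Good.src_zero {s t : ℕ} (hs : s < S) (ht : t ≤ T) {c : Ix → F3} {j : ℕ} (hj : j ≤ a)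
    (hc : τ.dW 3 (B.cmb s t c) ∈ JW F3 G (U1 j)) {q : Ix} (hq : q ∈ B.Sx s t)
    (h : B.src s q.1 q.2 = true) (hl : t - q.1 + B.len s q.1 q.2 < j) : c q = 0 := by
  have h1 := sub_mem hc (JW1_mono hj (H.d_cmb hs ht c))
  rw [sub_sub_cancel] at h1
  have hq' : q ∈ B.Sr s t := mem_filter.2 ⟨hq, h⟩
  rw [mem_Sx] at hq
  obtain ⟨h2, -, -, -, h3, h4⟩ := (H.cb s hs _ (hq.1.trans ht)).fwd _ hq.2 h
  rw [← pu_self c hq' fun q' hq'' e => ?_]
  · exact cmb_ind (H.at hs ht) h1 (H.pp_mem hs ht hq') (by change t - (q.1 - _) < j; omega)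
  · obtain ⟨h5, h6⟩ := mem_filter.1 hq''
    rw [mem_Sx] at h5
    obtain ⟨h7, -, -, -, h8, h9⟩ := (H.cb s hs _ (h5.1.trans ht)).fwd _ h5.2 h6
    obtain ⟨e1, e2⟩ := Sigma.mk.inj_iff.1 e
    rw [heq_iff_eq] at e2
    rw [e1, e2] at h8 h9
    exact Sigma.ext (by omega) (heq_iff_eq.2 (by omega))

/-- a boundary has no component outside the ends of the bars -/
theorem Good.bd_zero {s t : ℕ} (hs : s ≤ S) (ht : t ≤ T) {c : Ix → F3} {m : ℕ} (hm : m ≤ a)
    (hc : B.cmb s t c ∈ τ.WT 3 (U1 m) (2 * (t : ℤ)) s) {q : Ix} (hq : q ∈ B.Sx s t)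
    (hi : t - q.1 < m) (h : B.src s q.1 q.2 = false → t - q.1 < B.len s q.1 q.2) : c q = 0 := by
  obtain ⟨b, hb, h1⟩ := Tw.mem_WT.1 hc
  change B.cmb s t c - b ∈ JW F3 G (U1 m) at h1
  rcases s with _ | s
  · rw [AddSubgroup.mem_bot.1 hb, sub_zero] at h1
    exact cmb_ind (H.at hs ht) h1 hq hi
  · obtain ⟨y, hy, rfl⟩ := hb
    obtain ⟨b, rfl⟩ := exists_cmb H.dg (H.at (by omega) ht) hy
    have h2 := add_mem h1 (JW1_mono hm (H.d_cmb hs ht b))
    rw [sub_add_sub_cancel, ← cmb_sub] at h2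
    have h3 := cmb_ind (H.at hs ht) h2 hq hi
    rwa [Pi.sub_apply, pu_zero b fun q' hq' e => ?_, sub_zero] at h3
    obtain ⟨h5, h6⟩ := mem_filter.1 hq'
    rw [mem_Sx] at h5
    obtain ⟨h7, -, -, h8, h9, -⟩ := (H.cb s hs _ (h5.1.trans ht)).fwd _ h5.2 h6
    subst e
    have h10 := h h8
    change t - (q'.1 - _) < B.len (s + 1) (q'.1 - _) (B.par s q'.1 q'.2) at h10
    omega

theorem Good.bas' {m s t n : ℕ} (hm : m ≤ a) (hs : s < S) (ht : t ≤ T) {li lx : ℕ → ℕ}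
    (L : B.Lst a m s t n li lx) : Bas τ a m s (2 * (t : ℤ)) n (B.rep s t li lx) := by
  set φ : ℕ → Ix := fun j => ⟨t - li j, lx j⟩ with hφ
  have hS : ∀ j ∈ range n, φ j ∈ B.Sx s t := fun j hj =>
    mem_Sx.2 ⟨Nat.sub_le _ _, (L.alive j (mem_range.1 hj)).2.2.1⟩
  have hi : ∀ j < n, t - (φ j).1 = li j := fun j hj => Nat.sub_sub_self (L.alive j hj).2.1
  have hr : ∀ j ∈ range n, B.rep s t li lx j = B.el s t (φ j) := fun j hj => by
    rw [el, hi j (mem_range.1 hj), rep]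
  have hI : ∀ j ∈ range n, ∀ j' ∈ range n, φ j = φ j' → j = j' := fun j hj j' hj' e => by
    rw [mem_range] at hj hj'
    refine L.inj j hj j' hj' (by rw [← hi j hj, ← hi j' hj', e]) ?_
    exact congrArg (fun q : Ix => q.2) e
  have hsum : ∀ c : ℕ → F3, ∑ j ∈ range n, c j • B.rep s t li lx j =
      ∑ j ∈ range n, c j • B.el s t (φ j) := fun c => sum_congr rfl fun j hj => by rw [hr j hj]
  refine ⟨fun j hj => ⟨?_, ?_⟩, fun c hc j hj => ?_, fun u hu => ?_⟩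
  · rw [hr j (mem_range.2 hj)]
    exact el_mem (H.at hs.le ht) (hS j (mem_range.2 hj))
  · obtain ⟨-, h1, h2, h3, -⟩ := L.alive j hj
    change τ.dW 3 (vs _ _) ∈ JW F3 G (U1 a)
    rcases h : B.src s (t - li j) (lx j) with _ | _
    · rw [dW_vs]
      exact JW1_mono (Nat.le_add_left _ _) (vs_JW _ (H.d_non hs (by omega) h2 h))
    · have h4 := add_mem (JW1_mono (Nat.le_add_left _ _) (H.d_src hs (by omega) h2 h (li j)))
        (JW1_mono (h3 h) (vs_mem_JW _ (B.al (s + 1) (t - li j - B.len s (t - li j) (lx j))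
          (B.par s (t - li j) (lx j)))))
      rwa [sub_add_cancel] at h4
  · rw [hsum, sum_el hS] at hc
    rw [← pu_self c (mem_range.2 hj) fun j' hj' => hI j' hj' j (mem_range.2 hj)]
    obtain ⟨h0, -, -, -, h4⟩ := L.alive j hj
    exact H.bd_zero hs.le ht hm hc (hS j (mem_range.2 hj)) (by rwa [hi j hj])
      (by rwa [hi j hj])
  · obtain ⟨c, rfl⟩ := exists_cmb H.dg (H.at hs.le ht) hu.1
    refine ⟨fun j => c (φ j), ?_⟩
    rw [hsum, ← sum_image (f := fun q => c q • B.el s t q) hI, cmb,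
      ← sum_sdiff (image_subset_iff.2 hS), add_sub_cancel_right]
    refine sum_mem fun q hq => ?_
    obtain ⟨h1, h2⟩ := mem_sdiff.1 hq
    have h3 := mem_Sx.1 h1
    have h4 : ¬ B.Alive a m s t (t - q.1) q.2 := fun h => by
      obtain ⟨j, hj, e1, e2⟩ := L.all _ _ h
      refine h2 (mem_image.2 ⟨j, mem_range.2 hj, Sigma.ext ?_ (heq_iff_eq.2 e2)⟩)
      change t - li j = q.1
      omega
    by_cases h5 : t - q.1 < m
    · rw [Alive, Nat.sub_sub_self h3.1] at h4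
      rcases h : B.src s q.1 q.2 with _ | _
      · have h6 : B.len s q.1 q.2 ≤ t - q.1 := by
          by_contra h7
          exact h4 ⟨h5, Nat.sub_le _ _, h3.2, by simp [h], fun _ => by omega⟩
        refine ZMod.smul_mem (H.hit_WT hs.le (by omega) h3.2 h (by omega) h6 (by omega) ?_) _
        rw [Nat.cast_sub h3.1]
        ring
      · rw [H.src_zero hs ht le_rfl hu.2 h1 h ?_, zero_smul]
        · exact zero_mem _
        · by_contra h7
          exact h4 ⟨h5, Nat.sub_le _ _, h3.2, fun _ => by omega, by simp [h]⟩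
    · exact ZMod.smul_mem (Tw.mem_WT_of_JW (JW1_mono (by omega) (vs_mem_JW _ _))) _

theorem Good.wChk {s t j : ℕ} (hs : s < S) (ht : t ≤ T) (hj : j < a)
    (h : ∀ x < B.cnt s t, B.src s t x = false → B.len s t x ≤ j) :
    τ.WChk 3 a s (2 * (t : ℤ)) j 1 := by
  intro u hu
  obtain ⟨c, rfl⟩ := exists_cmb H.dg (H.at hs.le ht) hu.1
  change vs j (B.cmb s t c) ∈ _
  rw [cmb, vs_sum]
  refine sum_mem fun q hq => ?_
  have h3 := mem_Sx.1 hq
  rw [vs_smul, el, vs_vs]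
  by_cases h5 : q.1 = t
  · rcases h6 : B.src s q.1 q.2 with _ | _
    · have h7 := h q.2 (h5 ▸ h3.2) (h5 ▸ h6)
      rw [← h5] at h7
      refine ZMod.smul_mem (H.hit_WT hs.le (by omega) h3.2 h6 (by omega) (by omega) (by omega) ?_) _
      rw [h5, tsub_self, add_zero, show wz 3 0 = 2 from rfl, mul_comm (j : ℤ)]
    · rw [H.src_zero hs ht le_rfl hu.2 hq h6 ?_, zero_smul]
      · exact zero_mem _
      · have := ((H.cb s hs _ (by omega)).fwd _ h3.2 h6).2.1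
        omega
  · exact ZMod.smul_mem (Tw.mem_WT_of_JW (JW1_mono (by omega) (vs_mem_JW _ _))) _

/-- **the criterion for `Tors`**: every bar which starts in weight at most `2 t` is short and ends
in weight at most `2 (t + j)` -/
theorem Good.tors {s : ℕ} (hs : s < S) (hE : ∀ r < s, τ.Exa 3 N r) {t : ℕ} (ht : t ≤ T) {j : ℕ}
    (h : ∀ t' ≤ t, ∀ x < B.cnt s t', B.src s t' x = false →
      B.len s t' x < a ∧ t' + B.len s t' x ≤ t + j) : Tors 3 F3 s (2 * (t : ℤ)) j := by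
  have key : ∀ t ≤ T, ∀ j < a, (∀ x < B.cnt s t, B.src s t x = false → B.len s t x ≤ j) →
      Tors 3 F3 s (2 * (t : ℤ) - 2) (j + 1) → Tors 3 F3 s (2 * (t : ℤ)) j :=
    fun t ht j hj h1 h2 => H.ok.tors_rule h3F hE hj
      (by rw [show wz 3 0 = 2 from rfl]; have := H.le; omega)
      (by rw [show wz 3 0 = 2 from rfl]; omega) (H.wChk hs ht hj h1) h2
  have hp := H.pos
  induction t generalizing j with
  | zero =>
    refine (key 0 ht (min j (a - 1)) (by omega) (fun x hx h1 => ?_)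
      (tors_neg _ (by norm_num) _)).mono h3F (min_le_left _ _)
    have := h 0 le_rfl x hx h1
    omega
  | succ t ih =>
    refine (key _ ht (min j (a - 1)) (by omega) (fun x hx h1 => ?_) ?_).mono h3F (min_le_left _ _)
    · have := h _ le_rfl x hx h1
      omega
    · rw [show 2 * ((t + 1 : ℕ) : ℤ) - 2 = 2 * (t : ℤ) by push_cast; ring]
      refine ih (by omega) fun t' ht' x hx h1 => ?_
      have := h t' (by omega) x hx h1
      omega

end Bar

/-- block B1a -/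
theorem basStmt : BasStmt := fun _ _ _ _ _ _ _ _ _ H _ hm _ hs _ ht _ _ _ L => H.bas' hm hs ht L

/-- block B1b -/
theorem torsStmt : TorsStmt := fun _ _ _ B _ a _ _ _ H s hs hE t ht j hj h1 h2 =>
  H.tors hs hE ht fun t' ht' x hx h => by
    by_cases h3 : t - t' + j < a
    · have h4 := h2 (t - t') h3 (Nat.sub_le _ _) x (by rwa [Nat.sub_sub_self ht'])
      rw [Nat.sub_sub_self ht'] at h4
      have := h4.2 h
      omega
    · have := h1 (by omega) t' (by omega) x hx h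
      omega

end Vale.Agent.P236K.Cert
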