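import Vale.Agent.P236K.Cert.Bar

/-!
# P236K / Cert / Bar2 : the canonical list of representatives, relative `Tors`, low weights
-/

set_option linter.unusedSectionVars false

noncomputable section

namespace Vale.Agent.P236K.Cert

open Vale.Agent.P236K.Alg MvPolynomial Finset

variable {G : Type} [Fintype G] [DecidableEq G] {τ : Tw F3 G}

namespace Bar

variable (B : Bar G)

/-- the test for `Alive` -/
def alB (a s t i x : ℕ) : Bool :=
  cond (B.src s (t - i) x) (Nat.ble a (i + B.len s (t - i) x)) (Nat.blt i (B.len s (t - i) x))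

/-- the list of the pairs which are alive, sorted by `i` and then by `x` -/
def alv (a m s t : ℕ) : List (ℕ × ℕ) := (List.range (min m (t + 1))).flatMap fun i =>
  ((List.range (B.cnt s (t - i))).filter (B.alB a s t i)).map (Prod.mk i)

variable {B}

theorem mem_alv {a m s t i x : ℕ} : (i, x) ∈ B.alv a m s t ↔ B.Alive a m s t i x := by
  simp only [alv, List.mem_flatMap, List.mem_range, List.mem_map, List.mem_filter, Prod.mk.injEq,
    Alive, alB]
  constructor
  · rintro ⟨i', h1, x', ⟨h2, h3⟩, rfl, rfl⟩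
    refine ⟨by omega, by omega, h2, fun h => ?_, fun h => ?_⟩ <;> rw [h] at h3
    · exact Nat.ble_eq ▸ h3
    · exact Nat.blt_eq ▸ h3
  · rintro ⟨h1, h2, h3, h4, h5⟩
    refine ⟨i, by omega, x, ⟨h3, ?_⟩, rfl, rfl⟩
    rcases h : B.src s (t - i) x with _ | _
    · exact Nat.blt_eq ▸ h5 h
    · exact Nat.ble_eq ▸ h4 h

theorem nodup_alv (a m s t : ℕ) : (B.alv a m s t).Nodup := by
  refine List.nodup_flatMap.2 ⟨fun i _ => (List.nodup_range.filter _).map
    fun _ _ h => (Prod.mk.inj h).2, List.nodup_range.pairwise_of_forall_ne fun i _ j _ h => ?_⟩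
  intro q h1 h2
  obtain ⟨_, _, rfl⟩ := List.mem_map.1 h1
  obtain ⟨_, _, e⟩ := List.mem_map.1 h2
  exact h (Prod.mk.inj e).1.symm

/-- any list with the right members -/
theorem lst_of {a m s t : ℕ} {L : List (ℕ × ℕ)} (h1 : L.Nodup)
    (h2 : ∀ i x, (i, x) ∈ L ↔ B.Alive a m s t i x) :
    B.Lst a m s t L.length (fun j => (L.getD j (0, 0)).1) fun j => (L.getD j (0, 0)).2 where
  alive j hj := (h2 _ _).1 (by rw [List.getD_eq_getElem _ _ hj]; exact List.getElem_mem hj)
  inj j hj j' hj' e1 e2 := by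
    have h := Prod.ext e1 e2
    rw [List.getD_eq_getElem _ _ hj, List.getD_eq_getElem _ _ hj'] at h
    exact (h1.getElem_inj_iff).1 h
  all i x h := by
    obtain ⟨j, hj, e⟩ := List.getElem_of_mem ((h2 i x).2 h)
    exact ⟨j, hj, by rw [List.getD_eq_getElem _ _ hj, e], by rw [List.getD_eq_getElem _ _ hj, e]⟩

variable {a S T : ℕ} {N : ℤ} (H : B.Good τ a N S T)

include H

/-- the basis given by the list `alv` -/
theorem Good.bas_alv {m s t : ℕ} (hm : m ≤ a) (hs : s < S) (ht : t ≤ T) {L : List (ℕ × ℕ)}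
    (hL : B.alv a m s t = L) : Bas τ a m s (2 * (t : ℤ)) L.length
      (B.rep s t (fun j => (L.getD j (0, 0)).1) fun j => (L.getD j (0, 0)).2) :=
  H.bas' hm hs ht (lst_of (hL ▸ nodup_alv a m s t) fun _ _ => hL ▸ mem_alv)

theorem Good.wChk' {s t j a' : ℕ} (hs : s < S) (ht : t ≤ T) (ha : a ≤ a')
    (h : ∀ x < B.cnt s t, B.src s t x = false → B.len s t x < a ∧ B.len s t x ≤ j) :
    τ.WChk 3 a' s (2 * (t : ℤ)) j 1 := by
  intro u hu
  obtain ⟨c, rfl⟩ := exists_cmb H.dg (H.at hs.le ht) hu.1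
  change vs j (B.cmb s t c) ∈ _
  rw [cmb, vs_sum]
  refine sum_mem fun q hq => ?_
  have h3 := mem_Sx.1 hq
  rw [vs_smul, el, vs_vs]
  by_cases h5 : q.1 = t
  · rcases h6 : B.src s q.1 q.2 with _ | _
    · have h7 := h q.2 (h5 ▸ h3.2) (h5 ▸ h6)
      rw [← h5] at h7
      refine ZMod.smul_mem (H.hit_WT hs.le (by omega) h3.2 h6 (by omega) (by omega) (by omega) ?_) _
      rw [h5, tsub_self, add_zero, show wz 3 0 = 2 from rfl, mul_comm (j : ℤ)]
    · rw [H.src_zero hs ht le_rfl (JW1_mono ha hu.2) hq h6 ?_, zero_smul]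
      · exact zero_mem _
      · have := ((H.cb s hs _ (by omega)).fwd _ h3.2 h6).2.1
        omega
  · exact ZMod.smul_mem (Tw.mem_WT_of_JW (JW1_mono (by omega) (vs_mem_JW _ _))) _

/-- the relative criterion for an exact lift: the bars which start in weight at most `2 t₀` are
controlled by `h0` (which may come from another barcode) -/
theorem Good.tors_rel (hX : τ.Ok 3 N Unone) {s : ℕ} (hs : s < S) (hE : ∀ r < s, τ.Exa 3 N r)
    {t₀ t : ℕ} (h1 : t₀ ≤ t) (ht : t ≤ T) {j : ℕ} (hN : 2 * ((t : ℤ) + j) ≤ N)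
    (h0 : Tors 3 F3 s (2 * (t₀ : ℤ)) (j + (t - t₀)))
    (h : ∀ t' ≤ t, t₀ < t' → ∀ x < B.cnt s t', B.src s t' x = false →
      B.len s t' x < a ∧ t' + B.len s t' x ≤ t + j) : Tors 3 F3 s (2 * (t : ℤ)) j := by
  induction t, h1 using Nat.le_induction generalizing j with
  | base => rwa [tsub_self, add_zero] at h0
  | succ t h1 ih =>
    refine (hX.mono (V := U1 (a + j + 1)) (fun e he => absurd he (not_mem_Unone e))
      le_rfl).tors_rule h3F hE (u' := 2 * (t : ℤ)) (l := 1) (by omega)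
      (by rw [show wz 3 0 = 2 from rfl]; omega) (by rw [show wz 3 0 = 2 from rfl]; omega)
      (H.wChk' hs ht (by omega) fun x hx h2 => ?_) (ih (by omega) (by omega) ?_
        fun t' h2 h3 x hx h4 => ?_)
    · have := h _ le_rfl (by omega) x hx h2
      omega
    · rwa [show j + 1 + (t - t₀) = j + (t + 1 - t₀) by omega]
    · have := h t' (by omega) h3 x hx h4
      omega

end Bar

/-! ### low weights -/

theorem eq_zero_of_JW (hd : ∀ g, 0 ≤ τ.dg g) {s j : ℕ} {w : ℤ} (hw : w < 2 * j) {u : G → Av F3}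
    (hu : u ∈ τ.WK 3 Uall s w) (h : u ∈ JW F3 G (U1 j)) : u = 0 := by
  obtain ⟨y, hy, rfl⟩ := exists_vs (w' := w - 2 * j) hu h (by ring)
  rw [WK_neg hd hy (by omega), vs, smul_zero]

variable {N : ℤ} {A : UpperSet Ex} (H : τ.Ok 3 N A) (hd : ∀ g, 0 ≤ τ.dg g) {s j : ℕ} {w : ℤ}
  (hw : w < 2 * j)

include H hd hw

theorem WZ_none {u : G → Av F3} (hu : u ∈ τ.WZ 3 (U1 j) w s) : u ∈ τ.WZ 3 Unone w s :=
  ⟨hu.1, fun g => by
    rw [eq_zero_of_JW hd hw (H.dW_mem inv_all hu.1) hu.2]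
    exact zero_mem _⟩

theorem WT_none {u : G → Av F3} (hu : u ∈ τ.WK 3 Uall s w) (h : u ∈ τ.WT 3 (U1 j) w s) :
    u ∈ τ.WT 3 Unone w s := by
  obtain ⟨b, hb, h1⟩ := Tw.mem_WT.1 h
  have h2 : b ∈ τ.WK 3 Uall s w := by
    rcases s with _ | s
    · rw [AddSubgroup.mem_bot.1 hb]
      exact zero_mem _
    · obtain ⟨y, hy, rfl⟩ := hb
      exact H.dW_mem inv_all hy
  rw [sub_eq_zero.1 (eq_zero_of_JW hd hw (sub_mem hu h2) h1)]
  exact AddSubgroup.mem_sup_left hb

end Vale.Agent.P236K.Cert
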