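import Vale.Agent.P236K.Alg.Tw

/-!
# P236K / Cert / Spec : lift by construction, certification of single nodes

A node is a pair `(g, b)`, the basis element `t^b g`. `Cn` is a set of nodes (the complement of the
pivots of the image of the differential modulo `I`). The twisting data `τ₀` has constant values.
-/

noncomputable section

namespace Vale.Agent.P236K.Cert

open Vale.Agent.P236K.Alg MvPolynomial

variable {G : Type} [Fintype G] [DecidableEq G]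

/-- the ground field -/
abbrev F3 : Type := ZMod 3

/-- supported on the nodes of `Cn` -/
def Sup (Cn : G → Ex → Prop) (z : G → Av F3) : Prop := ∀ g b, ¬ Cn g b → coeff b (z g) = 0

/-- the weight of a node -/
def wN (τ : Tw F3 G) (g : G) (b : Ex) : ℤ := wE 3 b + τ.dg g

variable [PL 3 F3]

/-- the conditions modulo `I` -/
structure Lev0 (τ : Tw F3 G) (Cn : G → Ex → Prop) (N : ℤ) (S : ℕ) : Prop where
  sd0 : τ.sd τ.g0 = 0
  dg0 : τ.dg τ.g0 = 0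
  top : ∀ g, τ.sd g ≤ S + 1
  sd_lam : ∀ g h b, τ.sd h ≠ τ.sd g + 1 → τ.lam g h b = 0
  wt_lam : ∀ g h b, WA 3 (wE 3 b + τ.dg g - τ.dg h) (τ.lam g h b)
  lam0 : ∀ h, τ.lam τ.g0 h 0 = 0
  const : ∀ g h b, τ.lam g h b = C (cc F3 (τ.lam g h b))
  bot : ∀ g b, τ.sd g = 0 → wN τ g b ≤ N → ¬ Cn g b → g = τ.g0 ∧ b = 0
  span : ∀ s < S, ∀ u ≤ N, ∀ y, τ.Hom 3 (s + 1) u y →
    ∃ z, τ.Hom 3 s u z ∧ Sup Cn z ∧ Sup Cn (y - τ.d0 3 z)
  inj : ∀ s < S, ∀ u ≤ N, ∀ z, τ.Hom 3 s u z → Sup Cn z → Sup Cn (τ.d0 3 z) → z = 0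
  sq : ∀ s < S, ∀ u ≤ N, ∀ z, τ.Hom 3 s u z → Sup Cn z →
    ∀ l, ∑ h, fn (fun b => cc F3 (τ.lam h l b)) (τ.d0 3 z h) = 0

/-- `τ` is an exact lift of `τ₀` which agrees with `τ₀` on the nodes of `Cn` -/
structure IsLift (τ₀ : Tw F3 G) (Cn : G → Ex → Prop) (N : ℤ) (τ : Tw F3 G) : Prop where
  sd : τ.sd = τ₀.sd
  dg : τ.dg = τ₀.dg
  g0 : τ.g0 = τ₀.g0
  ok : τ.Ok 3 N Unone
  onC : ∀ g h b, Cn g b → τ.lam g h b = τ₀.lam g h b
  red : ∀ g h b, cc F3 (τ.lam g h b) = cc F3 (τ₀.lam g h b)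

/-- block L : existence of the lift -/
def LiftStmt : Prop := ∀ (G : Type) [Fintype G] [DecidableEq G] (τ₀ : Tw F3 G)
  (Cn : G → Ex → Prop) (N : ℤ) (S : ℕ), Lev0 τ₀ Cn N S → ∃ τ, IsLift τ₀ Cn N τ

variable {R : Type} [CommRing R]

/-- the semilinear functional with value `B h b` on the node `(h, b)` -/
def Bt (κ : Av F3 →+* R) (B : G → Ex → R) (y : G → Gam F3) : R := ∑ h, fn (B h) (mA κ (y h))

/-- the differential of a node -/
def DD (τ : Tw F3 G) (g : G) (b : Ex) : G → Gam F3 := fun h => op 3 (τ.lam g h) (monomial b 1)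

/-- the packed value of a node -/
def Psi (κ : Av F3 →+* R) (o : G → R) (τ : Tw F3 G) (g : G) (b : Ex) : R :=
  ∑ h, κ (τ.lam g h b) * o h

/-- `B` has the true value on `Cn` and the value `X` on the other nodes of `Need` -/
def Adm (κ : Av F3 →+* R) (o : G → R) (τ : Tw F3 G) (Cn : G → Ex → Prop) (N : ℤ) (s : ℕ)
    (Need : ℤ → Finset (G × Ex)) (X B : G → Ex → R) : Prop :=
  ∀ h b, τ.sd h = s → wN τ h b ≤ N → (Cn h b → B h b = Psi κ o τ h b) ∧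
    (¬ Cn h b → (h, b) ∈ Need (wN τ h b) → B h b = X h b)

/-- block U : the claimed values `X` are the true values -/
def UniqStmt : Prop := ∀ (G : Type) [Fintype G] [DecidableEq G] (τ₀ : Tw F3 G)
  (Cn : G → Ex → Prop) (N : ℤ) (S : ℕ), Lev0 τ₀ Cn N S → ∀ τ, IsLift τ₀ Cn N τ →
  ∀ s < S, ∀ (R : Type) [CommRing R] [Nontrivial R] (κ : Av F3 →+* R) (o : G → R)
    (Need Rows : ℤ → Finset (G × Ex)) (X : G → Ex → R),
    (∀ u ≤ N, ∀ r ∈ Rows u, τ.sd r.1 = s ∧ wN τ r.1 r.2 = u ∧ Cn r.1 r.2) →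
    (∀ u ≤ N, (Need u).card ≤ (Rows u).card) →
    (∀ u ≤ N, ∀ r ∈ Rows u, ∀ B, Adm κ o τ Cn N (s + 1) Need X B → Bt κ B (DD τ r.1 r.2) = 0) →
    ∀ h b, τ.sd h = s + 1 → wN τ h b ≤ N → ¬ Cn h b → (h, b) ∈ Need (wN τ h b) →
      Psi κ o τ h b = X h b

end Vale.Agent.P236K.Cert
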