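import Vale.Agent.P236K.Alg.V1
import Vale.Agent.P236K.Cert.Spec

/-!
# P236K / Cert / BarSpec : bases of the cohomology of `W / v_1 ^ m` from a barcode

Weights are written `2 * t`; `v_1` has weight `2`.
-/

noncomputable section

namespace Vale.Agent.P236K.Cert

open Vale.Agent.P236K.Alg MvPolynomial Finset

variable {G : Type} [Fintype G] [DecidableEq G]

/-- multiplication by `v_1 ^ i` -/
def vs (i : ℕ) (u : G → Av F3) : G → Av F3 := (X 0 ^ i : Av F3) • u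

/-- `r 0, …, r (n - 1)` is a basis of the image of `H (W / v_1 ^ a)` in `H (W / v_1 ^ m)` -/
structure Bas (τ : Tw F3 G) (a m s : ℕ) (w : ℤ) (n : ℕ) (r : ℕ → G → Av F3) : Prop where
  mem : ∀ i < n, r i ∈ τ.WZ 3 (U1 a) w s
  ind : ∀ c : ℕ → F3, ∑ i ∈ range n, c i • r i ∈ τ.WT 3 (U1 m) w s → ∀ i < n, c i = 0
  span : ∀ u ∈ τ.WZ 3 (U1 a) w s, ∃ c : ℕ → F3,
    u - ∑ i ∈ range n, c i • r i ∈ τ.WT 3 (U1 m) w s

/-- barcode data: the vectors `al s t x`, `x < cnt s t`, in degree `s` and weight `2 t` -/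
structure Bar (G : Type) where
  /-- the number of vectors -/
  cnt : ℕ → ℕ → ℕ
  /-- the vectors -/
  al : ℕ → ℕ → ℕ → G → Av F3
  /-- is it the source of a bar -/
  src : ℕ → ℕ → ℕ → Bool
  /-- the length of the bar (at least `a` if no source is known) -/
  len : ℕ → ℕ → ℕ → ℕ
  /-- the other end of the bar -/
  par : ℕ → ℕ → ℕ → ℕ

namespace Bar

variable (B : Bar G) (τ : Tw F3 G) (a : ℕ)

/-- the vectors are a basis modulo `v_1` -/
structure At (s t : ℕ) : Prop where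
  hom : ∀ x < B.cnt s t, B.al s t x ∈ τ.WK 3 Uall s (2 * (t : ℤ))
  span : ∀ y ∈ τ.WK 3 Uall s (2 * (t : ℤ)), ∃ c : ℕ → F3,
    y - ∑ x ∈ range (B.cnt s t), c x • B.al s t x ∈ JW F3 G (U1 1)
  ind : ∀ c : ℕ → F3, ∑ x ∈ range (B.cnt s t), c x • B.al s t x ∈ JW F3 G (U1 1) →
    ∀ x < B.cnt s t, c x = 0

/-- the combinatorial conditions -/
structure Cb (s t : ℕ) : Prop where
  fwd : ∀ x < B.cnt s t, B.src s t x = true → B.len s t x ≤ t ∧ B.len s t x < a ∧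
    B.par s t x < B.cnt (s + 1) (t - B.len s t x) ∧
    B.src (s + 1) (t - B.len s t x) (B.par s t x) = false ∧
    B.len (s + 1) (t - B.len s t x) (B.par s t x) = B.len s t x ∧
    B.par (s + 1) (t - B.len s t x) (B.par s t x) = x

/-- every short bar has a source of weight at most `T` -/
def Bk (T s t : ℕ) : Prop :=
  ∀ x < B.cnt s t, B.src s t x = false → B.len s t x < a → 0 < s ∧ t + B.len s t x ≤ T ∧
    B.par s t x < B.cnt (s - 1) (t + B.len s t x) ∧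
    B.src (s - 1) (t + B.len s t x) (B.par s t x) = true ∧
    B.len (s - 1) (t + B.len s t x) (B.par s t x) = B.len s t x ∧
    B.par (s - 1) (t + B.len s t x) (B.par s t x) = x

/-- the differential -/
structure Df (s t : ℕ) : Prop where
  src : ∀ x < B.cnt s t, B.src s t x = true → τ.dW 3 (B.al s t x) -
    vs (B.len s t x) (B.al (s + 1) (t - B.len s t x) (B.par s t x)) ∈ JW F3 G (U1 a)
  cyc : ∀ x < B.cnt s t, B.src s t x = false → 0 < B.len s t x →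
    τ.dW 3 (B.al s t x) ∈ JW F3 G (U1 a)

/-- the barcode is correct in degrees up to `S` and weights up to `2 T` -/
structure Good (N : ℤ) (S T : ℕ) : Prop where
  ok : τ.Ok 3 N (U1 a)
  pos : 0 < a
  dg : ∀ g, 0 ≤ τ.dg g
  le : 2 * ((T : ℤ) + a) ≤ N
  bas : ∀ s ≤ S, ∀ t ≤ T, B.At τ s t
  cb : ∀ s < S, ∀ t ≤ T, B.Cb a s t
  bk : ∀ s ≤ S, ∀ t ≤ T, B.Bk a T s t
  df : ∀ s < S, ∀ t ≤ T, B.Df τ a s t

/-- `v_1 ^ i * al s (t - i) x` is a basis vector in weight `2 t` -/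
def Alive (m s t i x : ℕ) : Prop := i < m ∧ i ≤ t ∧ x < B.cnt s (t - i) ∧
  (B.src s (t - i) x = true → a ≤ i + B.len s (t - i) x) ∧
  (B.src s (t - i) x = false → i < B.len s (t - i) x)

/-- `(li j, lx j)`, `j < n`, is the list of the pairs which are alive -/
structure Lst (m s t n : ℕ) (li lx : ℕ → ℕ) : Prop where
  alive : ∀ j < n, B.Alive a m s t (li j) (lx j)
  inj : ∀ j < n, ∀ j' < n, li j = li j' → lx j = lx j' → j = j'
  all : ∀ i x, B.Alive a m s t i x → ∃ j < n, li j = i ∧ lx j = x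

/-- the representatives -/
def rep (s t : ℕ) (li lx : ℕ → ℕ) (j : ℕ) : G → Av F3 := vs (li j) (B.al s (t - li j) (lx j))

/-- all bars of weight at most `2 t` are short -/
def Short (s t : ℕ) : Prop := ∀ t' ≤ t, ∀ x < B.cnt s t', B.src s t' x = false → B.len s t' x < a

/-- the local condition for `Tors s (2 t) j` -/
def Loc (s t j : ℕ) : Prop := ∀ i, i + j < a → i ≤ t → ∀ x < B.cnt s (t - i),
  (B.src s (t - i) x = true → i + B.len s (t - i) x < a) ∧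
  (B.src s (t - i) x = false → B.len s (t - i) x ≤ i + j)

end Bar

/-- block B1a -/
def BasStmt : Prop := ∀ (G : Type) [Fintype G] [DecidableEq G] (B : Bar G) (τ : Tw F3 G)
  (a : ℕ) (N : ℤ) (S T : ℕ), B.Good τ a N S T → ∀ m ≤ a, ∀ s < S, ∀ t ≤ T, ∀ n li lx,
    B.Lst a m s t n li lx → Bas τ a m s (2 * (t : ℤ)) n (B.rep s t li lx)

/-- block B1b -/
def TorsStmt : Prop := ∀ (G : Type) [Fintype G] [DecidableEq G] (B : Bar G) (τ : Tw F3 G)
  (a : ℕ) (N : ℤ) (S T : ℕ), B.Good τ a N S T → ∀ s < S, (∀ r < s, τ.Exa 3 N r) → ∀ t ≤ T,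
    ∀ j < a, (a - j ≤ t → B.Short a s (t - (a - j))) → B.Loc a s t j →
      Tors 3 F3 s (2 * (t : ℤ)) j

/-- block B1c : a triangular family is a basis modulo `v_1` -/
def TriStmt : Prop := ∀ (G : Type) [Fintype G] [DecidableEq G] (τ : Tw F3 G) (s : ℕ) (w : ℤ)
  (n : ℕ) (pg : ℕ → G) (pe : ℕ → Ex) (al : ℕ → G → Av F3),
  (∀ g e, τ.sd g = s → e 0 = 0 → wE 3 e + τ.dg g = w → ∃ x < n, pg x = g ∧ pe x = e) →
  (∀ x < n, pe x 0 = 0) → (∀ x < n, al x ∈ τ.WK 3 Uall s w) →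
  (∀ x < n, coeff (pe x) (al x (pg x)) ≠ 0) →
  (∀ x < n, ∀ x' < x, coeff (pe x') (al x (pg x')) = 0) →
  (∀ y ∈ τ.WK 3 Uall s w, ∃ c : ℕ → F3,
    y - ∑ x ∈ range n, c x • al x ∈ JW F3 G (U1 1)) ∧
  ∀ c : ℕ → F3, ∑ x ∈ range n, c x • al x ∈ JW F3 G (U1 1) → ∀ x < n, c x = 0

end Vale.Agent.P236K.Cert
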