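import Vale.Agent.P236K.Cert.Lay

/-!
# P236K / Cert / Dec : reading the entries of a packed value (block C)
-/

noncomputable section

namespace Vale.Agent.P236K.Cert

open Vale.Agent.P236K.Alg MvPolynomial

namespace DecP

variable (L : Lay)

/-- the key of a cell in weight `m` -/
def ky (m : ℕ) (x : ℕ × ℕ × ℕ) : ℕ :=
  x.1 * 268435456 + (m - L.cw x) / 4 * 128 + x.2.1 * 16384 + x.2.2 * 2097152

/-- the cell occurs in weight `m` -/
def oc (m : ℕ) (x : ℕ × ℕ × ℕ) : Bool := decide (L.cw x ≤ m ∧ (m - L.cw x) % 4 = 0)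

theorem rec_filter {α β : Type} {F : α → List β → List β} {p : α → Bool} {f : α → β}
    (hF : ∀ x r, F x r = if p x = true then f x :: r else r) (ih : List β) (l : List α) :
    List.rec (motive := fun _ => List β) ih (fun x _ r => F x r) l = (l.filter p).map f ++ ih := by
  induction l with
  | nil => rfl
  | cons x l k =>
    dsimp only
    rw [k, hF, List.filter_cons]
    split_ifs <;> rfl

theorem rec_ble {α : Type} (x y : α) (a b : ℕ) :
    (Bool.rec x y (Nat.ble a b) : α) = if a ≤ b then y else x := by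
  split_ifs with h
  · rw [Nat.ble_eq_true_of_le h]
  · rw [ble_false (not_le.1 h)]

theorem rec_beq {α : Type} (x y : α) (a b : ℕ) :
    (Bool.rec x y (Nat.beq a b) : α) = if a = b then y else x := by
  cases h : Nat.beq a b
  · rw [if_neg (Nat.ne_of_beq_eq_false h)]
  · rw [if_pos (Nat.eq_of_beq_eq_true h)]

theorem vm_eq (m : ℕ) :
    L.vm m = (L.cells.filter (oc L m)).map fun x => (16 * L.cp x, ky L m x) := by
  refine (rec_filter (fun x r => ?_) [] L.cells).trans (List.append_nil _)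
  rw [rec_ble, rec_beq, fS_eq, fS_eq, ← ky, ← ite_and]
  exact if_congr decide_eq_true_iff.symm rfl rfl

theorem lane_shr (v a e p : ℕ) : Nat.land (Nat.shiftRight
    (Nat.shiftRight v (Nat.mul (Nat.mul 16 a) e)) (16 * p)) 65535 = lane v (a * e + p) := by
  change ((v >>> (16 * a * e)) >>> (16 * p)) &&& (2 ^ 16 - 1) = _
  rw [Nat.and_two_pow_sub_one_eq_mod, Nat.shiftRight_eq_div_pow, Nat.shiftRight_eq_div_pow,
    Nat.div_div_eq_div_mul, ← pow_add, lane, mul_add, mul_assoc]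

/-- the cells which are listed -/
def tk (v u t e : ℕ) (x : ℕ × ℕ × ℕ) : Bool :=
  decide ((e + L.cw x ≤ u ∧ (u - e - L.cw x) % 4 = 0) ∧ lane v (L.a * e + L.cp x) = t)

theorem dlS_eq (v u t e : ℕ) (ih : List ℕ) : dlS L v u t e ih =
    ((L.cells.filter (tk L v u t e)).map fun x => ky L (u - e) x + e) ++ ih := by
  rw [dlS, rec_ble, fS_eq]
  split_ifs with h
  · rw [rec_filter (p := fun x : ℕ × ℕ => Nat.beq (Nat.land (Nat.shiftRight (Nat.shiftRight v
      (Nat.mul (Nat.mul 16 L.a) e)) x.1) 65535) t) (f := fun x => x.2 + e) (fun x r => by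
        rw [fS_eq]
        cases Nat.beq (Nat.land (Nat.shiftRight (Nat.shiftRight v
          (Nat.mul (Nat.mul 16 L.a) e)) x.1) 65535) t <;> rfl), vm_eq, List.filter_map,
      List.map_map, List.filter_filter]
    congr 2
    refine List.filter_congr fun x _ => ?_
    rw [Function.comp_apply, lane_shr, Bool.eq_iff_iff]
    simp only [oc, tk, Bool.and_eq_true, Nat.beq_eq, decide_eq_true_eq, Nat.sub_eq]
    omega
  · rw [List.filter_eq_nil_iff.2 fun x _ h2 => h ?_]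
    · rfl
    · have := (of_decide_eq_true h2).1
      omega

theorem dl_succ (v u t n : ℕ) : dl L v u t (n + 1) =
    ((L.cells.filter (tk L v u t n)).map fun x => ky L (u - n) x + n) ++ dl L v u t n :=
  dlS_eq L v u t n _

theorem length_dl (v u t n : ℕ) : (dl L v u t n).length ≤ n * L.cells.length := by
  induction n with
  | zero => exact Nat.zero_le _
  | succ n ih =>
    rw [dl_succ, List.length_append, List.length_map, add_mul, one_mul]
    have := List.length_filter_le (tk L v u t n) L.cells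
    omega

theorem mem_dl {v u t n i : ℕ} (h : i ∈ dl L v u t n) :
    ∃ e < n, ∃ x ∈ L.cells, tk L v u t e x = true ∧ i = ky L (u - e) x + e := by
  induction n with
  | zero => exact absurd h List.not_mem_nil
  | succ n ih =>
    rw [dl_succ, List.mem_append] at h
    rcases h with h | h
    · obtain ⟨x, hx, rfl⟩ := List.mem_map.1 h
      exact ⟨n, by omega, x, (List.mem_filter.1 hx).1, (List.mem_filter.1 hx).2, rfl⟩
    · obtain ⟨e, he, k⟩ := ih h
      exact ⟨e, by omega, k⟩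

theorem sum_dl {A : Type} [AddCommMonoid A] (hn : L.cells.Nodup) (f : ℕ → A) (v u t n : ℕ) :
    ((dl L v u t n).map f).sum = ∑ y ∈ Finset.range n ×ˢ L.cells.toFinset,
      if tk L v u t y.1 y.2 = true then f (ky L (u - y.1) y.2 + y.1) else 0 := by
  rw [Finset.sum_product]
  induction n with
  | zero => rfl
  | succ n ih =>
    rw [dl_succ, List.map_append, List.sum_append, ih, Finset.sum_range_succ, add_comm,
      List.map_map, ← List.sum_toFinset _ (hn.filter _), List.toFinset_filter, Finset.sum_filter]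
    rfl

variable {L}

theorem digs (g : ℕ) {a b c d : ℕ} (ha : a < 128) (hb : b < 128) (hc : c < 128) (hd : d < 128)
    {k : ℕ} (h : k = g * 268435456 + b * 128 + c * 16384 + d * 2097152 + a) :
    k / 268435456 = g ∧ k % 128 = a ∧ k / 128 % 128 = b ∧ k / 16384 % 128 = c ∧
      k / 2097152 % 128 = d := by
  refine ⟨?_, ?_, ?_, ?_, ?_⟩ <;> omega

/-- the digits of a listed key -/
theorem ky_spec (hN : L.N ≤ 120) {u e : ℕ} (hu : u ≤ L.N) {x : ℕ × ℕ × ℕ}
    (h : e + L.cw x ≤ u ∧ (u - e - L.cw x) % 4 = 0) :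
    (ky L (u - e) x + e) / 268435456 = x.1 ∧ (ky L (u - e) x + e) % 128 = e ∧
      L.w x.1 + w4 (ky L (u - e) x + e) = u ∧
      ex (ky L (u - e) x + e) = ex4 e ((u - e - L.cw x) / 4) x.2.1 x.2.2 := by
  have h1 : L.cw x = L.w x.1 + 13 * x.2.1 + 40 * x.2.2 := rfl
  obtain ⟨k, k0, k1, k2, k3⟩ := digs x.1 (a := e) (b := (u - e - L.cw x) / 4) (c := x.2.1)
    (d := x.2.2) (by omega) (by omega) (by omega) (by omega) (k := ky L (u - e) x + e)
    (by rw [ky])
  refine ⟨k, k0, ?_, ?_⟩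
  · rw [w4_def, k0, k1, k2, k3]
    clear k k0 k1 k2 k3
    omega
  · rw [ex, k0, k1, k2, k3, ex4]

/-- the lanes are the coefficients -/
theorem lane_coeff (hL : L.Ok) {lam : ℕ → Av F3} {u v β : ℕ} (hu : u ≤ L.N)
    (hw : ∀ h ∈ L.gl, WA 3 (2 * (u : ℤ) - 2 * (L.w h : ℤ)) (lam h)) (hv : v < L.T)
    (hr : Rep L.z L.H 3 (L.a * β) v (∑ h ∈ L.gl.toFinset, L.kap (lam h) * L.z ^ L.off h)) {e : ℕ}
    (he : e + β < L.pi) {x : ℕ × ℕ × ℕ} (hx : x ∈ L.cells)
    (h : e + L.cw x ≤ u ∧ (u - e - L.cw x) % 4 = 0) : lane v (L.a * e + L.cp x) ≤ 3 ∧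
      (lane v (L.a * e + L.cp x) : F3) =
        coeff (ex4 e ((u - e - L.cw x) / 4) x.2.1 x.2.2) (lam x.1) := by
  have hN := hL.2.2.2.1
  have h1 : L.cw x = L.w x.1 + 13 * x.2.1 + 40 * x.2.2 := rfl
  have h3 : L.a * e + L.cp x + L.a * β < L.H := by
    have := hL.2.2.2.2.2.2.1 x hx
    have := Nat.mul_le_mul_left L.a (show e + β + 1 ≤ L.pi from he)
    rw [mul_add, mul_add, mul_one] at this
    rw [L.H_eq]
    omega
  have h2 : L.a * e + L.cp x < L.H := by omega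
  refine ⟨hr.lane_le hv _ h2, ?_⟩
  let g : L.gl.toFinset := ⟨x.1, List.mem_toFinset.2 ((L.mem_cells hN).1 hx).1⟩
  let τ : Tw F3 L.gl.toFinset := ⟨fun _ => 0, fun l => 2 * (L.w l : ℤ), fun _ _ _ => 0, g⟩
  have F := (L.fai' (τ := τ) (s := 0) hL Subtype.val (fun _ _ _ _ => Subtype.ext)
    (fun l _ => List.mem_toFinset.1 l.2) fun _ _ => rfl).mono (w' := 2 * (u : ℤ)) (by omega)
  have m : Mon τ 0 (2 * (u : ℤ)) g (ex4 e ((u - e - L.cw x) / 4) x.2.1 x.2.2) :=
    mon_ex4 (tg := L.w x.1) rfl rfl (by omega)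
  have e1 : ln L.cv (fun l : L.gl.toFinset => L.off l) g
      (ex4 e ((u - e - L.cw x) / 4) x.2.1 x.2.2) = L.a * e + L.cp x := by
    rw [ln_ex4, L.cv_0, L.cv_1, L.cv_2, L.cv_3, Lay.cp]
    ring
  have k := (L.pw' fun l : L.gl.toFinset => L.off l).co_pk F (U := Uall) (u := fun l => lam l)
    ⟨fun l => ⟨fun h => absurd rfl h, hw l (List.mem_toFinset.1 l.2)⟩, fun _ => mem_JA_all _⟩ m
    (e1 ▸ h2)
  rw [e1, pk_apply, Finset.sum_coe_sort L.gl.toFinset fun h => L.kap (lam h) * L.z ^ L.off h,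
    Rep.co_eq hr hv h3] at k
  exact k

theorem psi_lane {A : Type} [AddCommGroup A] (Ψ : Av F3 →+ A) (b : Ex) {c : ℕ} (hc : c ≤ 3) :
    Ψ (monomial b (c : F3)) = (if c = 1 then Ψ (monomial b 1) else 0) +
      2 • if c = 2 then Ψ (monomial b 1) else 0 := by
  interval_cases c
  · simp
  · simp
  · rw [show ((2 : ℕ) : F3) = 1 + 1 from rfl, map_add, map_add]
    simp [two_nsmul]
  · rw [show ((3 : ℕ) : F3) = 0 from rfl]
    simp

end DecP

open DecP in
/-- block C for values which are known modulo a power of `v_1` -/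
theorem decStmt' : ∀ (L : Lay) (lam : ℕ → Av F3) (u v n β : ℕ), L.Ok → u ≤ L.N → n + β ≤ L.pi →
  (∀ t, (dl L v u t n).length ≤ 3600 ∧ ∀ i ∈ dl L v u t n,
    i / 268435456 ∈ L.gl ∧ L.w (i / 268435456) + w4 i = u ∧ i % 128 < n) ∧
  ((∀ h ∈ L.gl, WA 3 (2 * (u : ℤ) - 2 * (L.w h : ℤ)) (lam h)) → v < L.T →
    Rep L.z L.H 3 (L.a * β) v (∑ h ∈ L.gl.toFinset, L.kap (lam h) * L.z ^ L.off h) →
    ∀ (A : Type) [AddCommGroup A] (Ψ : ℕ → Av F3 →+ A),
      (∀ h e c, n ≤ e 0 → Ψ h (monomial e c) = 0) →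
      ∑ h ∈ L.gl.toFinset, Ψ h (lam h) =
        ((dl L v u 1 n).map fun i => Ψ (i / 268435456) (monomial (ex i) 1)).sum +
          2 • ((dl L v u 2 n).map fun i => Ψ (i / 268435456) (monomial (ex i) 1)).sum) := by
  intro L lam u v n β hL hu hn
  have hN := hL.2.2.2.1
  have nd : L.cells.Nodup := hL.2.2.2.2.2.2.2.of_map _
  refine ⟨fun t => ⟨?_, fun i hi => ?_⟩, fun hw hv hr A _ Ψ h0 => ?_⟩
  · exact (length_dl L v u t n).trans ((Nat.mul_le_mul_right _ (by omega)).trans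
      hL.2.2.2.2.2.1)
  · obtain ⟨e, he, x, hx, h, rfl⟩ := mem_dl L hi
    obtain ⟨k1, k2, k3, -⟩ := ky_spec hN hu (of_decide_eq_true h).1
    rw [k1, k2]
    exact ⟨((L.mem_cells hN).1 hx).1, k3, he⟩
  rw [sum_dl L nd, sum_dl L nd, Finset.smul_sum, ← Finset.sum_add_distrib]
  have e1 : ∑ h ∈ L.gl.toFinset, Ψ h (lam h) =
      ∑ y ∈ (L.gl.toFinset.sigma fun h => (lam h).support) with y.2 0 < n,
        Ψ y.1 (monomial y.2 (coeff y.2 (lam y.1))) := by
    rw [Finset.sum_filter_of_ne fun y _ h => not_le.1 fun k => h (h0 _ _ _ k), Finset.sum_sigma]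
    refine Finset.sum_congr rfl fun h _ => ?_
    conv_lhs => rw [(lam h).as_sum, map_sum]
  have wt : ∀ h ∈ L.gl, ∀ b ∈ (lam h).support, b = ex4 (b 0) (b 1) (b 2) (b 3) ∧
      b 0 + 4 * b 1 + L.cw (h, b 2, b 3) = u := fun h hh b hb => by
    have k1 : wE 3 b = _ := hw h hh (mem_support_iff.1 hb)
    have k2 := eq_ex4_of_wE (e := b) (by omega)
    have k3 := wE_ex4 (b 0) (b 1) (b 2) (b 3)
    rw [← k2] at k3
    exact ⟨k2, by simp only [Lay.cw]; omega⟩
  have e2 : ∀ y ∈ Finset.range n ×ˢ L.cells.toFinset,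
      (y.1 + L.cw y.2 ≤ u ∧ (u - y.1 - L.cw y.2) % 4 = 0) →
      ((if tk L v u 1 y.1 y.2 = true then Ψ ((ky L (u - y.1) y.2 + y.1) / 268435456)
        (monomial (ex (ky L (u - y.1) y.2 + y.1)) 1) else 0) +
      2 • if tk L v u 2 y.1 y.2 = true then Ψ ((ky L (u - y.1) y.2 + y.1) / 268435456)
        (monomial (ex (ky L (u - y.1) y.2 + y.1)) 1) else 0) =
      Ψ y.2.1 (monomial (ex4 y.1 ((u - y.1 - L.cw y.2) / 4) y.2.2.1 y.2.2.2)
        (coeff (ex4 y.1 ((u - y.1 - L.cw y.2) / 4) y.2.2.1 y.2.2.2) (lam y.2.1))) := by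
    intro y hy h
    obtain ⟨y1, y2⟩ := Finset.mem_product.1 hy
    obtain ⟨k1, -, -, k4⟩ := ky_spec hN hu h
    obtain ⟨k5, k6⟩ := lane_coeff hL hu hw hv hr (e := y.1)
      (by have := Finset.mem_range.1 y1; omega) (List.mem_toFinset.1 y2) h
    rw [k1, k4, ← k6, psi_lane _ _ k5]
    simp only [tk, h, and_self, true_and, decide_eq_true_eq]
  rw [e1]
  refine Finset.sum_of_injOn (fun y => (y.2 0, y.1, y.2 2, y.2 3)) ?_ ?_ ?_ ?_
  · rintro ⟨h, b⟩ hy ⟨h', b'⟩ hy' e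
    simp only [Finset.coe_filter, Finset.mem_sigma, List.mem_toFinset, Set.mem_ofPred_eq] at hy hy'
    simp only [Prod.mk.injEq] at e
    obtain ⟨t0, rfl, t2, t3⟩ := e
    obtain ⟨p, q⟩ := wt h hy.1.1 b hy.1.2
    obtain ⟨p', q'⟩ := wt h hy'.1.1 b' hy'.1.2
    rw [t0, t2, t3] at q
    rw [p, p', t0, t2, t3, show b 1 = b' 1 by omega]
  · rintro ⟨h, b⟩ hy
    simp only [Finset.coe_filter, Finset.mem_sigma, List.mem_toFinset, Set.mem_ofPred_eq] at hy
    have q := (wt h hy.1.1 b hy.1.2).2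
    exact Finset.mem_product.2 ⟨Finset.mem_range.2 hy.2, List.mem_toFinset.2
      ((L.mem_cells hN).2 ⟨hy.1.1, by simp only [Lay.cw] at q ⊢; omega⟩)⟩
  · intro y hy hne
    by_cases h : y.1 + L.cw y.2 ≤ u ∧ (u - y.1 - L.cw y.2) % 4 = 0
    · obtain ⟨y1, y2⟩ := Finset.mem_product.1 hy
      rw [e2 y hy h, notMem_support_iff.1 fun k => hne
        ⟨⟨y.2.1, ex4 y.1 ((u - y.1 - L.cw y.2) / 4) y.2.2.1 y.2.2.2⟩, ?_, by simp⟩]
      · simp
      · simp only [Finset.coe_filter, Finset.mem_sigma, List.mem_toFinset, Set.mem_ofPred_eq]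
        exact ⟨⟨((L.mem_cells hN).1 (List.mem_toFinset.1 y2)).1, k⟩,
          by simpa using Finset.mem_range.1 y1⟩
    · simp [tk, h]
  · rintro ⟨h, b⟩ hy
    simp only [Finset.mem_filter, Finset.mem_sigma, List.mem_toFinset] at hy
    obtain ⟨p, q⟩ := wt h hy.1.1 b hy.1.2
    rw [e2 (b 0, h, b 2, b 3) (Finset.mem_product.2 ⟨Finset.mem_range.2 hy.2, List.mem_toFinset.2
      ((L.mem_cells hN).2 ⟨hy.1.1, by simp only [Lay.cw] at q; omega⟩)⟩) (by dsimp only; omega)]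
    dsimp only
    rw [show (u - b 0 - L.cw (h, b 2, b 3)) / 4 = b 1 by omega, ← p]

/-- block C -/
theorem decStmt : DecStmt := fun L lam u v n hL hu hn => decStmt' L lam u v n 0 hL hu hn

theorem Lay.mem_vm (L : Lay) {m : ℕ} {q : ℕ × ℕ} : q ∈ L.vm m ↔ ∃ x ∈ L.cells,
    (L.cw x ≤ m ∧ (m - L.cw x) % 4 = 0) ∧ q = (16 * L.cp x, DecP.ky L m x) := by
  simp only [DecP.vm_eq, List.mem_map, List.mem_filter, DecP.oc, decide_eq_true_eq, and_assoc,
    @eq_comm _ q]

/-- the list `vm` is complete -/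
theorem Lay.vm_of_isLn0 (L : Lay) {n : ℕ} {τ : Tw F3 (Fin n)} {s t p : ℕ} (hN : L.N ≤ 120)
    (hs : FitG τ L.gl s) (hg : FitW τ L) (ht : t ≤ L.N)
    (h : IsLn0 τ L.cv L.og s (2 * (t : ℤ)) p) : ∃ q ∈ L.vm t, q.1 = 16 * p := by
  obtain ⟨g, e, m, e0, rfl⟩ := h
  obtain ⟨a, b⟩ := m.exists (tg := fun g : Fin n => L.w g) (fun g _ => hg g) (by omega)
  have c : L.cw (g.1, e 2, e 3) = L.w g + 13 * e 2 + 40 * e 3 := rfl
  refine ⟨_, L.mem_vm.2 ⟨(g.1, e 2, e 3), (L.mem_cells hN).2 ⟨(hs g).2 ⟨g.2, m.1⟩, by omega⟩,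
    by omega, rfl⟩, ?_⟩
  conv_rhs => rw [a, ln_ex4, e0, L.cv_1, L.cv_2, L.cv_3]
  simp only [Lay.cp, Lay.og]
  ring

end Vale.Agent.P236K.Cert
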