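import Vale.Agent.P236K.Cert.Prog
import Mathlib.Algebra.CharP.Lemmas

/-!
# P236K / Cert / Ef : soundness of the expansion of a product of factors
-/

noncomputable section

namespace Vale.Agent.P236K.Cert

open Vale.Agent.P236K.Alg MvPolynomial

namespace EfP

/-! ### keys -/

theorem wl_zero (ws : List ℕ) : wl ws 0 = 0 := by
  induction ws with
  | nil => rfl
  | cons w ws ih => simp [wl, ih]

theorem key_add {Q : Type} [CommRing Q] {ws : List ℕ} (hw : ∀ w ∈ ws, 1 ≤ w) {xs : List Q}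
    (hx : xs.length = ws.length) {k d m : ℕ} (hd : d < 128 ^ ws.length)
    (h : wl ws k + wl ws d * m < 128) : wl ws (k + d * m) = wl ws k + wl ws d * m ∧
      (k + d * m) / 128 ^ ws.length = k / 128 ^ ws.length ∧
      Pol.mon xs (k + d * m) = Pol.mon xs k * Pol.mon xs d ^ m := by
  induction ws generalizing xs k d with
  | nil =>
    obtain rfl : d = 0 := by simpa using hd
    obtain rfl : xs = [] := List.length_eq_zero_iff.1 hx
    simp [wl, Pol.mon]
  | cons w ws ih =>
    obtain ⟨x, xs, rfl⟩ := List.exists_cons_of_length_eq_add_one hx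
    have h1 : 1 ≤ w := hw w List.mem_cons_self
    simp only [wl, add_mul] at h ⊢
    have h2 : k % 128 ≤ w * (k % 128) := Nat.le_mul_of_pos_left _ h1
    have h3 : d % 128 * m ≤ w * (d % 128) * m :=
      Nat.mul_le_mul_right _ (Nat.le_mul_of_pos_left _ h1)
    have h4 : d * m = d % 128 * m + 128 * (d / 128 * m) := by
      conv_lhs => rw [← Nat.mod_add_div d 128]
      ring
    have h5 : (k + d * m) % 128 = k % 128 + d % 128 * m := by omega
    have h6 : (k + d * m) / 128 = k / 128 + d / 128 * m := by omega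
    rw [List.length_cons, pow_succ'] at hd
    obtain ⟨e1, e2, e3⟩ := ih (fun w hw' => hw w (List.mem_cons_of_mem _ hw')) (xs := xs)
      (by simpa using hx) (k := k / 128) (d := d / 128)
      (Nat.div_lt_of_lt_mul hd) (by omega)
    refine ⟨?_, ?_, ?_⟩
    · rw [h5, h6, e1]
      ring
    · rw [List.length_cons, pow_succ', ← Nat.div_div_eq_div_mul, ← Nat.div_div_eq_div_mul, h6, e2]
    · rw [Pol.mon, Pol.mon, Pol.mon, h5, h6, e3]
      ring

/-! ### normal forms -/

section nr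

variable {R : Type} [CommRing R] {z : R} {H b j x : ℕ} {r : R}

theorem rep_cut (hz : z ^ H = 0) {n : ℕ} (hn : n + j = H) (h : Rep z H b j x r) (hx : x < Th H) :
    (∀ p, lane (Nat.land x (msk n)) p ≤ b) ∧ (∀ p, H ≤ p → lane (Nat.land x (msk n)) p = 0) ∧
      z ^ j * val z H (Nat.land x (msk n)) = z ^ j * r := by
  have h1 := h.lane_le hx
  refine ⟨fun p => ?_, fun p hp => ?_, ?_⟩
  · rw [lane_msk]
    split_ifs with hp
    · exact h1 p (by omega)
    · exact Nat.zero_le _
  · rw [lane_msk, if_neg (by omega)]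
  · rw [← h.val_eq hx, val, val, Finset.mul_sum, Finset.mul_sum]
    refine Finset.sum_congr rfl fun p _ => ?_
    rw [lane_msk]
    split_ifs with hp
    · rfl
    · obtain ⟨k, hk⟩ := Nat.exists_eq_add_of_le (show H ≤ j + p by omega)
      rw [mul_left_comm, mul_left_comm _ (lane x p : R), ← pow_add, hk, pow_add, hz]
      simp

theorem rep_nrm1 (h3 : (3 : R) = 0) {y : ℕ} (h1 : ∀ p, lane y p ≤ 383)
    (h2 : ∀ p, H ≤ p → lane y p = 0) (e : z ^ j * val z H y = z ^ j * r) :
    Rep z H 3 j (nrm1 (127 * ones H) y) r := by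
  rw [nrm1_eq (fun p _ => h1 p) h2]
  refine Or.inr ⟨fun p hp => ?_, by rw [val_ofL_mod h3, e]⟩
  rw [lane_ofL fun q _ => by omega, if_pos hp]
  omega

theorem rep_nr1 (h3 : (3 : R) = 0) (hz : z ^ H = 0) {n : ℕ} (hn : n + j = H)
    (h : Rep z H b j x r) (hb : b ≤ 383) :
    Rep z H 3 j (nr1 (Th H) (msk n) (127 * ones H) x) r := by
  rcases hx : Nat.ble (Th H) x with _ | _
  · have hx' : x < Th H := by
      rw [← Bool.not_eq_true, Nat.ble_eq] at hx
      omega
    obtain ⟨h1, h2, e⟩ := rep_cut hz hn h hx'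
    rw [nr1, hx]
    exact rep_nrm1 h3 (fun p => (h1 p).trans hb) h2 e
  · rw [nr1, hx]
    exact Rep.poison (Nat.le_of_ble_eq_true hx)

theorem lane_fld {y : ℕ} (h1 : ∀ p, lane y p ≤ 32767) (h2 : ∀ p, H ≤ p → lane y p = 0) (p : ℕ) :
    lane (fld (127 * ones H) (255 * ones H) y) p = lane y p % 256 + lane y p / 256 := by
  have e1 : ∀ q, lane (Nat.land y (255 * ones H)) q = lane y q % 256 := fun q => by
    rw [lane_land, lane_ones (by norm_num)]
    split_ifs with hq
    · exact Nat.and_two_pow_sub_one_eq_mod _ 8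
    · rw [h2 q (by omega)]
      rfl
  have e2 : ∀ q, lane (Nat.land (Nat.shiftRight y 8) (127 * ones H)) q = lane y q / 256 :=
    fun q => by
    rw [lane_land, lane_ones (by norm_num)]
    split_ifs with hq
    · change (lane (y >>> 8) q) &&& (2 ^ 7 - 1) = _
      have := h1 q
      rw [lane_eq] at this
      rw [Nat.and_two_pow_sub_one_eq_mod, Nat.shiftRight_eq_div_pow, lane_eq, lane_eq,
        Nat.div_div_eq_div_mul, mul_comm, ← Nat.div_div_eq_div_mul]
      omega
    · rw [h2 q (by omega)]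
      exact Nat.and_zero _
  rw [← e1, ← e2]
  refine lane_add fun q _ => ?_
  rw [e1, e2]
  have := h1 q
  omega

theorem rep_nr2 (h3 : (3 : R) = 0) (hz : z ^ H = 0) {n : ℕ} (hn : n + j = H)
    (h : Rep z H b j x r) (hb : b ≤ 32767) :
    Rep z H 3 j (nr2 (Th H) (msk n) (127 * ones H) (255 * ones H) x) r := by
  rcases hx : Nat.ble (Th H) x with _ | _
  · have hx' : x < Th H := by
      rw [← Bool.not_eq_true, Nat.ble_eq] at hx
      omega
    obtain ⟨h1, h2, e⟩ := rep_cut hz hn h hx'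
    have h4 := lane_fld (fun p => (h1 p).trans hb) h2
    rw [nr2, hx]
    refine rep_nrm1 h3 (fun p => ?_) (fun p hp => ?_) ?_
    · rw [h4]
      have := (h1 p).trans hb
      omega
    · rw [h4, h2 p hp]
    · rw [← e]
      congr 1
      refine val_congr fun p _ => ?_
      rw [h4]
      conv_rhs => rw [← Nat.mod_add_div (lane (Nat.land x (msk n)) p) 256]
      push_cast
      linear_combination (-85 * ((lane (Nat.land x (msk n)) p / 256 : ℕ) : R)) * h3
  · rw [nr2, hx]
    exact Rep.poison (Nat.le_of_ble_eq_true hx)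

end nr

/-! ### lists of terms -/

theorem sumT_cons (ih : ℕ → ℕ) (K d sh : ℕ) (r : TL) :
    sumT ih K (TL.cons d sh r) = Nat.add (Nat.shiftLeft (ih (K + d)) sh) (sumT ih K r) := by
  rcases sh with _ | sh <;> cases r <;> rfl

theorem wt_cons (d sh : ℕ) (r : TL) :
    (TL.cons d sh r).wt = (if sh = 0 then 3 else 6) + r.wt := by
  rcases sh with _ | sh <;> cases r <;> rfl

theorem mkT_cons (L : Lay) (m β : ℕ) (x : ℕ × ℕ) (l : Pol.P) : mkT L m β (x :: l) =
    if x.1 % 128 * m + β < L.pi then TL.cons (x.1 / 268435456 * m * 64 + x.1 % 128 * m)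
      (16 * (L.a * (x.1 % 128 * m) + x.1 / 16384 % 128 * m + L.ga * (x.1 / 2097152 % 128 * m)) +
        (x.2 - 1)) (mkT L m β l) else mkT L m β l := by
  have e : mkT L m β (x :: l) = Bool.rec (mkT L m β l)
      (TL.cons (x.1 / 268435456 * m * 64 + x.1 % 128 * m)
      (16 * (L.a * (x.1 % 128 * m) + x.1 / 16384 % 128 * m + L.ga * (x.1 / 2097152 % 128 * m)) +
        (x.2 - 1)) (mkT L m β l)) (Nat.blt (x.1 % 128 * m + β) L.pi) := rfl
  rw [e]
  split_ifs with h
  · rw [Nat.blt_eq.mpr h]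
  · rw [Bool.eq_false_iff.2 fun h' => h (Nat.blt_eq.mp h')]

theorem cube_add {Q : Type} [CommRing Q] (h3 : (3 : Q) = 0) (a b : Q) (j : ℕ) :
    (a + b) ^ 3 ^ j = a ^ 3 ^ j + b ^ 3 ^ j := by
  induction j with
  | zero => simp
  | succ j ih =>
    rw [pow_succ, pow_mul, pow_mul, pow_mul, ih]
    linear_combination ((a ^ 3 ^ j) ^ 2 * b ^ 3 ^ j + a ^ 3 ^ j * (b ^ 3 ^ j) ^ 2) * h3

theorem two_pow {Q : Type} [CommRing Q] (h3 : (3 : Q) = 0) (j : ℕ) : (2 : Q) ^ 3 ^ j = 2 := by
  induction j with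
  | zero => simp
  | succ j ih =>
    rw [pow_succ, pow_mul, ih]
    linear_combination 2 * h3

theorem mon_four {Q : Type} [CommRing Q] (a b c d : Q) (xs : List Q) (k : ℕ) :
    Pol.mon ([a, b, c, d] ++ xs) k = a ^ (k % 128) * b ^ (k / 128 % 128) * c ^ (k / 16384 % 128) *
      d ^ (k / 2097152 % 128) * Pol.mon xs (k / 268435456) := by
  simp only [List.cons_append, List.nil_append, Pol.mon, Nat.div_div_eq_div_mul, mul_assoc,
    Nat.reduceMul]

theorem kap_mon (L : Lay) (a b c d : ℕ) : L.kap (X 0 ^ a * X 1 ^ b * X 2 ^ c * X 3 ^ d) =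
    L.z ^ (L.a * a + c + L.ga * d) := by
  simp only [Lay.kap, map_mul, map_pow, eval₂Hom_X', List.getD_cons_zero, List.getD_cons_succ,
    one_pow, mul_one, pow_add, pow_mul]

section main

variable {L : Lay} {Q : Type} [CommRing Q] {ι : Av F3 →+* Q} {xs : List Q} {ws : List ℕ}
  {Φ : Q →+ R0 L.H} {W tag : ℕ}

theorem three_Q (ι : Av F3 →+* Q) : (3 : Q) = 0 := by
  have h : (3 : Q) = ι (C 3) := by rw [map_ofNat, map_ofNat]
  rw [h, show (3 : F3) = 0 from rfl, C_0, map_zero]

theorem H_eq (L : Lay) : L.H = L.a * L.pi := rfl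

theorem rep_sumT (hpi : L.pi ≤ 64) (hx : xs.length = ws.length) (hw : ∀ w ∈ ws, 1 ≤ w)
    (hW : W ≤ 127) (hΦ : ∀ a x, Φ (ι a * x) = L.kap a * Φ x) {ih : ℕ → ℕ} {y : Q} {u : ℕ}
    (hih : ∀ K, K / 64 / 128 ^ ws.length = tag → u + wl ws (K / 64) ≤ W → K % 64 < L.pi →
      Rep L.z L.H 3 (L.a * (K % 64)) (ih K) (Φ (y * Pol.mon xs (K / 64))))
    {K j v : ℕ} (hK : K / 64 / 128 ^ ws.length = tag) (hu : 3 ^ j * v + u + wl ws (K / 64) ≤ W)
    (l : Pol.P) (hl : ∀ x ∈ l, x.1 / 268435456 < 128 ^ ws.length ∧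
      wl ws (x.1 / 268435456) ≤ v ∧ (x.2 = 1 ∨ x.2 = 2))
    (hb : (mkT L (3 ^ j) (K % 64) l).wt < 65536) :
    Rep L.z L.H (mkT L (3 ^ j) (K % 64) l).wt (L.a * (K % 64))
      (sumT ih K (mkT L (3 ^ j) (K % 64) l))
      (Φ (Pol.ev ([ι (X 0), ι (X 1), ι (X 2), ι (X 3)] ++ xs) l ^ 3 ^ j * y *
        Pol.mon xs (K / 64))) := by
  have hz : L.z ^ L.H = 0 := z0_pow _
  have h3 := three_Q ι
  induction l with
  | nil =>
    rw [Pol.ev_nil, zero_pow (by positivity), zero_mul, zero_mul, map_zero]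
    exact Rep.zero
  | cons x l ih' =>
    obtain ⟨h1, h2, h4⟩ := hl x List.mem_cons_self
    have ih2 := ih' fun x hx => hl x (List.mem_cons_of_mem _ hx)
    set m := 3 ^ j with hm
    have h5 : wl ws (x.1 / 268435456) * m ≤ m * v := by
      rw [mul_comm]
      exact Nat.mul_le_mul_left _ h2
    obtain ⟨e1, e2, e3⟩ := key_add hw hx (k := K / 64) (m := m) h1 (by omega)
    have e4 : Φ (((x.2 : Q) * Pol.mon ([ι (X 0), ι (X 1), ι (X 2), ι (X 3)] ++ xs) x.1) ^ m * y *
        Pol.mon xs (K / 64)) = 2 ^ (x.2 - 1) * L.z ^ (L.a * (x.1 % 128 * m) +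
          x.1 / 16384 % 128 * m + L.ga * (x.1 / 2097152 % 128 * m)) *
          Φ (y * Pol.mon xs (K / 64 + x.1 / 268435456 * m)) := by
      rw [← kap_mon L _ (x.1 / 128 % 128 * m), mul_assoc (2 ^ _), ← hΦ, e3, mon_four]
      simp only [map_mul, map_pow, pow_mul, mul_pow]
      rcases h4 with h4 | h4
      · rw [h4, Nat.cast_one, one_pow, Nat.sub_self, pow_zero, one_mul, one_mul]
        congr 1
        ring
      · rw [h4, Nat.cast_ofNat, hm, two_pow h3, show 2 - 1 = 1 from rfl, pow_one, two_mul (Φ _),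
          ← map_add]
        congr 1
        ring
    rw [Pol.ev_cons, hm, cube_add h3, ← hm, add_mul, add_mul, map_add, e4]
    rw [mkT_cons] at hb ⊢
    split_ifs at hb ⊢ with h6
    · rw [wt_cons] at hb ⊢
      rw [sumT_cons]
      refine Rep.add ?_ (ih2 (by omega)) hb
      have e5 : (K + (x.1 / 268435456 * m * 64 + x.1 % 128 * m)) / 64 =
          K / 64 + x.1 / 268435456 * m := by omega
      have e6 : (K + (x.1 / 268435456 * m * 64 + x.1 % 128 * m)) % 64 =
          K % 64 + x.1 % 128 * m := by omega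
      have h7 := hih (K + (x.1 / 268435456 * m * 64 + x.1 % 128 * m)) (by rw [e5, e2, hK])
        (by rw [e5, e1]; omega) (by omega)
      rw [e5, e6, mul_add] at h7
      refine (h7.shift hz (by omega) rfl (by rcases h4 with h4 | h4 <;> rw [h4] <;> norm_num)).mono
        ?_ le_rfl
      split_ifs with h8
      · rw [show x.2 - 1 = 0 by omega, pow_zero, one_mul]
      · rcases h4 with h4 | h4 <;> rw [h4] <;> norm_num
    · refine (ih2 hb).congr ?_
      obtain ⟨k, hk⟩ := Nat.exists_eq_add_of_le (show L.H ≤ L.a * (K % 64) +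
          L.a * (x.1 % 128 * m) by
        rw [H_eq, ← mul_add]
        exact Nat.mul_le_mul_left _ (by omega))
      have e7 : L.z ^ (L.a * (K % 64)) * L.z ^ (L.a * (x.1 % 128 * m)) = 0 := by
        rw [← pow_add, hk, pow_add, hz, zero_mul]
      rw [mul_add, pow_add, pow_add]
      linear_combination -(2 ^ (x.2 - 1) * L.z ^ (x.1 / 16384 % 128 * m) *
        L.z ^ (L.ga * (x.1 / 2097152 % 128 * m)) *
        Φ (y * Pol.mon xs (K / 64 + x.1 / 268435456 * m))) * e7

/-- the step of `Ef` for a given list of terms -/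
def stp (L : Lay) (ih : ℕ → ℕ) (K β : ℕ) (t : TB) : ℕ :=
  TB.rec (fun d => Nat.add (ih (Nat.add K d)) 0)
    (fun l => nr1 L.T (L.cm β) L.K (sumT ih K l)) (fun l => nr2 L.T (L.cm β) L.K L.K8 (sumT ih K l))
    L.T t

theorem rep_stp {ih : ℕ → ℕ} {K β : ℕ} (hβ : β < L.pi) {l : TL} {r : R0 L.H}
    (h : l.wt < 65536 → Rep L.z L.H l.wt (L.a * β) (sumT ih K l) r) :
    Rep L.z L.H 3 (L.a * β) (stp L ih K β (cls l)) r := by
  have hz : L.z ^ L.H = 0 := z0_pow _
  have hn : L.a * (L.pi - β) + L.a * β = L.H := by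
    rw [← mul_add, Nat.sub_add_cancel hβ.le, H_eq]
  have h1 : l.wt ≤ 383 → Rep L.z L.H 3 (L.a * β) (stp L ih K β (TB.small l)) r := fun hb =>
    rep_nr1 (three_R0 _) hz hn (h (by omega)) hb
  have h2 : Rep L.z L.H 3 (L.a * β) (stp L ih K β (clsW l)) r := by
    rcases ha : Nat.ble l.wt 383 with _ | _
    · rcases hb : Nat.ble l.wt 32767 with _ | _
      · rw [clsW, ha, hb]
        exact Rep.poison le_rfl
      · have hb' := Nat.le_of_ble_eq_true hb
        rw [clsW, ha, hb]
        exact rep_nr2 (three_R0 _) hz hn (h (by omega)) hb'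
    · rw [clsW, ha]
      exact h1 (Nat.le_of_ble_eq_true ha)
  cases l with
  | nil => exact h1 (Nat.zero_le _)
  | a1 d => exact h (by change 3 < 65536; norm_num)
  | s1 d sh => exact h1 (by change 6 ≤ 383; norm_num)
  | a d r => exact h2
  | s d sh r => exact h2

end main

end EfP

open EfP in
/-- block B -/
theorem efStmt : EfStmt := by
  intro L D Q _ ι xs ws Φ F base W tag hpi hx hw hD hW hΦ hF hbase l
  induction l with
  | nil =>
    intro K h1 h2 h3
    rw [List.map_nil, List.prod_nil, one_mul]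
    exact hbase K h1 (le_trans (Nat.le_add_left _ _) h2) h3
  | cons f l ih =>
    intro K h1 h2 h3
    have hf : f % 4 < 4 := Nat.mod_lt _ (by norm_num)
    have e : Ef L D base (f :: l) K =
      stp L (Ef L D base l) K (K % 64) (cls (mkT L (3 ^ (f / 4)) (K % 64) (D (f % 4)))) := rfl
    rw [e, List.map_cons, List.prod_cons, Ff, hF _ hf]
    exact rep_stp h3 (rep_sumT hpi hx hw hW hΦ ih h1 h2 _ (hD _ hf))

end Vale.Agent.P236K.Cert
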