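import Vale.Agent.P236K.Cert.Spec
import Vale.Agent.P236K.Alg.Col
import Mathlib.LinearAlgebra.FiniteDimensional.Lemmas
import Mathlib.LinearAlgebra.Dimension.Constructions
import Mathlib.Algebra.Field.ZMod

/-!
# P236K / Cert / Uniq : block U, the claimed values of the nodes are the true values
-/

set_option linter.unusedSectionVars false

noncomputable section

namespace Vale.Agent.P236K.Cert

open Vale.Agent.P236K.Alg MvPolynomial

section wt

variable {p : ℕ} {k : Type} [CommRing k] [hp : Fact p.Prime] [PL p k]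

theorem fn_delta {R : Type} [CommRing R] (c : Ex) (y : Av R) :
    fn (fun b => if b = c then (1 : R) else 0) y = coeff c y := by
  induction y using induction_on' with
  | monomial b r =>
    rw [fn_monomial, coeff_monomial]
    split_ifs <;> simp
  | add x y hx hy => rw [map_add, coeff_add, hx, hy]

theorem wa_coeff_of_be1 {w : ℤ} {y : Gam k} (hy : Wt p w (be1 p k 0 y)) (c : Ex) :
    WA p (w - wE p c) (coeff c y) := by
  have h := Ph1_CK (p := p) (U := Uall) (n := 0) (w := w) (c := -wE p c)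
    (l := fun b => if b = c then (1 : Av k) else 0) (fun b => by
      split_ifs with h
      · rw [h, add_neg_cancel]
        exact isWeightedHomogeneous_one _ _
      · exact isWeightedHomogeneous_zero _ _ _) ⟨lev_be1 0 y, hy, mem_JM_all _⟩
  rw [Ph1_be1, al_zero, fn_delta] at h
  rw [sub_eq_add_neg]
  exact wt_lv.1 h.2.1

theorem wa_op_monomial {a : ℤ} {l : Ex → Av k} (hl : ∀ b, WA p (wE p b + a) (l b)) (b c : Ex) :
    WA p (wE p b + a - wE p c) (coeff c (op p l (monomial b 1))) := by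
  apply wa_coeff_of_be1
  rw [← Ph1_D_be1]
  refine (Ph1_CK (U := Uall) hl ⟨(lev_be1 0 _).D 1, Wt.D ?_ 1, mem_JM_all _⟩).2.1
  rw [be1_monomial]
  exact wt_lv.2 (isWeightedHomogeneous_monomial _ _ _ rfl)

theorem wE_nonneg' (b : Ex) : 0 ≤ wE p b :=
  le_trans (Int.natCast_nonneg _) (degree_le_wE (p := p) b)

theorem wa_neg {w : ℤ} {a : Av k} (ha : WA p w a) (hw : w < 0) : a = 0 := by
  refine MvPolynomial.ext _ _ fun e => ?_
  by_contra h
  have h1 : wE p e = w := ha h
  have h2 := wE_nonneg' (p := p) e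
  omega

theorem wa_zero {a : Av k} (ha : WA p 0 a) : a = C (cc k a) := by
  refine MvPolynomial.ext _ _ fun e => ?_
  rw [coeff_C, cc_apply]
  split_ifs with h
  · rw [h]
  · by_contra h1
    have h2 : wE p e = 0 := ha h1
    have h3 := degree_le_wE (p := p) e
    have h4 : Finsupp.degree e = 0 := by omega
    exact h ((Finsupp.degree_eq_zero_iff e).1 h4).symm

theorem wa_cc {w : ℤ} {a : Av k} (ha : WA p w a) (hw : w ≠ 0) : cc k a = 0 := by
  by_contra h
  have h1 : wE p 0 = w := ha h
  rw [map_zero] at h1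
  exact hw h1.symm

end wt

section lin

/-- a matrix over the ground field with independent rows and at most as many columns as rows -/
theorem eq_zero_of_rows {ι ι' R : Type} [Fintype ι] [Fintype ι'] [CommRing R] (θ : F3 →+* R)
    (M : ι → ι' → F3) (hc : Fintype.card ι' ≤ Fintype.card ι)
    (hi : ∀ a : ι → F3, (∀ j, ∑ i, a i * M i j = 0) → a = 0) (δ : ι' → R)
    (h : ∀ i, ∑ j, θ (M i j) * δ j = 0) (j : ι') : δ j = 0 := by
  classical
  let f : (ι → F3) →ₗ[F3] (ι' → F3) :=
    { toFun := fun a j => ∑ i, a i * M i j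
      map_add' := fun a b => by
        funext j
        simp [add_mul, Finset.sum_add_distrib]
      map_smul' := fun c a => by
        funext j
        simp [Finset.mul_sum, mul_assoc] }
  have hf : Function.Injective f := (injective_iff_map_eq_zero f).2 fun a ha => hi a (congrFun ha)
  have h1 := LinearMap.finrank_le_finrank_of_injective hf
  rw [Module.finrank_fintype_fun_eq_card, Module.finrank_fintype_fun_eq_card] at h1
  have hs : Function.Surjective f :=
    (LinearMap.injective_iff_surjective_of_finrank_eq_finrank (by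
      rw [Module.finrank_fintype_fun_eq_card, Module.finrank_fintype_fun_eq_card]
      omega)).1 hf
  obtain ⟨a, ha⟩ := hs (Pi.single j 1)
  have h2 : ∑ i, θ (a i) * ∑ j', θ (M i j') * δ j' = 0 :=
    Finset.sum_eq_zero fun i _ => by rw [h i, mul_zero]
  simp only [Finset.mul_sum] at h2
  rw [Finset.sum_comm] at h2
  have h3 : ∀ j', ∑ i, θ (a i) * (θ (M i j') * δ j') = θ (f a j') * δ j' := fun j' => by
    change _ = θ (∑ i, a i * M i j') * δ j'
    rw [map_sum, Finset.sum_mul]
    exact Finset.sum_congr rfl fun i _ => by rw [map_mul, mul_assoc]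
  simp only [h3, ha] at h2
  rw [Finset.sum_eq_single j (fun j' _ hj => by rw [Pi.single_eq_of_ne hj, map_zero, zero_mul])
    (fun hj => absurd (Finset.mem_univ j) hj), Pi.single_eq_same, map_one, one_mul] at h2
  exact h2

end lin

variable {G : Type} [Fintype G] [DecidableEq G] [PL 3 F3] {R : Type} [CommRing R]

theorem Bt_add (κ : Av F3 →+* R) (B B' : G → Ex → R) (y : G → Gam F3) :
    Bt κ (fun h b => B h b + B' h b) y = Bt κ B y + Bt κ B' y := by
  simp only [Bt, fn_add, Finset.sum_add_distrib]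

theorem Bt_eq_sum (κ : Av F3 →+* R) (B : G → Ex → R) (y : G → Gam F3) (F : Finset (G × Ex))
    (hF : ∀ h c, (h, c) ∉ F → κ (coeff c (y h)) * B h c = 0) :
    Bt κ B y = ∑ m ∈ F, κ (coeff m.2 (y m.1)) * B m.1 m.2 := by
  classical
  let V : Finset Ex := F.image Prod.snd ∪ Finset.univ.biUnion fun h => (y h).support
  have h1 : ∀ h, fn (B h) (mA κ (y h)) = ∑ c ∈ V, κ (coeff c (y h)) * B h c := fun h => by
    rw [fn_eq_sum]
    simp only [coeff_mA]
    refine Finset.sum_subset (fun c hc => ?_) fun c _ hc => ?_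
    · refine Finset.mem_union_right _ (Finset.mem_biUnion.2 ⟨h, Finset.mem_univ h, ?_⟩)
      rw [mem_support_iff] at hc ⊢
      intro h0
      rw [coeff_mA, h0, map_zero] at hc
      exact hc rfl
    · rw [mem_support_iff, not_not, coeff_mA] at hc
      rw [hc, zero_mul]
  rw [Bt, Finset.sum_congr rfl fun h _ => h1 h, ← Finset.sum_product']
  symm
  refine Finset.sum_subset (fun m hm => Finset.mem_product.2 ⟨Finset.mem_univ _,
    Finset.mem_union_left _ (Finset.mem_image_of_mem _ hm)⟩) fun m _ hm => hF m.1 m.2 hm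

theorem Bt_Psi (κ : Av F3 →+* R) (o : G → R) {τ : Tw F3 G} {N : ℤ} (H : τ.Ok 3 N Unone) {g : G}
    {b : Ex} (hN : wN τ g b ≤ N) : Bt κ (Psi κ o τ) (DD τ g b) = 0 := by
  have h1 : ∀ h, fn (Psi κ o τ h) (mA κ (DD τ g b h)) =
      ∑ l, κ (conv 3 (τ.lam h l) (τ.lam g h) b) * o l := fun h => by
    have e : Psi κ o τ h = fun c => ∑ l, o l * κ (τ.lam h l c) := by
      funext c
      simp only [Psi, mul_comm]
    rw [e, fn_sum]
    refine Finset.sum_congr rfl fun l _ => ?_
    rw [fn_mul, ← map_fn, mul_comm]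
    rfl
  rw [Bt, Finset.sum_congr rfl fun h _ => h1 h, Finset.sum_comm]
  refine Finset.sum_eq_zero fun l _ => ?_
  rw [← Finset.sum_mul, ← map_sum]
  have h2 := mem_JA_none.1 (H.tau_mem g l b hN)
  rw [Tw.tau] at h2
  rw [h2, map_zero, zero_mul]

theorem wa_DD {τ : Tw F3 G} {N : ℤ} {U : UpperSet Ex} (H : τ.Ok 3 N U) (g : G) (b : Ex) (h : G)
    (c : Ex) : WA 3 (wN τ g b - wN τ h c) (coeff c (DD τ g b h)) := by
  have h1 := wa_op_monomial (p := 3) (a := τ.dg g - τ.dg h) (l := τ.lam g h)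
    (fun b' => by rw [← add_sub_assoc]; exact H.wt_lam g h b') b c
  rwa [show wE 3 b + (τ.dg g - τ.dg h) - wE 3 c = wN τ g b - wN τ h c by
    simp only [wN]; ring] at h1

theorem DD_eq_zero {τ : Tw F3 G} {N : ℤ} {U : UpperSet Ex} (H : τ.Ok 3 N U) {g h : G} (b : Ex)
    (hh : τ.sd h ≠ τ.sd g + 1) : DD τ g b h = 0 := by
  have e : τ.lam g h = fun _ => 0 := funext fun c => H.sd_lam g h c hh
  rw [DD, e, op_zero]

theorem d0_single (τ : Tw F3 G) (g : G) (b : Ex) (a : F3) (h : G) (c : Ex) :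
    coeff c (τ.d0 3 (Pi.single g (monomial b a)) h) = a * cc F3 (coeff c (DD τ g b h)) := by
  rw [Tw.d0, Finset.sum_eq_single g (fun g' _ hg => by rw [Pi.single_eq_of_ne hg, map_zero])
    (fun hg => absurd (Finset.mem_univ g) hg), Pi.single_eq_same, ← coeff_mA, DD,
    red_op (by decide), mA_monomial, map_one, ← smul_eq_mul, ← coeff_smul, ← map_smul,
    smul_monomial, smul_eq_mul, mul_one]

theorem d0_sum (τ : Tw F3 G) {ι : Type} (s : Finset ι) (z : ι → G → Av F3) (h : G) :
    τ.d0 3 (∑ i ∈ s, z i) h = ∑ i ∈ s, τ.d0 3 (z i) h := by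
  simp only [Tw.d0, Finset.sum_apply, map_sum]
  exact Finset.sum_comm

theorem IsLift.d0_eq {τ₀ τ : Tw F3 G} {Cn : G → Ex → Prop} {N : ℤ} (L : IsLift τ₀ Cn N τ) :
    τ₀.d0 3 = τ.d0 3 := by
  funext z h
  simp only [Tw.d0, L.red]

theorem coeff_nodes (F : Finset (G × Ex)) (a : F → F3) (g : G) (b : Ex) :
    coeff b ((∑ r : F, (Pi.single r.1.1 (monomial r.1.2 (a r)) : G → Av F3)) g) =
      ∑ r : F, if r.1 = (g, b) then a r else 0 := by
  classical
  rw [Finset.sum_apply, coeff_sum]
  refine Finset.sum_congr rfl fun r _ => ?_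
  by_cases h : r.1.1 = g
  · rw [← h, Pi.single_eq_same, coeff_monomial]
    exact if_congr ⟨fun h' => Prod.ext rfl h', fun h' => congrArg Prod.snd h'⟩ rfl rfl
  · rw [Pi.single_eq_of_ne (Ne.symm h), coeff_zero, if_neg fun h' => h (congrArg Prod.fst h')]

/-- block U -/
theorem uniqStmt : UniqStmt := by
  classical
  intro G _ _ τ₀ Cn N S H0 τ L s hs R _ _ κ o Need Rows X hR hc hB
  let δ : G → Ex → R := fun h b =>
    if ¬ Cn h b ∧ (h, b) ∈ Need (wN τ h b) then X h b - Psi κ o τ h b else 0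
  -- the admissible functionals
  have adm : ∀ E : G → Ex → R, (∀ h b, Cn h b ∨ (h, b) ∈ Need (wN τ h b) → E h b = 0) →
      ∀ u ≤ N, ∀ r ∈ Rows u, Bt κ δ (DD τ r.1 r.2) + Bt κ E (DD τ r.1 r.2) = 0 := by
    intro E hE u hu r hr
    have h1 := hB u hu r hr (fun h b => Psi κ o τ h b + (δ h b + E h b)) fun h b _ _ =>
      ⟨fun h2 => by
        simp only [δ]
        rw [hE h b (Or.inl h2), if_neg fun h3 => h3.1 h2, add_zero, add_zero], fun h2 h3 => by
        simp only [δ]
        rw [hE h b (Or.inr h3), if_pos ⟨h2, h3⟩, add_zero, add_sub_cancel]⟩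
    rwa [Bt_add, Bt_add, Bt_Psi κ o L.ok (by rw [(hR u hu r hr).2.1]; exact hu), zero_add] at h1
  have hδ : ∀ u ≤ N, ∀ r ∈ Rows u, Bt κ δ (DD τ r.1 r.2) = 0 := fun u hu r hr => by
    have h1 := adm (fun _ _ => 0) (fun _ _ _ => rfl) u hu r hr
    rwa [Bt_eq_sum κ (fun _ _ => 0) _ ∅ (fun _ _ _ => mul_zero _), Finset.sum_empty,
      add_zero] at h1
  have hz : ∀ u ≤ N, ∀ r ∈ Rows u, ∀ h c, ¬ Cn h c → (h, c) ∉ Need (wN τ h c) →
      κ (coeff c (DD τ r.1 r.2 h)) = 0 := fun u hu r hr h c h1 h2 => by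
    have h3 := adm (fun h' c' => if (h', c') = (h, c) then 1 else 0) (fun h' c' h4 => by
      refine if_neg fun h5 => ?_
      obtain ⟨rfl, rfl⟩ := Prod.ext_iff.1 h5
      exact h4.elim h1 h2) u hu r hr
    rw [hδ u hu r hr, zero_add, Bt_eq_sum κ _ _ {(h, c)} (fun h' c' h4 => by
      rw [if_neg (by simpa using h4), mul_zero]), Finset.sum_singleton, if_pos rfl, mul_one] at h3
    exact h3
  -- one weight
  have step : ∀ u ≤ N, (∀ h c, τ.sd h = s + 1 → wN τ h c < u → δ h c = 0) →
      ∀ h c, τ.sd h = s + 1 → wN τ h c = u → δ h c = 0 := by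
    intro u hu ih h c hh hw
    let Nd : Finset (G × Ex) :=
      (Need u).filter fun m => τ.sd m.1 = s + 1 ∧ wN τ m.1 m.2 = u ∧ ¬ Cn m.1 m.2
    by_cases hm : (h, c) ∈ Nd
    swap
    · refine if_neg fun h1 => hm (Finset.mem_filter.2 ⟨?_, hh, hw, h1.1⟩)
      rw [← hw]
      exact h1.2
    refine eq_zero_of_rows (ι := Rows u) (ι' := Nd) (κ.comp C)
      (fun r m => cc F3 (coeff m.1.2 (DD τ r.1.1 r.1.2 m.1.1))) ?_ ?_ (fun m => δ m.1.1 m.1.2) ?_
      ⟨(h, c), hm⟩
    · rw [Fintype.card_coe, Fintype.card_coe]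
      exact (Finset.card_filter_le _ _).trans (hc u hu)
    · intro a ha
      have hz0 := H0.inj s hs u hu
        (∑ r : Rows u, (Pi.single r.1.1 (monomial r.1.2 (a r)) : G → Av F3)) (fun g => ⟨fun hg => ?_,
          fun b hb => ?_⟩) (fun g b hb => ?_) fun h' c' hc' => ?_
      · funext r
        have h1 := coeff_nodes (Rows u) a r.1.1 r.1.2
        rw [hz0, Finset.sum_eq_single r (fun r' _ hr' => if_neg fun h2 => hr' (Subtype.ext h2))
          (fun hr' => absurd (Finset.mem_univ r) hr'), if_pos rfl] at h1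
        exact h1.symm
      · refine MvPolynomial.ext _ _ fun b => ?_
        rw [coeff_nodes, coeff_zero]
        refine Finset.sum_eq_zero fun r _ => if_neg fun h1 => hg ?_
        rw [← L.sd, ← (hR u hu r.1 r.2).1, h1]
      · rw [coeff_nodes] at hb
        obtain ⟨r, -, hr⟩ := Finset.exists_ne_zero_of_sum_ne_zero hb
        have h1 : r.1 = (g, b) := by
          by_contra h2
          exact hr (if_neg h2)
        have h2 := (hR u hu r.1 r.2).2.1
        rw [h1, wN, L.dg] at h2
        change wE 3 b = _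
        rw [← h2, add_sub_cancel_right]
      · rw [coeff_nodes]
        refine Finset.sum_eq_zero fun r _ => if_neg fun h1 => hb ?_
        have h2 := (hR u hu r.1 r.2).2.2
        rwa [h1] at h2
      · rw [L.d0_eq, d0_sum, coeff_sum]
        simp only [d0_single]
        by_cases h1 : (h', c') ∈ Nd
        · exact ha ⟨_, h1⟩
        refine Finset.sum_eq_zero fun r _ => ?_
        obtain ⟨r1, r2, -⟩ := hR u hu r.1 r.2
        have h2 := wa_DD L.ok r.1.1 r.1.2 h' c'
        by_cases h3 : τ.sd h' = s + 1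
        swap
        · rw [DD_eq_zero L.ok _ (by rwa [r1]), coeff_zero, map_zero, mul_zero]
        by_cases h4 : wN τ h' c' = u
        swap
        · rw [wa_cc h2 (by rw [r2]; omega), mul_zero]
        have h5 := hz u hu r.1 r.2 h' c' hc' fun h6 =>
          h1 (Finset.mem_filter.2 ⟨by rwa [h4] at h6, h3, h4, hc'⟩)
        rw [r2, h4, sub_self] at h2
        rw [wa_zero h2] at h5
        rw [(injective_iff_map_eq_zero (κ.comp C)).1 (κ.comp C).injective _ h5, mul_zero]
    · intro r
      obtain ⟨r1, r2, -⟩ := hR u hu r.1 r.2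
      have h1 := hδ u hu r.1 r.2
      rw [Bt_eq_sum κ δ _ Nd (fun h' c' h2 => ?_), ← Finset.sum_coe_sort] at h1
      · rw [← h1]
        refine Finset.sum_congr rfl fun m _ => ?_
        have h2 := wa_DD L.ok r.1.1 r.1.2 m.1.1 m.1.2
        rw [r2, (Finset.mem_filter.1 m.2).2.2.1, sub_self] at h2
        conv_rhs => rw [wa_zero h2]
        rfl
      · by_cases h3 : τ.sd h' = s + 1
        swap
        · rw [DD_eq_zero L.ok _ (by rwa [r1]), coeff_zero, map_zero, zero_mul]
        rcases lt_trichotomy (wN τ h' c') u with h4 | h4 | h4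
        · rw [ih h' c' h3 h4, mul_zero]
        · have h5 : δ h' c' = 0 := if_neg fun h5 =>
            h2 (Finset.mem_filter.2 ⟨by rw [← h4]; exact h5.2, h3, h4, h5.1⟩)
          rw [h5, mul_zero]
        · rw [wa_neg (wa_DD L.ok r.1.1 r.1.2 h' c') (by rw [r2]; omega), map_zero, zero_mul]
  -- induction on the weight
  obtain ⟨K, hK⟩ : ∃ K : ℤ, ∀ h, K ≤ τ.dg h :=
    ⟨-∑ h, |τ.dg h|, fun h => by
      have h1 := Finset.single_le_sum (f := fun h => |τ.dg h|) (fun h _ => abs_nonneg _)
        (Finset.mem_univ h)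
      have h2 := neg_abs_le (τ.dg h)
      omega⟩
  have all : ∀ n : ℕ, ∀ h c, τ.sd h = s + 1 → wN τ h c ≤ N → wN τ h c < K + n → δ h c = 0 := by
    intro n
    induction n with
    | zero =>
      intro h c _ _ h1
      have h2 := hK h
      have h3 := wE_nonneg' (p := 3) c
      rw [wN] at h1
      omega
    | succ n ih =>
      intro h c h1 h2 h3
      exact step _ h2 (fun h' c' h4 h5 => ih h' c' h4 (by omega) (by push_cast at h3; omega)) h c
        h1 rfl
  intro h b h1 h2 h3 h4
  have h5 := all (wN τ h b - K + 1).toNat h b h1 h2 (by omega)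
  simp only [δ] at h5
  rw [if_pos ⟨h3, h4⟩, sub_eq_zero] at h5
  exact h5.symm

end Vale.Agent.P236K.Cert
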