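import Vale.Agent.P236K.Cert.Lift
import Vale.Agent.P236K.Cert.Uniq

/-!
# P236K / Cert / ExaL : exactness modulo `I` follows from `Lev0`; the chosen lift
-/

set_option linter.unusedSectionVars false

noncomputable section

namespace Vale.Agent.P236K.Cert

open Vale.Agent.P236K.Alg MvPolynomial Lf

variable {G : Type} [Fintype G] [DecidableEq G] [PL 3 F3] {τ₀ τ : Tw F3 G} {Cn : G → Ex → Prop}
  {N : ℤ} {S : ℕ}

theorem red_Dl' (τ : Tw F3 G) (y : G → Gam F3) : Lf.red (Dl τ.lam y) = τ.d0 3 (Lf.red y) := by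
  funext h
  rw [Lf.red, Dl_apply, map_sum, Tw.d0]
  exact Finset.sum_congr rfl fun g _ => red_op h3 _ _

theorem d0_d0 (H : τ.Ok 3 N Unone) {s : ℕ} {u : ℤ} (hu : u ≤ N) {z : G → Av F3}
    (hz : τ.Hom 3 s u z) : τ.d0 3 (τ.d0 3 z) = 0 := by
  have h1 : Dl τ.lam (Dl τ.lam (inc z)) = 0 := by
    funext l
    rw [Dl_Dl]
    refine Finset.sum_eq_zero fun g _ => ((inc_mem hz) g).2.op_eq_zero fun b hb => ?_
    exact mem_JA_none.1 (H.tau_mem g l b (by omega))
  have h2 := congrArg Lf.red h1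
  rw [red_Dl', red_Dl', red_inc] at h2
  rw [h2]
  funext g
  exact map_zero _

theorem d0_sub (τ : Tw F3 G) (x y : G → Av F3) : τ.d0 3 (x - y) = τ.d0 3 x - τ.d0 3 y := by
  funext h
  simp only [Tw.d0, Pi.sub_apply, map_sub, Finset.sum_sub_distrib]

theorem hom_sub {s : ℕ} {u : ℤ} {x y : G → Av F3} (hx : τ.Hom 3 s u x) (hy : τ.Hom 3 s u y) :
    τ.Hom 3 s u (x - y) :=
  ((τ.WK 3 Uall s u).sub_mem ((τ.mem_WK 3).2 ⟨hx, fun _ => mem_JA_all _⟩)
    ((τ.mem_WK 3).2 ⟨hy, fun _ => mem_JA_all _⟩)).1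

theorem hom_d0 {U : UpperSet Ex} (H : τ.Ok 3 N U) {s : ℕ} {u : ℤ} {z : G → Av F3}
    (hz : τ.Hom 3 s u z) : τ.Hom 3 (s + 1) u (τ.d0 3 z) := by
  have P : Pre τ (fun _ _ => False) τ.lam :=
    ⟨H.sd_lam, H.wt_lam, H.lam0, fun _ _ _ h => h.elim, fun _ _ _ => rfl⟩
  have h1 := red_hom (P.Dl_mem (inc_mem hz))
  rwa [red_Dl', red_inc] at h1

theorem IsLift.hom_iff (L : IsLift τ₀ Cn N τ) {s : ℕ} {u : ℤ} {y : G → Av F3} :
    τ.Hom 3 s u y ↔ τ₀.Hom 3 s u y := by
  simp only [Tw.Hom, L.sd, L.dg]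

/-- exactness modulo `I` -/
theorem IsLift.exa (L : IsLift τ₀ Cn N τ) (H : Lev0 τ₀ Cn N S) {r : ℕ} (hr : r < S) :
    τ.Exa 3 N r := by
  have sup0 : Sup Cn (0 : G → Av F3) := fun _ _ _ => rfl
  rcases r with _ | s
  · intro u hu y hy h0
    refine ⟨coeff 0 (y τ.g0), ?_⟩
    by_cases hC : Cn τ.g0 0
    · -- all nodes of degree zero lie in `Cn`
      have h1 := H.inj 0 hr u hu y (L.hom_iff.1 hy) (fun g b hb => by
        by_contra h2
        have h3 : τ₀.sd g = 0 := by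
          by_contra h4
          rw [← L.sd] at h4
          exact h2 (by rw [(hy g).1 h4, coeff_zero])
        have h4 : wE 3 b = u - τ.dg g := (hy g).2 h2
        obtain ⟨rfl, rfl⟩ := H.bot g b h3 (by rw [wN, ← L.dg]; omega) hb
        exact hb (L.g0 ▸ hC)) (by rw [L.d0_eq, h0]; exact sup0)
      rw [h1]
      simp
    · have hs : τ.Hom 3 0 u (Pi.single τ.g0 (C (coeff 0 (y τ.g0)))) := fun g => by
        by_cases hg : g = τ.g0
        · subst hg
          rw [Pi.single_eq_same]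
          refine ⟨fun h => absurd L.ok.sd0 h, fun e he => ?_⟩
          rw [coeff_C] at he
          split_ifs at he with h1
          · subst h1
            exact (hy _).2 he
          · exact absurd rfl he
        · rw [Pi.single_eq_of_ne hg]
          exact ⟨fun _ => rfl, isWeightedHomogeneous_zero _ _ _⟩
      have hd : τ.d0 3 (Pi.single τ.g0 (C (coeff 0 (y τ.g0)))) = 0 := by
        funext h
        rw [Tw.d0, Finset.sum_eq_single τ.g0
          (fun g' _ hg => by rw [Pi.single_eq_of_ne hg, map_zero])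
          (fun hg => absurd (Finset.mem_univ _) hg), Pi.single_eq_same, op0_apply, del0_C, fn_C,
          L.ok.lam0, map_zero, map_zero, mul_zero, Pi.zero_apply]
      refine sub_eq_zero.1 (H.inj 0 hr u hu _ (L.hom_iff.1 (hom_sub hy hs)) (fun g b hb => ?_)
        (by rw [L.d0_eq, d0_sub, h0, hd, sub_zero]; exact sup0))
      by_contra h2
      have h5 := hom_sub hy hs
      have h3 : τ₀.sd g = 0 := by
        by_contra h4
        rw [← L.sd] at h4
        exact h2 (by rw [(h5 g).1 h4, coeff_zero])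
      have h4 : wE 3 b = u - τ.dg g := (h5 g).2 h2
      obtain ⟨rfl, rfl⟩ := H.bot g b h3 (by rw [wN, ← L.dg]; omega) hb
      apply h2
      rw [← L.g0, Pi.sub_apply, Pi.single_eq_same, coeff_sub, coeff_zero_C, sub_self]
  · intro u hu y hy h0
    obtain ⟨z, h1, -, h3⟩ := H.span s (by omega) u hu y (L.hom_iff.1 hy)
    rw [L.d0_eq] at h3
    have h4 := L.hom_iff.2 h1
    refine ⟨z, h4, (sub_eq_zero.1 (H.inj (s + 1) hr u hu _
      (L.hom_iff.1 (hom_sub hy (hom_d0 L.ok h4))) h3 ?_)).symm⟩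
    rw [L.d0_eq, d0_sub, h0, d0_d0 L.ok hu h4, sub_zero]
    exact sup0

/-- the chosen lift -/
def Lev0.tau (H : Lev0 τ₀ Cn N S) : Tw F3 G := (liftStmt G τ₀ Cn N S H).choose

theorem Lev0.isLift (H : Lev0 τ₀ Cn N S) : IsLift τ₀ Cn N H.tau :=
  (liftStmt G τ₀ Cn N S H).choose_spec

theorem Lev0.ok (H : Lev0 τ₀ Cn N S) : H.tau.Ok 3 N Unone := H.isLift.ok

theorem Lev0.exa (H : Lev0 τ₀ Cn N S) {r : ℕ} (hr : r < S) : H.tau.Exa 3 N r := H.isLift.exa H hr

end Vale.Agent.P236K.Cert
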