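import Vale.Agent.P236K.Cert.Prog
import Vale.Agent.P236K.Cert.Bar2

/-!
# P236K / Cert / FProg : the programs which check the barcode and the products

An entry of a row is `lane + 2 ^ 10 * type + 2 ^ 12 * len + 2 ^ 18 * par + 2 ^ 26 * data`.
Type `0` : a source, given by `data` (layers `0, …, len`). Type `1` : the quotient of the
differential of its source by `v_1 ^ len`. Type `2` : given by `data` (all layers).
-/

noncomputable section

namespace Vale.Agent.P236K.Cert

open Vale.Agent.P236K.Alg MvPolynomial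

/-- an element of a list -/
def nth (l : List ℕ) : ℕ → ℕ :=
  List.rec (fun _ => 0) (fun a _ r n => Nat.rec a (fun m _ => r m) n) l

/-- the length of a list -/
def lng (l : List ℕ) : ℕ := List.rec 0 (fun _ _ r => Nat.succ r) l

/-- conjunction -/
def an (a b : Bool) : Bool := Bool.rec false b a

/-- disjunction -/
def orr (a b : Bool) : Bool := Bool.rec b true a

/-- the lane of the lowest term -/
def eL (e : ℕ) : ℕ := Nat.mod e 1024
/-- the type -/
def eT (e : ℕ) : ℕ := Nat.mod (Nat.div e 1024) 4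
/-- the length of the bar -/
def eK (e : ℕ) : ℕ := Nat.mod (Nat.div e 4096) 64
/-- the other end of the bar -/
def eP (e : ℕ) : ℕ := Nat.mod (Nat.div e 262144) 256
/-- the compressed vector -/
def eD (e : ℕ) : ℕ := Nat.div e 67108864

/-- the lane shift of a monomial -/
def Lay.sh (L : Lay) (k : ℕ) : ℕ :=
  Nat.add (Nat.add (Nat.mul L.a (Nat.mod k 128)) (Nat.mod (Nat.div k 16384) 128))
    (Nat.mul L.ga (Nat.mod (Nat.div k 2097152) 128))

/-- the bit position of a node key -/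
def Lay.pos (L : Lay) (i : ℕ) : ℕ :=
  Nat.mul 16 (Nat.add (L.sh i) (L.off (Nat.div i 268435456)))

/-- the packed sum of the monomials of a list -/
def sumP (L : Lay) (l : List ℕ) : ℕ :=
  List.rec 0 (fun i _ r => Nat.add (Nat.shiftLeft 1 (L.pos i)) r) l

/-- the action on `l1 + 2 l2` -/
def apL (P : MP) (β yb : ℕ) (l1 l2 : List ℕ) : ℕ :=
  nr2 P.L.T (P.L.cm β) P.L.K P.L.K8 (Nat.add (sumL P yb l1) (Nat.shiftLeft (sumL P yb l2) 1))

/-- the lowest lane of `x` is the lane number `n` -/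
def ldB (T x n : ℕ) : Bool :=
  fS x fun x => fS (Nat.mul 16 n) fun p => an (Nat.blt x T)
    (an (Nat.beq (Nat.mod x (Nat.shiftLeft 1 p)) 0)
      (Nat.blt 0 (Nat.mod (Nat.land (Nat.shiftRight x p) 65535) 3)))

/-- a test on all entries with their numbers -/
def allI (f : ℕ → ℕ → Bool) (l : List ℕ) : ℕ → Bool :=
  List.rec (fun _ => true) (fun e _ r x => Bool.rec false (fS (Nat.succ x) r) (f x e)) l

/-- the lanes increase and stay below `a` -/
def incE (a : ℕ) (l : List ℕ) : ℕ → Bool :=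
  List.rec (fun x => Nat.ble x a) (fun e _ r x => fS (eL e) fun p =>
    Bool.rec false (fS (Nat.succ p) r) (Nat.ble x p)) l

/-- the mask of the lanes -/
def mskE (l : List ℕ) : ℕ :=
  List.rec 0 (fun e _ r => Nat.lor (Nat.shiftLeft 1 (Nat.mul 16 (eL e))) r) l

/-- all positions are in the mask -/
def covE (m : ℕ) (l : List (ℕ × ℕ)) : Bool :=
  List.rec true (fun q _ r => Bool.rec false r
    (Nat.beq (Nat.land (Nat.shiftRight m q.1) 1) 1)) l

/-- operators on `W` -/
inductive Opr : Type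
  | id : Opr
  | h (y : ℕ) (o : Opr) : Opr
  | v (k : ℕ) (o : Opr) : Opr
  | add (o o' : Opr) : Opr
  | two (o : Opr) : Opr

/-- the degree of an operator -/
def Opr.sd (o : Opr) : ℕ :=
  Opr.rec 0 (fun _ _ r => Nat.succ r) (fun _ _ r => r) (fun _ _ r _ => r) (fun _ r => r) o

/-- the weight of an operator -/
def Opr.wt (o : Opr) : ℕ :=
  Opr.rec 0 (fun y _ r => Nat.add r (w4 y)) (fun k _ r => Nat.add r (w4 k)) (fun _ _ r _ => r)
    (fun _ r => r) o

/-- the operator is homogeneous -/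
def Opr.ok (o : Opr) : Bool :=
  Opr.rec true (fun y _ r => an (Nat.blt y 268435456) r) (fun _ _ r => r)
    (fun o o' r r' => an (an r r') (an (Nat.beq o.sd o'.sd) (Nat.beq o.wt o'.wt))) (fun _ r => r) o

/-- the tables -/
structure FT where
  /-- the layout of degree `s` -/
  L : ℕ → Lay
  /-- the values of the nodes of degree `s`, in the layout of degree `s + 1` -/
  nv : ℕ → ℕ → ℕ
  /-- order of the factors -/
  fm : ℕ → ℕ
  /-- choice of the precision -/
  ms : ℕ → ℕ
  /-- decompression in degree `s` (arbitrary) -/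
  unp : ℕ → ℕ → ℕ
  /-- the entries in degree `s` and weight `t` -/
  row : ℕ → ℕ → List ℕ
  /-- the precision -/
  pi : ℕ
  /-- the products are computed modulo `v_1 ^ (pi - b)` -/
  b : ℕ
  /-- bound for the degrees -/
  S : ℕ
  /-- bound for the weights -/
  T : ℕ

namespace FT

variable (F : FT)

/-- the evaluator of degree `s` -/
def M (s : ℕ) : MP := ⟨F.L (s + 1), F.nv s, F.fm, F.ms⟩

/-- the precision of the products -/
def m : ℕ := Nat.sub F.pi F.b

/-- an entry -/
def en (s t x : ℕ) : ℕ := nth (F.row s t) x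

/-- the number of entries -/
def cnt (s t : ℕ) : ℕ := lng (F.row s t)

/-- the monomials with coefficient `c` in the vector of an entry -/
def ls (s t e c : ℕ) : List ℕ :=
  fS (F.unp s (eD e)) fun v => fS (Bool.rec F.pi (Nat.succ (eK e)) (Nat.beq (eT e) 0)) fun n =>
    dl (F.L s) v t c n

/-- normal form in degree `s` -/
def nf (s β x : ℕ) : ℕ := nr1 (F.L s).T ((F.L s).cm β) (F.L s).K x

/-- the packed vector of an entry -/
def pl (s t e : ℕ) : ℕ :=
  nr2 (F.L s).T ((F.L s).cm 0) (F.L s).K (F.L s).K8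
    (Nat.add (sumP (F.L s) (F.ls s t e 1)) (Nat.shiftLeft (sumP (F.L s) (F.ls s t e 2)) 1))

/-- the packed differential of the vector of an entry -/
def dX (s t e : ℕ) : ℕ := apL (F.M s) 0 0 (F.ls s t e 1) (F.ls s t e 2)

/-- division by `v_1 ^ k` -/
def dv (s k D : ℕ) : ℕ :=
  Bool.rec (Nat.land (Nat.shiftRight D (Nat.mul (Nat.mul 16 (F.L s).a) k)) ((F.L s).cm k))
    (F.L s).T (Nat.ble (F.L s).T D)

/-- the packed basis vector -/
def pa (s t x : ℕ) : ℕ :=
  fS (F.en s t x) fun e => Bool.rec (F.pl s t e)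
    (fS (eK e) fun k => fS (Nat.sub s 1) fun s' => fS (Nat.add t k) fun t' => fS (eP e) fun p =>
      fS (F.en s' t' p) fun e' => fS (F.dX s' t' e') fun D => F.dv s k D) (Nat.beq (eT e) 1)

/-- the test of a source -/
def fwd (s t x e : ℕ) : Bool :=
  fS (eK e) fun k => fS (Nat.succ s) fun s' => fS (Nat.sub t k) fun t' => fS (eP e) fun p =>
    fS (F.en s' t' p) fun e' => an (an (an (Nat.ble k t) (Nat.blt p (F.cnt s' t')))
      (an (Nat.blt 0 (eT e')) (an (Nat.beq (eK e') k) (Nat.beq (eP e') x))))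
      (Bool.rec
        (Nat.beq (F.nf s' 0 (Nat.add (F.dX s t e) (Nat.shiftLeft (F.pl s' t' e')
          (Nat.succ (Nat.mul (Nat.mul 16 (F.L s').a) k))))) 0)
        (ldB (F.L s').T (F.dX s t e) (Nat.add (Nat.mul (F.L s').a k) (eL e')))
        (Nat.beq (eT e') 1))

/-- the test of the end of a short bar -/
def bwd (s t x e : ℕ) : Bool :=
  fS (eK e) fun k => fS (Nat.sub s 1) fun s' => fS (Nat.add t k) fun t' => fS (eP e) fun p =>
    fS (F.en s' t' p) fun e' => an (an (an (Nat.blt 0 s) (Nat.ble t' F.T))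
      (Nat.blt p (F.cnt s' t'))) (an (Nat.beq (eT e') 0) (an (Nat.beq (eK e') k) (Nat.beq (eP e') x)))

/-- the test of an entry -/
def ent (s t x e : ℕ) : Bool :=
  Bool.rec (Bool.rec
      (an (ldB (F.L s).T (F.pl s t e) (eL e)) (an (orr (Nat.ble F.pi (eK e)) (F.bwd s t x e))
        (orr (orr (Nat.ble F.S s) (Nat.beq (eK e) 0)) (Nat.beq (F.dX s t e) 0))))
      (an (Nat.ble (eK e) F.b) (F.bwd s t x e)) (Nat.beq (eT e) 1))
    (an (an (Nat.blt (eK e) F.pi) (ldB (F.L s).T (F.pl s t e) (eL e)))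
      (orr (Nat.ble F.S s) (F.fwd s t x e))) (Nat.beq (eT e) 0)

/-- the test of a row -/
def chk (s t : ℕ) : Bool :=
  an (an (incE (F.L s).a (F.row s t) 0) (fS (mskE (F.row s t)) fun k => covE k ((F.L s).vm t)))
    (allI (F.ent s t) (F.row s t) 0)

/-- the test of the rows `t₀ ≤ t < t₀ + n` -/
def chkR (s t₀ n : ℕ) : Bool :=
  Nat.rec true (fun i r => Bool.rec false r (fS (Nat.add t₀ i) fun t => F.chk s t)) n

/-! ### products -/

/-- the action of `t ^ y` on a packed vector of degree `s` and weight `t` -/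
def ap (s t y v : ℕ) : ℕ :=
  fS (Nat.add (Nat.mul y 64) F.b) fun yb => fS F.b fun β => fS F.m fun n => Bool.rec
    (apL (F.M s) β yb (dl (F.L s) v t 1 n) (dl (F.L s) v t 2 n)) (F.M s).L.T (Nat.ble (F.L s).T v)

/-- the evaluation of an operator -/
def ev (s t x : ℕ) (o : Opr) : ℕ :=
  Opr.rec x
    (fun y o r => fS (Nat.add s o.sd) fun s' => fS (Nat.add t o.wt) fun t' => fS r fun v =>
      F.ap s' t' y v)
    (fun k o r => fS (Nat.add s o.sd) fun s' => fS F.b fun β =>
      F.nf s' β (Nat.shiftLeft r (Nat.mul 16 ((F.L s').sh k))))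
    (fun o _ r r' => fS (Nat.add s o.sd) fun s' => fS F.b fun β => F.nf s' β (Nat.add r r'))
    (fun o r => fS (Nat.add s o.sd) fun s' => fS F.b fun β => F.nf s' β (Nat.shiftLeft r 1)) o

/-- the packed vector `v_1 ^ i * al s (t - i) x` -/
def rp (s t i x : ℕ) : ℕ :=
  fS (Nat.sub t i) fun t' => Nat.shiftLeft (F.pa s t' x) (Nat.mul (Nat.mul 16 (F.L s).a) i)

/-- its lowest bit -/
def lo (s t i x : ℕ) : ℕ :=
  fS (Nat.sub t i) fun t' => Nat.mul 16 (Nat.add (Nat.mul (F.L s).a i) (eL (F.en s t' x)))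

/-- the combinatorial part of the barcode -/
def bar0 (G : Type) (al : ℕ → ℕ → ℕ → G → Av F3) : Bar G where
  cnt := F.cnt
  al := al
  src s t x := Nat.beq (eT (F.en s t x)) 0
  len s t x := eK (F.en s t x)
  par s t x := eP (F.en s t x)

/-- the pairs which are alive -/
def alv (s t : ℕ) : List (ℕ × ℕ) := (F.bar0 Unit fun _ _ _ _ => 0).alv F.pi F.m s t

/-- `v_1 ^ i * al s (t - i) x` is a boundary -/
def ddB (s t i x : ℕ) : Bool :=
  fS (Nat.sub t i) fun t' => fS (F.en s t' x) fun e =>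
    an (Nat.blt 0 (eT e)) (an (Nat.ble (eK e) i) (Nat.blt (eK e) F.pi))

/-- the pairs which are boundaries -/
def dead (s t : ℕ) : List (ℕ × ℕ) := (List.range (min F.m (t + 1))).flatMap fun i =>
  ((List.range (F.cnt s (t - i))).filter (F.ddB s t i)).map (Prod.mk i)

/-- add `c` times a vector, `c < 3` -/
def axp (s t i x c y : ℕ) : ℕ :=
  fS F.b fun β => F.nf s β (Nat.add y (Nat.mul (F.rp s t i x) (Nat.mod c 3)))

/-- subtract a combination of the vectors of a list -/
def subP (s t : ℕ) (l : List (ℕ × ℕ)) : List ℕ → ℕ → ℕ :=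
  List.rec (fun _ y => y) (fun q _ r c y => List.rec y (fun c₀ c' _ => Bool.rec
    (fS q.1 fun i => fS q.2 fun x => fS (F.axp s t i x (Nat.mul 2 c₀) y) (r c')) (r c' y)
    (Nat.beq c₀ 0)) c) l

/-- reduction by the vectors of a list -/
def red (s t : ℕ) (l : List (ℕ × ℕ)) : ℕ → ℕ :=
  List.rec (fun y => y) (fun q _ r y => fS q.1 fun i => fS q.2 fun x =>
    fS (Nat.land (Nat.shiftRight y (F.lo s t i x)) 3) fun c => Bool.rec
      (fS (F.axp s t i x (Nat.mul (Nat.mul 2 c)
        (Nat.land (Nat.shiftRight (F.rp s t i x) (F.lo s t i x)) 3)) y) r) (r y) (Nat.beq c 0)) l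

/-- the test of one product -/
def one (o : Opr) (s t s' t' i x : ℕ) (r : List ℕ) : Bool :=
  fS (F.rp s t i x) fun v => fS F.b fun β => fS (F.nf s' β (F.ev s t v o)) fun y =>
    fS (F.subP s' t' (F.alv s' t') r y) fun y' => Nat.beq (F.red s' t' (F.dead s' t') y') 0

/-- the test of the matrix of an operator -/
def prod (o : Opr) (s t : ℕ) (P : List (List ℕ)) : Bool :=
  fS (Nat.add s o.sd) fun s' => fS (Nat.add t o.wt) fun t' =>
    an (an o.ok (an (Nat.ble s' F.S) (Nat.ble t' F.T)))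
      (List.rec (motive := fun _ => List (List ℕ) → Bool) (fun _ => true) (fun q _ r P =>
        Bool.rec false (r P.tail) (fS q.1 fun i => fS q.2 fun x =>
          F.one o s t s' t' i x (P.headD []))) (F.alv s t) P)

/-- the test of a list of matrices -/
def prods (o : Opr) (l : List (ℕ × ℕ × List (List ℕ))) : Bool :=
  List.rec true (fun q _ r => Bool.rec false r
    (fS q.1 fun s => fS q.2.1 fun t => F.prod o s t q.2.2)) l

end FT

/-! ### meaning -/

variable [PL 3 F3] {n : ℕ}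

/-- the monomial of a node key -/
def sg (n i : ℕ) : Fin n → Av F3 :=
  if h : i / 268435456 < n then Pi.single ⟨i / 268435456, h⟩ (monomial (ex i) 1) else 0

/-- the sum of the monomials of a list -/
def sv (n : ℕ) (l : List ℕ) : Fin n → Av F3 := (l.map (sg n)).sum

/-- the meaning of an operator -/
def Opr.sem (τ : Tw F3 (Fin n)) : Opr → (Fin n → Av F3) → Fin n → Av F3
  | .id, u => u
  | .h y o, u => τ.act 3 (monomial (ex y) 1) (o.sem τ u)
  | .v k o, u => (monomial (ex k) 1 : Av F3) • o.sem τ u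
  | .add o o', u => o.sem τ u + o'.sem τ u
  | .two o, u => o.sem τ u + o.sem τ u

open Classical in
/-- the quotient by `v_1 ^ k` -/
def quo (τ : Tw F3 (Fin n)) (s t k : ℕ) (u : Fin n → Av F3) : Fin n → Av F3 :=
  if h : ∃ y ∈ τ.WK 3 Uall s (2 * (t : ℤ)), u = vs k y then h.choose else 0

namespace FT

variable (F : FT) (τ : Tw F3 (Fin n))

/-- the vector of an entry -/
def lit (n s t e : ℕ) : Fin n → Av F3 := sv n (F.ls s t e 1) + 2 • sv n (F.ls s t e 2)

/-- the basis vectors -/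
def al (s t x : ℕ) : Fin n → Av F3 :=
  if eT (F.en s t x) = 1 then quo τ s t (eK (F.en s t x)) (τ.dW 3 (F.lit n (s - 1)
    (t + eK (F.en s t x)) (F.en (s - 1) (t + eK (F.en s t x)) (eP (F.en s t x)))))
  else F.lit n s t (F.en s t x)

/-- the barcode -/
def bar : Bar (Fin n) := F.bar0 (Fin n) (F.al τ)

theorem alv_eq (s t : ℕ) : (F.bar τ).alv F.pi F.m s t = F.alv s t := rfl

/-- the representatives -/
def rep (s t j : ℕ) : Fin n → Av F3 :=
  (F.bar τ).rep s t (fun j => ((F.alv s t).getD j (0, 0)).1) (fun j => ((F.alv s t).getD j (0, 0)).2) j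

/-- `x` is the packed form of `u` after multiplication by `v_1 ^ β` -/
def RV (s β x : ℕ) (u : Fin n → Av F3) : Prop :=
  Rep (F.L s).z (F.L s).H 2 ((F.L s).a * β) x ((F.L s).pk u)

/-- the hypotheses on the layouts and on the values of the nodes -/
structure Env (N : ℤ) : Prop where
  ok : τ.Ok 3 N Unone
  le : 2 * ((F.T : ℤ) + F.pi) ≤ N
  b : F.b < F.pi
  lay : ∀ s ≤ F.S, (F.L s).Ok ∧ (F.L s).pi = F.pi ∧ F.T ≤ (F.L s).N ∧ FitG τ (F.L s).gl s ∧
    FitW τ (F.L s)
  nv : ∀ s < F.S, NvOK (F.L (s + 1)) (F.nv s) (F.L s).gl (tv (F.L (s + 1)) τ)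

/-- `P` is the matrix of `o` -/
def Row (o : Opr) (s t : ℕ) (P : List (List ℕ)) : Prop := ∀ j < (F.alv s t).length,
  o.sem τ (F.rep τ s t j) - ∑ l ∈ Finset.range (F.alv (s + o.sd) (t + o.wt)).length,
    (((P.getD j []).getD l 0 : ℕ) : F3) • F.rep τ (s + o.sd) (t + o.wt) l ∈
      τ.WT 3 (U1 F.m) (2 * ((t + o.wt : ℕ) : ℤ)) (s + o.sd)

end FT

/-- block F1 : literals and the action -/
def ApStmt : Prop := ∀ (n : ℕ) (τ : Tw F3 (Fin n)) (F : FT) (N : ℤ), F.Env τ N →
  (∀ s ≤ F.S, ∀ t ≤ F.T, ∀ e, (eT e = 0 → eK e < F.pi) →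
    F.lit n s t e ∈ τ.WK 3 Uall s (2 * (t : ℤ)) ∧ F.RV s 0 (F.pl s t e) (F.lit n s t e) ∧
      (s < F.S → F.RV (s + 1) 0 (F.dX s t e) (τ.dW 3 (F.lit n s t e)))) ∧
  ∀ s < F.S, ∀ t y v u, y < 268435456 → t + w4 y ≤ F.T → u ∈ τ.WK 3 Uall s (2 * (t : ℤ)) →
    F.RV s F.b v u → F.RV (s + 1) F.b (F.ap s t y v) (τ.act 3 (monomial (ex y) 1) u)

/-- block F2 : the barcode -/
def GoodStmt : Prop := ∀ (n : ℕ) (τ : Tw F3 (Fin n)) (F : FT) (N : ℤ), F.Env τ N →
  (∀ s ≤ F.S, ∀ t ≤ F.T, F.chk s t = true) → (F.bar τ).Good τ F.pi N F.S F.T ∧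
    ∀ s ≤ F.S, ∀ t ≤ F.T, ∀ x < F.cnt s t, F.RV s F.b (F.pa s t x) (F.al τ s t x)

/-- block F3 : the products -/
def ProdStmt : Prop := ∀ (n : ℕ) (τ : Tw F3 (Fin n)) (F : FT) (N : ℤ), F.Env τ N →
  (F.bar τ).Good τ F.pi N F.S F.T →
  (∀ s ≤ F.S, ∀ t ≤ F.T, ∀ x < F.cnt s t, F.RV s F.b (F.pa s t x) (F.al τ s t x)) →
  ∀ o s t P, F.prod o s t P = true → F.Row τ o s t P

end Vale.Agent.P236K.Cert
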