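import Vale.Agent.P236K.Alg.Frm
import Vale.Agent.P236K.Cert.Spec
import Mathlib.Algebra.CharP.Frobenius
import Mathlib.RingTheory.MvPolynomial.Basic

/-!
# P236K / Cert / Frob : the powers `η (v_i) ^ 3 ^ k` and `Δ (t_i) ^ 3 ^ k` as sums of monomials
-/

set_option linter.unusedSectionVars false

noncomputable section

namespace Vale.Agent.P236K.Cert

open Vale.Agent.P236K.Alg Vale.Agent.P236K.Alg.Pol MvPolynomial

/-- an exponent with four entries -/
def ex4 (a b c d : ℕ) : Ex :=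
  Finsupp.single 0 a + Finsupp.single 1 b + Finsupp.single 2 c + Finsupp.single 3 d

theorem ex4_add (a b c d a' b' c' d' : ℕ) :
    ex4 (a + a') (b + b') (c + c') (d + d') = ex4 a b c d + ex4 a' b' c' d' := by
  simp only [ex4, Finsupp.single_add]; abel

@[simp] theorem ex4_zero : ex4 0 0 0 0 = 0 := by simp [ex4]

@[simp] theorem ex4_0 (a b c d : ℕ) : ex4 a b c d 0 = a := by simp [ex4]
@[simp] theorem ex4_1 (a b c d : ℕ) : ex4 a b c d 1 = b := by simp [ex4]
@[simp] theorem ex4_2 (a b c d : ℕ) : ex4 a b c d 2 = c := by simp [ex4]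
@[simp] theorem ex4_3 (a b c d : ℕ) : ex4 a b c d 3 = d := by simp [ex4]

theorem ex4_ge (a b c d : ℕ) {i : ℕ} (hi : 4 ≤ i) : ex4 a b c d i = 0 := by
  simp only [ex4, Finsupp.add_apply]
  rw [Finsupp.single_eq_of_ne, Finsupp.single_eq_of_ne, Finsupp.single_eq_of_ne,
    Finsupp.single_eq_of_ne] <;> omega

theorem eq_ex4 {e : Ex} (h : ∀ i, 4 ≤ i → e i = 0) : e = ex4 (e 0) (e 1) (e 2) (e 3) := by
  ext i
  rcases lt_or_ge i 4 with hi | hi
  · interval_cases i <;> simp
  · rw [h i hi, ex4_ge _ _ _ _ hi]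

theorem ex4_inj {a b c d a' b' c' d' : ℕ} (h : ex4 a b c d = ex4 a' b' c' d') :
    a = a' ∧ b = b' ∧ c = c' ∧ d = d' :=
  ⟨by simpa using DFunLike.congr_fun h 0, by simpa using DFunLike.congr_fun h 1,
    by simpa using DFunLike.congr_fun h 2, by simpa using DFunLike.congr_fun h 3⟩

theorem wE_ex4 (a b c d : ℕ) : wE 3 (ex4 a b c d) = 2 * ((a : ℤ) + 4 * b + 13 * c + 40 * d) := by
  simp only [ex4, map_add, wE, Finsupp.weight_single, wz, nsmul_eq_mul]
  norm_num
  ring

theorem monomial_ex4 {R : Type} [CommRing R] (a b c d : ℕ) (r : R) :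
    (monomial (ex4 a b c d) r : Av R) = C r * (X 0 ^ a * X 1 ^ b * X 2 ^ c * X 3 ^ d) := by
  simp only [ex4, X_pow_eq_monomial, monomial_mul, C_mul_monomial, mul_one]

/-- a digit of a key -/
def dig (K i : ℕ) : ℕ := K / 128 ^ i % 128

/-- the exponent stored in the digits `n, …, n + 3`, multiplied by `q` -/
def kx (q n K : ℕ) : Ex :=
  ex4 (q * dig K n) (q * dig K (n + 1)) (q * dig K (n + 2)) (q * dig K (n + 3))

theorem mon_cons4 {R : Type} [CommRing R] (x0 x1 x2 x3 : R) (xs : List R) (K n : ℕ) :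
    mon (x0 :: x1 :: x2 :: x3 :: xs) (K / 128 ^ n) = x0 ^ dig K n * x1 ^ dig K (n + 1) *
      x2 ^ dig K (n + 2) * x3 ^ dig K (n + 3) * mon xs (K / 128 ^ (n + 4)) := by
  simp only [mon, dig, Nat.div_div_eq_div_mul, pow_succ, mul_assoc]

theorem mon_xsOf {R : Type} [CommRing R] (θ : R →+* R) (q : ℕ) (hθ : ∀ x, θ x = x ^ q)
    (φ : VZ →+* R) (t s : ℕ → R) (K : ℕ) :
    mon ((xsOf φ t s).map θ) K =
      (φ (X 0) ^ (q * dig K 0) * φ (X 1) ^ (q * dig K 1) * φ (X 2) ^ (q * dig K 2) *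
        φ (X 3) ^ (q * dig K 3)) *
      (t 0 ^ (q * dig K 4) * t 1 ^ (q * dig K 5) * t 2 ^ (q * dig K 6) * t 3 ^ (q * dig K 7)) *
      (s 0 ^ (q * dig K 8) * s 1 ^ (q * dig K 9) * s 2 ^ (q * dig K 10) *
        s 3 ^ (q * dig K 11)) := by
  have e : K = K / 128 ^ 0 := by simp
  conv_lhs => rw [e]
  simp only [xsOf, List.map_cons, List.map_nil, hθ]
  rw [mon_cons4, mon_cons4, mon_cons4]
  simp only [mon, ← pow_mul, zero_add, Nat.reduceAdd]
  ring

theorem ev_eq_sum {R : Type} [CommRing R] (xs : List R) (l : P) :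
    ev xs l = (l.map fun x => (x.2 : R) * mon xs x.1).sum := by
  induction l with
  | nil => rfl
  | cons x l ih => rw [ev_cons, ih, List.map_cons, List.sum_cons]

theorem three_Av {R : Type} [CommRing R] (h : (3 : R) = 0) : (3 : Av R) = 0 := by
  have : (3 : Av R) = C 3 := (map_ofNat C 3).symm
  rw [this, h, map_zero]

theorem three_F3 : (3 : F3) = 0 := rfl

theorem fn_list {R : Type} [CommRing R] {α : Type} (B : Ex → R) (l : List α) (f : α → Av R) :
    fn B (l.map f).sum = (l.map fun x => fn B (f x)).sum := by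
  rw [map_list_sum, List.map_map]; rfl

theorem monomial_add_single {R : Type} [CommRing R] (e : Ex) (i n : ℕ) :
    (monomial (e + Finsupp.single i n) 1 : Av R) = monomial e 1 * X i ^ n := by
  rw [X_pow_eq_monomial, monomial_mul, one_mul]

variable [PL 3 F3]

/-- the expansion of `η (v_{i+1}) ^ 3 ^ k` -/
theorem eta_frob {i : ℕ} (hi : i < 4) (k : ℕ) :
    etaA 3 F3 (X i) ^ 3 ^ k = ((etaD i).map fun x => (x.2 : Gam F3) *
      monomial (kx (3 ^ k) 4 x.1) (monomial (kx (3 ^ k) 0 x.1) 1)).sum := by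
  have hθ : ∀ x : Gam F3, iterateFrobenius (Gam F3) 3 k x = x ^ 3 ^ k := fun x => rfl
  rw [← hθ, etaA_X, etaT_eq (three_Av (three_Av three_F3)) _ _ (fun _ => 1) hi, map_ev, ev_eq_sum]
  refine congrArg List.sum (List.map_congr_left fun x _ => ?_)
  rw [mon_xsOf _ _ hθ]
  simp only [kx, monomial_ex4, RingHom.comp_apply, io_X, map_mul, map_pow, one_pow, mul_one, C_1,
    one_mul, zero_add, Nat.reduceAdd]

/-- the expansion of `Δ (t_{i+1}) ^ 3 ^ k` -/
theorem del_frob {i : ℕ} (hi : i < 4) (k : ℕ) :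
    delA 3 F3 (X i) ^ 3 ^ k = ((delD i).map fun x => (x.2 : Av (Gam F3)) *
      monomial (kx (3 ^ k) 8 x.1)
        (monomial (kx (3 ^ k) 4 x.1) (monomial (kx (3 ^ k) 0 x.1) 1))).sum := by
  have hθ : ∀ x : Av (Gam F3), iterateFrobenius (Av (Gam F3)) 3 k x = x ^ 3 ^ k := fun x => rfl
  rw [← hθ, delA_X, delT_eq (three_Av (three_Av (three_Av three_F3))) _ _ _ hi, map_ev, ev_eq_sum]
  refine congrArg List.sum (List.map_congr_left fun x _ => ?_)
  rw [mon_xsOf _ _ hθ]
  simp only [kx, monomial_ex4, RingHom.comp_apply, io_X, map_mul, map_pow, C_1,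
    one_mul, zero_add, Nat.reduceAdd]

theorem etaD_zero : etaD 0 = [(1, 1)] := by decide +kernel

theorem etaA_v1 : etaA 3 F3 (X 0) = C (X 0) := by
  have h := eta_frob (i := 0) (by norm_num) 0
  rw [etaD_zero] at h
  simpa [kx, dig, monomial_ex4] using h

/-! ### the values which the programs compute -/

variable {R : Type} [CommRing R] (κ : Av F3 →+* R)

/-- the value of `B` on `t ^ y * η (v ^ e)` -/
def Mv (B : Ex → R) (y e : Ex) : R :=
  fn B (mA κ (monomial y 1 * etaA 3 F3 (monomial e 1)))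

theorem Mv_zero (B : Ex → R) (y : Ex) : Mv κ B y 0 = B y := by
  rw [Mv, monomial_zero', C_1, map_one (etaA 3 F3), mul_one, mA_monomial, map_one κ, fn_one]

theorem Mv_v1 (B : Ex → R) (y e : Ex) (n : ℕ) :
    Mv κ B y (e + Finsupp.single 0 n) = κ (X 0) ^ n * Mv κ B y e := by
  rw [Mv, Mv, monomial_add_single, map_mul (etaA 3 F3), map_pow, etaA_v1, ← mul_assoc, mul_comm,
    map_mul (mA κ), ← map_pow, mA_C, fn_C_mul, map_pow]

theorem Mv_step (B : Ex → R) (y e : Ex) {i : ℕ} (hi : i < 4) (k : ℕ) :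
    Mv κ B y (e + Finsupp.single i (3 ^ k)) = ((etaD i).map fun x => (x.2 : R) *
      κ (monomial (kx (3 ^ k) 0 x.1) 1) * Mv κ B (y + kx (3 ^ k) 4 x.1) e).sum := by
  rw [Mv, monomial_add_single, map_mul (etaA 3 F3), map_pow, eta_frob hi, ← mul_assoc,
    ← List.sum_map_mul_left, map_list_sum, List.map_map, fn_list]
  refine congrArg List.sum (List.map_congr_left fun x _ => ?_)
  have e1 : (monomial y 1 * etaA 3 F3 (monomial e 1) * ((x.2 : Gam F3) *
      monomial (kx (3 ^ k) 4 x.1) (monomial (kx (3 ^ k) 0 x.1) 1)) : Gam F3) =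
      C ((x.2 : Av F3) * monomial (kx (3 ^ k) 0 x.1) 1) *
        (monomial (y + kx (3 ^ k) 4 x.1) 1 * etaA 3 F3 (monomial e 1)) := by
    have e2 : (monomial (kx (3 ^ k) 4 x.1) (monomial (kx (3 ^ k) 0 x.1) 1) : Gam F3) =
        C (monomial (kx (3 ^ k) 0 x.1) 1) * monomial (kx (3 ^ k) 4 x.1) 1 := by
      rw [C_mul_monomial, mul_one]
    have e3 : (monomial (y + kx (3 ^ k) 4 x.1) 1 : Gam F3) =
        monomial y 1 * monomial (kx (3 ^ k) 4 x.1) 1 := by rw [monomial_mul, one_mul]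
    rw [e2, e3, map_mul, map_natCast]
    ring
  rw [Function.comp_apply, e1, map_mul (mA κ), mA_C, fn_C_mul, map_mul κ, map_natCast, Mv]

/-- the value of `B` on `t ^ y * η a` -/
theorem fn_eta (B : Ex → R) (y : Ex) (a : Av F3) :
    fn B (mA κ (monomial y 1 * etaA 3 F3 a)) =
      ∑ e ∈ a.support, κ (C (coeff e a)) * Mv κ B y e := by
  conv_lhs => rw [a.as_sum]
  rw [map_sum, Finset.mul_sum, map_sum, map_sum]
  refine Finset.sum_congr rfl fun e _ => ?_
  rw [← mul_one (coeff e a), ← C_mul_monomial, map_mul (etaA 3 F3), etaA_C, mul_left_comm,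
    map_mul (mA κ), mA_C, fn_C_mul, mul_one, Mv]

variable {G : Type} [Fintype G] [DecidableEq G]

/-- the packed form of an element of `W` -/
def pk (o : G → R) (u : G → Av F3) : R := ∑ l, κ (u l) * o l

theorem pk_add (o : G → R) (u u' : G → Av F3) : pk κ o (u + u') = pk κ o u + pk κ o u' := by
  simp only [pk, Pi.add_apply, map_add, add_mul, Finset.sum_add_distrib]

theorem pk_fn (o : G → R) (lam : G → Ex → Av F3) (w : Gam F3) :
    pk κ o (fun l => fn (lam l) w) = fn (fun b => ∑ l, κ (lam l b) * o l) (mA κ w) := by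
  rw [fn_sum, pk]
  refine Finset.sum_congr rfl fun l _ => ?_
  rw [map_fn, mul_comm, ← fn_mul]
  simp only [mul_comm]

theorem pk_act (o : G → R) (τ : Tw F3 G) (g : G) (y e : Ex) :
    pk κ o (τ.act 3 (monomial y 1) (Pi.single g (monomial e 1))) = Mv κ (Psi κ o τ g) y e := by
  have : τ.act 3 (monomial y 1) (Pi.single g (monomial e 1)) =
      fun l => fn (τ.lam g l) (monomial y 1 * etaA 3 F3 (monomial e 1)) := by
    funext l
    rw [Tw.act_apply, Finset.sum_eq_single g, Pi.single_eq_same]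
    · intro g' _ hg; rw [Pi.single_eq_of_ne hg, map_zero, mul_zero, map_zero]
    · intro h; exact absurd (Finset.mem_univ g) h
  rw [this, pk_fn]; rfl

/-- the value of `B` on `t ^ y * η (lam c)` -/
def Nv (B : G → Ex → R) (lam : G → Ex → Av F3) (y c : Ex) : R :=
  ∑ h, fn (B h) (mA κ (monomial y 1 * etaA 3 F3 (lam h c)))

/-- the value of `B` on the image of `(t ^ y ⊗ t ^ c) * Δ (t ^ r)` -/
def Ev (B : G → Ex → R) (lam : G → Ex → Av F3) (r y c : Ex) : R :=
  ∑ h, fn (B h) (mA κ (fn (fun b => etaA 3 F3 (lam h b))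
    (monomial c (monomial y 1) * delA 3 F3 (monomial r 1))))

theorem Ev_zero (B : G → Ex → R) (lam : G → Ex → Av F3) (y c : Ex) :
    Ev κ B lam 0 y c = Nv κ B lam y c := by
  simp only [Ev, Nv, monomial_zero', map_one, mul_one, fn_monomial]

theorem Ev_step (B : G → Ex → R) (lam : G → Ex → Av F3) (r y c : Ex) {i : ℕ} (hi : i < 4)
    (k : ℕ) : Ev κ B lam (r + Finsupp.single i (3 ^ k)) y c = ((delD i).map fun x => (x.2 : R) *
      κ (monomial (kx (3 ^ k) 0 x.1) 1) *
        Ev κ B lam r (y + kx (3 ^ k) 4 x.1) (c + kx (3 ^ k) 8 x.1)).sum := by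
  have e1 : ∀ x : ℕ × ℕ, (monomial c (monomial y 1) * delA 3 F3 (monomial r 1) *
      ((x.2 : Av (Gam F3)) * monomial (kx (3 ^ k) 8 x.1)
        (monomial (kx (3 ^ k) 4 x.1) (monomial (kx (3 ^ k) 0 x.1) 1))) : Av (Gam F3)) =
      C (C ((x.2 : Av F3) * monomial (kx (3 ^ k) 0 x.1) 1)) *
        (monomial (c + kx (3 ^ k) 8 x.1) (monomial (y + kx (3 ^ k) 4 x.1) 1) *
          delA 3 F3 (monomial r 1)) := by
    intro x
    have e2 : (monomial (kx (3 ^ k) 4 x.1) (monomial (kx (3 ^ k) 0 x.1) 1) : Gam F3) =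
        C (monomial (kx (3 ^ k) 0 x.1) 1) * monomial (kx (3 ^ k) 4 x.1) 1 := by
      rw [C_mul_monomial, mul_one]
    have e3 : (monomial (y + kx (3 ^ k) 4 x.1) 1 : Gam F3) =
        monomial y 1 * monomial (kx (3 ^ k) 4 x.1) 1 := by rw [monomial_mul, one_mul]
    rw [e2, e3, ← monomial_mul, ← C_mul_monomial, map_mul, map_mul, map_natCast, map_natCast]
    ring
  rw [Ev, monomial_add_single, map_mul (delA 3 F3), map_pow, del_frob hi, ← mul_assoc,
    ← List.sum_map_mul_left]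
  simp only [e1]
  generalize delD i = l
  induction l with
  | nil => simp
  | cons x l ih =>
    simp only [List.map_cons, List.sum_cons, map_add, Finset.sum_add_distrib, ih, add_left_inj]
    rw [Ev, Finset.mul_sum]
    refine Finset.sum_congr rfl fun h _ => ?_
    rw [fn_C_mul, map_mul (mA κ), mA_C, fn_C_mul, map_mul κ, map_natCast]

theorem Bt_DD (B : G → Ex → R) (τ : Tw F3 G) (g : G) (b : Ex) :
    Bt κ B (DD τ g b) = Ev κ B (τ.lam g) b 0 0 := by
  simp only [Bt, DD, Ev, op_apply, monomial_zero', C_1, one_mul]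

theorem Nv_eq (B : G → Ex → R) (lam : G → Ex → Av F3) (y c : Ex) :
    Nv κ B lam y c = ∑ h, ∑ e ∈ (lam h c).support,
      κ (C (coeff e (lam h c))) * Mv κ (B h) y e := by
  simp only [Nv, fn_eta]

end Vale.Agent.P236K.Cert
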