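import Vale.Agent.P236K.Cert.Key
import Vale.Agent.P236K.Cert.Frob

/-!
# P236K / Cert / Row : soundness of the evaluator `Mt` and of the test of a row
-/

set_option linter.unusedSectionVars false

noncomputable section

namespace Vale.Agent.P236K.Cert

open Vale.Agent.P236K.Alg MvPolynomial

namespace Rw

theorem three_Gam : (3 : Gam F3) = 0 := three_Av (three_Av three_F3)

theorem mon_rep {R : Type} [CommRing R] (n k : ℕ) : Pol.mon (List.replicate n (1 : R)) k = 1 := by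
  induction n generalizing k with
  | zero => rfl
  | succ n ih => rw [List.replicate_succ, Pol.mon, one_pow, one_mul, ih]

theorem ev_ones {R : Type} [CommRing R] (xs : List R) (n : ℕ) (l : Pol.P) :
    Pol.ev (xs ++ List.replicate n 1) l = Pol.ev xs l := by
  induction l with
  | nil => rfl
  | cons x l ih => rw [Pol.ev_cons, Pol.ev_cons, ih, mon_append, mon_rep, mul_one]

theorem ex_sub (e : ℕ) : ex e = Finsupp.single 0 (e % 128) + ex (e - e % 128) := by
  rw [ex, ex, show (e - e % 128) % 128 = 0 by omega,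
    show (e - e % 128) / 128 = e / 128 by omega, show (e - e % 128) / 16384 = e / 16384 by omega,
    show (e - e % 128) / 2097152 = e / 2097152 by omega, Finsupp.single_zero, zero_add]
  simp only [add_assoc]

theorem w4_sub (e : ℕ) : w4 (e - e % 128) ≤ w4 e := by
  rw [w4_def, w4_def, show (e - e % 128) % 128 = 0 by omega,
    show (e - e % 128) / 128 = e / 128 by omega, show (e - e % 128) / 16384 = e / 16384 by omega,
    show (e - e % 128) / 2097152 = e / 2097152 by omega]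
  omega

/-! ### the programs in standard form -/

theorem nvK_def (L : Lay) (nv : ℕ → ℕ) (K : ℕ) :
    nvK L nv K = cut L.T (L.cm (K % 64)) (nv (K / 64)) := by
  rw [nvK, fS_eq, fS_eq]; rfl

theorem Mt_def (P : MP) (i yb : ℕ) : Mt P i yb = Bool.rec P.L.T (Nat.shiftLeft
    (Ef P.L etaD (nvK P.L P.nv) (flc P.fm (i % 268435456 - i % 128))
      (i / 268435456 * 17179869184 + yb / 64 * 64 + low P.ms (yb % 64 + i % 128)))
    (16 * P.L.a * (i % 128))) (okL P.fm (i % 268435456 - i % 128)) := by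
  rw [Mt, fS_eq, fS_eq, fS_eq]; rfl

theorem Mt_eq (P : MP) (h : ℕ) {e β : ℕ} (y : ℕ) (he : e < 268435456) (hβ : β < 64) :
    Mt P (h * 268435456 + e) (y * 64 + β) = Bool.rec P.L.T (Nat.shiftLeft
      (Ef P.L etaD (nvK P.L P.nv) (flc P.fm (e - e % 128))
        ((h * 268435456 + y) * 64 + low P.ms (β + e % 128))) (16 * P.L.a * (e % 128)))
      (okL P.fm (e - e % 128)) := by
  rw [Mt_def, show (h * 268435456 + e) % 128 = e % 128 by omega,
    show (h * 268435456 + e) % 268435456 = e by omega,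
    show (h * 268435456 + e) / 268435456 = h by omega, show (y * 64 + β) / 64 = y by omega,
    show (y * 64 + β) % 64 = β by omega,
    show h * 17179869184 + y * 64 = (h * 268435456 + y) * 64 by omega]

theorem dlc_def (P : Par) (k t n : ℕ) :
    dlc P k t n = dl P.L1 (P.nv1 k) (P.L1.w (k / 268435456) + w4 k) t n := by
  rw [dlc, fS_eq]; rfl

theorem Nf_def (P : Par) (g K : ℕ) : Nf P g K = Bool.rec
    (nr2 P.M.L.T (P.M.L.cm (K % 64)) P.M.L.K P.M.L.K8
      (sumL P.M (K % 17179869184) (dlc P (g * 268435456 + K / 17179869184) 1 (P.M.L.pi - K % 64)) +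
        Nat.shiftLeft (sumL P.M (K % 17179869184)
          (dlc P (g * 268435456 + K / 17179869184) 2 (P.M.L.pi - K % 64))) 1))
    P.M.L.T (Nat.ble P.L1.T (P.nv1 (g * 268435456 + K / 17179869184))) := by
  rw [Nf, fS_eq, fS_eq, fS_eq, fS_eq]; rfl

theorem Nf_eq (P : Par) (g c : ℕ) {y β : ℕ} (hy : y < 268435456) (hβ : β < 64) :
    Nf P g ((c * 268435456 + y) * 64 + β) = Bool.rec
    (nr2 P.M.L.T (P.M.L.cm β) P.M.L.K P.M.L.K8
      (sumL P.M (y * 64 + β) (dlc P (g * 268435456 + c) 1 (P.M.L.pi - β)) +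
        Nat.shiftLeft (sumL P.M (y * 64 + β) (dlc P (g * 268435456 + c) 2 (P.M.L.pi - β))) 1))
    P.M.L.T (Nat.ble P.L1.T (P.nv1 (g * 268435456 + c))) := by
  rw [Nf_def, show ((c * 268435456 + y) * 64 + β) % 64 = β by omega,
    show ((c * 268435456 + y) * 64 + β) % 17179869184 = y * 64 + β by omega,
    show ((c * 268435456 + y) * 64 + β) / 17179869184 = c by omega]

theorem Nb_def (P : Par) (g K : ℕ) : Nb P g K =
    cut P.M.L.T (P.M.L.cm (K % 64)) (Nf P g (K - K % 64 + low P.bs (K % 64))) := by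
  rw [Nb, fS_eq, fS_eq]; rfl

theorem sumL_cons (P : MP) (yb i : ℕ) (l : List ℕ) :
    sumL P yb (i :: l) = Mt P i yb + sumL P yb l := rfl

theorem key_split (K : ℕ) : K = K / 268435456 * 268435456 + K % 268435456 := by omega

theorem key_lt (K : ℕ) : K % 268435456 < 268435456 := by omega

theorem p4 : 128 ^ [1, 4, 13, 40].length = 268435456 := by norm_num

theorem p8 : 128 ^ [1, 4, 13, 40, 1, 4, 13, 40].length = 268435456 * 268435456 := by norm_num

variable [PL 3 F3]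

theorem eta_ev {i : ℕ} (hi : i < 4) : etaA 3 F3 (X i) =
    Pol.ev ([C (X 0), C (X 1), C (X 2), C (X 3)] ++ [X 0, X 1, X 2, X 3]) (etaD i) := by
  refine Eq.trans ?_ (ev_ones _ 4 _)
  rw [etaA_X, etaT_eq three_Gam _ _ (fun _ => 1) hi]
  simp only [xsOf, RingHom.comp_apply, io_X]
  rfl

theorem del_ev {i : ℕ} (hi : i < 4) : delA 3 F3 (X i) =
    Pol.ev ([C (C (X 0)), C (C (X 1)), C (C (X 2)), C (C (X 3))] ++
      [C (X 0), C (X 1), C (X 2), C (X 3), X 0, X 1, X 2, X 3]) (delD i) := by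
  rw [delA_X, delT_eq (three_Av three_Gam) _ _ _ hi]
  simp only [xsOf, RingHom.comp_apply, io_X]
  rfl

variable {R : Type} [CommRing R] (κ : Av F3 →+* R)

/-- the semilinear functional -/
def Ph (B : Ex → R) : Gam F3 →+ R := (fn B).toAddMonoidHom.comp (mA κ).toAddMonoidHom

theorem Ph_apply (B : Ex → R) (x : Gam F3) : Ph κ B x = fn B (mA κ x) := rfl

theorem Ph_C_mul (B : Ex → R) (a : Av F3) (x : Gam F3) : Ph κ B (C a * x) = κ a * Ph κ B x := by
  rw [Ph_apply, map_mul, mA_C, fn_C_mul, Ph_apply]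

theorem Ph_monomial (B : Ex → R) (y : Ex) : Ph κ B (monomial y 1) = B y := by
  rw [Ph_apply, mA_monomial, map_one, fn_one]

theorem Ph_v (B : Ex → R) (x : Gam F3) (m : ℕ) (e : Ex) (c : F3) :
    Ph κ B (x * etaA 3 F3 (monomial (Finsupp.single 0 m + e) c)) =
      κ (X 0) ^ m * Ph κ B (x * etaA 3 F3 (monomial e c)) := by
  rw [show (monomial (Finsupp.single 0 m + e) c : Av F3) = X 0 ^ m * monomial e c by
    rw [X_pow_eq_monomial, monomial_mul, one_mul], map_mul (etaA 3 F3), map_pow, etaA_v1,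
    ← map_pow, mul_left_comm, Ph_C_mul, map_pow]

/-- the functional on the right coefficients -/
def Pa (r : R) (B : Ex → R) (x : Gam F3) : Av F3 →+ R :=
  (AddMonoidHom.mulLeft r).comp ((Ph κ B).comp
    ((AddMonoidHom.mulLeft x).comp (etaA 3 F3).toAddMonoidHom))

theorem Pa_apply (r : R) (B : Ex → R) (x : Gam F3) (a : Av F3) :
    Pa κ r B x a = r * Ph κ B (x * etaA 3 F3 a) := rfl

variable {n : ℕ}

/-- the functional on the tensor square -/
def Pr (B : Fin n → Ex → R) (lam : Fin n → Ex → Av F3) : Av (Gam F3) →+ R :=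
  ∑ h, (Ph κ (B h)).comp (fn fun b => etaA 3 F3 (lam h b)).toAddMonoidHom

theorem Pr_apply (B : Fin n → Ex → R) (lam : Fin n → Ex → Av F3) (x : Av (Gam F3)) :
    Pr κ B lam x = ∑ h, Ph κ (B h) (fn (fun b => etaA 3 F3 (lam h b)) x) := by
  rw [Pr, AddMonoidHom.finsetSum_apply]; rfl

theorem Pr_C_mul (B : Fin n → Ex → R) (lam : Fin n → Ex → Av F3) (a : Av F3) (x : Av (Gam F3)) :
    Pr κ B lam ((C : Gam F3 →+* Av (Gam F3)).comp C a * x) = κ a * Pr κ B lam x := by
  simp only [Pr_apply, RingHom.comp_apply, fn_C_mul, Ph_C_mul, Finset.mul_sum]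

theorem Pr_mon (B : Fin n → Ex → R) (lam : Fin n → Ex → Av F3) (k : ℕ) :
    Pr κ B lam (Pol.mon [C (X 0), C (X 1), C (X 2), C (X 3), X 0, X 1, X 2, X 3] k) =
      ∑ h, Ph κ (B h) (monomial (ex k) 1 * etaA 3 F3 (lam h (ex (k / 268435456)))) := by
  have h := mon_append [C (X 0), C (X 1), C (X 2), C (X 3)]
    ([X 0, X 1, X 2, X 3] : List (Av (Gam F3))) k
  rw [map_mon_ex, mon_ex] at h
  rw [Pr_apply, show [C (X 0), C (X 1), C (X 2), C (X 3), X 0, X 1, X 2, X 3] =
    [C (X 0), C (X 1), C (X 2), C (X 3)] ++ ([X 0, X 1, X 2, X 3] : List (Av (Gam F3))) from rfl, h]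
  simp only [fn_C_mul, fn_one, List.length_cons, List.length_nil, Nat.reduceAdd, Nat.reducePow]

theorem sum_gl {τ : Tw F3 (Fin n)} {gl : List ℕ} {s : ℕ} (hG : FitG τ gl s) {A : Type}
    [AddCommMonoid A] (F : ℕ → A) (h0 : ∀ h : Fin n, τ.sd h ≠ s → F h = 0) :
    ∑ h ∈ gl.toFinset, F h = ∑ h : Fin n, F h := by
  rw [Fin.sum_univ_eq_sum_range]
  refine Finset.sum_subset (fun h hh => ?_) fun h hh h1 => ?_
  · exact Finset.mem_range.2 ((hG h).1 (List.mem_toFinset.1 hh)).1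
  · exact h0 ⟨h, Finset.mem_range.1 hh⟩ fun e => h1 (List.mem_toFinset.2 ((hG h).2 ⟨_, e⟩))

theorem ofn_fin {A : Type} [Zero A] (B : Fin n → Ex → A) (h : Fin n) : ofn B h = B h :=
  funext fun _ => dif_pos h.2

theorem sumL_rep (hM : MtStmt) {P : MP} {gl : List ℕ} {B : ℕ → Ex → R0 P.L.H} (hpi : P.L.pi ≤ 64)
    (hN : P.L.N ≤ 120) (hB : NvOK P.L P.nv gl B) {y β : ℕ} (hy : y < 268435456) (l : List ℕ)
    (hn : l.length ≤ 3600) (hl : ∀ i ∈ l, i / 268435456 ∈ gl ∧ β + i % 128 < P.L.pi ∧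
      P.L.w (i / 268435456) + w4 i + w4 y ≤ P.L.N) :
    Rep P.L.z P.L.H (3 * l.length) (P.L.a * β) (sumL P (y * 64 + β) l)
      (l.map fun i => rM P.L.kap (B (i / 268435456)) y i).sum := by
  induction l with
  | nil => exact Rep.zero
  | cons i l ih =>
    rw [List.length_cons] at hn
    obtain ⟨h1, h2, h3⟩ := hl i List.mem_cons_self
    have h4 := hM P gl B hpi hN hB _ h1 _ (key_lt i) y hy β (by omega) (by rwa [w4_mod])
    rw [← key_split, rM, ex_mod] at h4
    rw [sumL_cons, List.map_cons, List.sum_cons, List.length_cons]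
    exact (h4.add (ih (by omega) fun j hj => hl j (List.mem_cons_of_mem _ hj))
      (by omega)).mono (by omega) le_rfl

theorem Nf_rep (hM : MtStmt) (hD : DecStmt) {τ : Tw F3 (Fin n)} {N₀ : ℤ} {P : Par} {s : ℕ}
    (hτ : τ.Ok 3 N₀ Unone) (hL : P.L1.Ok) (hpi : P.M.L.pi ≤ P.L1.pi) (hN : P.M.L.N ≤ P.L1.N)
    (hG : FitG τ P.L1.gl (s + 1)) (hW1 : FitW τ P.L1) (hW2 : FitW τ P.M.L) {g : Fin n}
    (hg : τ.sd g = s) (hA : NvOK P.L1 P.nv1 [g.1] (tv P.L1 τ)) {B : Fin n → Ex → R0 P.M.L.H}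
    (hB : NvOK P.M.L P.M.nv P.L1.gl (ofn B)) {c y β : ℕ} (hc : c < 268435456)
    (hy : y < 268435456) (hβ : β < P.M.L.pi) (hw : P.L1.w g + w4 c + w4 y ≤ P.M.L.N) :
    Rep P.M.L.z P.M.L.H 3 (P.M.L.a * β) (Nf P g ((c * 268435456 + y) * 64 + β))
      (∑ h, Ph P.M.L.kap (B h) (monomial (ex y) 1 * etaA 3 F3 (τ.lam g h (ex c)))) := by
  have o1 := hL.2.2.1
  have o2 := hL.2.2.2.1
  rw [Nf_eq P g c hy (by omega)]
  rcases le_or_gt P.L1.T (P.nv1 (g * 268435456 + c)) with hv | hv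
  · rw [Nat.ble_eq_true_of_le hv]
    exact Rep.top _
  rw [ble_false hv, dlc_def, dlc_def, w4_hi, show (g * 268435456 + c) / 268435456 = g by omega]
  have z0 : ∀ h : Fin n, τ.sd h ≠ s + 1 → ofn (τ.lam g) h (ex c) = 0 := fun h hh => by
    rw [ofn_fin, hτ.sd_lam g h _ (by rwa [hg])]
  obtain ⟨d1, d2⟩ := hD P.L1 (fun h => ofn (τ.lam g) h (ex c)) (P.L1.w g + w4 c)
    (P.nv1 (g * 268435456 + c)) (P.M.L.pi - β) hL (by omega) (by omega)
  have d3 := d2 (fun h hh => by
      obtain ⟨h1, -⟩ := (hG h).1 hh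
      have h2 := hτ.wt_lam g ⟨h, h1⟩ (ex c)
      rw [wE_ex, hW1, hW1] at h2
      rw [ofn_fin _ ⟨h, h1⟩]
      convert h2 using 1
      push_cast
      ring) hv (by
      refine (hA g (List.mem_singleton_self _) c hc (by omega)).of_eq ?_
      rw [sum_gl hG _ fun h hh => by rw [z0 h hh, map_zero, zero_mul], tv, ofn_fin]
      simp only [ofn_fin]
      rfl) _ (fun h => Pa P.M.L.kap (P.M.L.z ^ (P.M.L.a * β)) (ofn B h) (monomial (ex y) 1))
    fun h e a he => by
      obtain ⟨d, rfl⟩ := le_iff_exists_add.1 (Finsupp.single_le_iff.2 he)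
      rw [Pa_apply, Ph_v, P.M.L.kap_X0, ← pow_mul, ← mul_assoc, ← pow_add, ← mul_add,
        Nat.add_sub_cancel' hβ.le, ← P.M.L.H_eq, P.M.L.hz, zero_mul]
  rw [sum_gl hG _ fun h hh => by rw [z0 h hh, map_zero]] at d3
  have d4 : ∀ t, _ := fun t => sumL_rep hM (β := β) (by omega) (by omega) hB hy _ (d1 t).1
    fun i hi => by
      obtain ⟨h1, h2, h3⟩ := (d1 t).2 i hi
      obtain ⟨h4, -⟩ := (hG _).1 h1
      have h5 := hW1 ⟨_, h4⟩
      rw [hW2] at h5
      dsimp only at h5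
      exact ⟨h1, by omega, by omega⟩
  have l1 := (d1 1).1
  have l2 := (d1 2).1
  have d5 := (d4 1).add (Rep.shift P.M.L.hz (s := 0) (s' := 0) (c := 1) (n := 1) (d4 2) le_rfl rfl
    (by omega)) (by omega)
  refine ((d5.nr2 (by omega)).mono (by norm_num) le_rfl).congr ?_
  simp only [Pa_apply, ofn_fin, List.sum_map_mul_left] at d3
  rw [Finset.mul_sum, d3, pow_zero, mul_one, pow_one, two_nsmul, two_mul, mul_add, mul_add]
  rfl

end Rw

open Rw

variable [PL 3 F3]

theorem actStmt : ActStmt := by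
  intro n τ L h y e
  have h1 : tv L τ h = Psi L.kap L.o τ h := funext fun b => dif_pos h.2
  rw [h1]
  exact (pk_act L.kap L.o τ h (ex y) (ex e)).symm

theorem mtStmt (hE : EfStmt) : MtStmt := by
  intro P gl B hpi hN hB h hh e he y hy β hβ hw
  rw [Mt_eq P h y he (by omega)]
  rcases hok : okL P.fm (e - e % 128) with _ | _
  · exact Rep.top _
  have hw' := w4_sub e
  obtain ⟨h1, h2⟩ := okL_sound hok (by omega)
  have hl := low_le P.ms (β + e % 128)
  generalize low P.ms (β + e % 128) = β' at hl ⊢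
  have k1 : ((h * 268435456 + y) * 64 + β') / 64 = h * 268435456 + y := by omega
  have k2 : ((h * 268435456 + y) * 64 + β') % 64 = β' := by omega
  have h3 := hE P.L etaD (Gam F3) C [X 0, X 1, X 2, X 3] [1, 4, 13, 40] (Ph P.L.kap (B h))
    (fun i => etaA 3 F3 (X i)) (nvK P.L P.nv) (P.L.N - P.L.w h) h hpi rfl w1 goodD_eta
    (by omega) (Ph_C_mul _ _) (fun i hi => eta_ev hi) (fun K g1 g2 g3 => by
      rw [p4] at g1
      rw [← w4_eq] at g2
      have g5 := hB h hh _ (key_lt (K / 64)) (by rw [w4_mod]; omega)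
      rw [← g1, ← key_split, ex_mod, g1] at g5
      rw [mon_ex, Ph_monomial, nvK_def]
      exact Rep.cut (g5.mono le_rfl (Nat.zero_le _)))
    (flc P.fm (e - e % 128)) ((h * 268435456 + y) * 64 + β') (by rw [k1, p4]; omega)
    (by rw [k1, h1, ← w4_eq, w4_hi]; omega) (by rw [k2]; omega)
  rw [k1, k2, ← h2, mon_ex, ex_hi, map_mon_ex, mul_comm _ (monomial _ _)] at h3
  have h4 := Rep.shift P.L.hz (c := 0) (n := 16 * P.L.a * (e % 128))
    (h3.mono le_rfl (j' := P.L.a * β + P.L.a * (e % 128)) (by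
      rw [← mul_add]; exact Nat.mul_le_mul_left _ hl)) le_rfl (by ring) (by norm_num)
  refine h4.of_eq ?_
  rw [rM, ← Ph_apply, ex_sub e, Ph_v, P.L.kap_X0, pow_zero, one_mul, pow_mul]

theorem rowStmt (hE : EfStmt) (hD : DecStmt) : RowStmt := by
  intro n τ N₀ P s hτ hL hpi hp0 hN hG hW1 hW2 g hg hA B hB b hb hw hr
  have o1 := hL.2.2.1
  have o2 := hL.2.2.2.1
  obtain ⟨r1, r2⟩ := rec_and hr
  obtain ⟨h1, h2⟩ := okL_sound r2 (by omega)
  have h3 := hE P.M.L delD (Av (Gam F3)) ((C : Gam F3 →+* Av (Gam F3)).comp C)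
    [C (X 0), C (X 1), C (X 2), C (X 3), X 0, X 1, X 2, X 3] [1, 4, 13, 40, 1, 4, 13, 40]
    (Pr P.M.L.kap B (τ.lam g)) (fun i => delA 3 F3 (X i)) (Nb P g) (P.M.L.N - P.L1.w g) 0
    (by omega) rfl w18 goodD_del (by omega) (Pr_C_mul _ _ _) (fun i hi => del_ev hi)
    (fun K g1 g2 g3 => by
      rw [p8, ← Nat.div_div_eq_div_mul] at g1
      rw [wl8] at g2
      have hl := low_le P.bs (K % 64)
      have h4 := Nf_rep (mtStmt hE) hD hτ hL hpi hN hG hW1 hW2 hg hA hB
        (c := K / 64 / 268435456) (β := low P.bs (K % 64)) (by omega) (key_lt (K / 64)) (by omega)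
        (by rw [w4_mod]; omega)
      rw [← key_split, ex_mod, show K / 64 * 64 = K - K % 64 by omega] at h4
      rw [Pr_mon, Nb_def]
      exact Rep.cut (h4.mono le_rfl (Nat.mul_le_mul_left _ hl)))
    (flc P.fe b) 0 (by rw [p8]) (by rw [h1, wl_zero]; omega) hp0
  rw [Nat.eq_of_beq_eq_true r1, ← h2, map_mon_ex, Nat.zero_div, Pol.mon_zero, mul_one] at h3
  have h4 := h3.val_eq (Th_pos _)
  rw [val_zero, Nat.zero_mod, mul_zero, mul_zero, pow_zero, one_mul, Pr_apply] at h4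
  exact h4.symm

end Vale.Agent.P236K.Cert
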