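import Vale.Agent.P236K.Cert.Lev
import Vale.Agent.P236K.Cert.Row
import Vale.Agent.P236K.Cert.Dec
import Vale.Agent.P236K.Cert.Ef
import Vale.Agent.P236K.Cert.ExaL
import Vale.Agent.P236K.Cert.Uniq
import Vale.Agent.P236K.Cert.FProg

/-!
# P236K / Cert / Chain : induction on the degree, from the tests to `FT.Env`
-/

noncomputable section

namespace Vale.Agent.P236K.Cert

open Vale.Agent.P236K.Alg

/-- concatenation, for kernel evaluation -/
def apd (l r : List ℕ) : List ℕ := List.rec r (fun a _ ih => a :: ih) l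

theorem apd_eq (l r : List ℕ) : apd l r = l ++ r := by
  induction l with
  | nil => rfl
  | cons a l ih => exact congrArg (a :: ·) ih

/-- all rows of the list pass the test -/
def RowsAll (P : Par) (l : List ℕ) : Prop :=
  ∀ k ∈ l, rowOK P (k / 268435456) (k % 268435456) = true

theorem RowsAll.of {P : Par} {l : List ℕ} (h : rowsOK P l = true) : RowsAll P l := rowsOK_sound h

theorem RowsAll.apd {P : Par} {l r : List ℕ} (h : rowsOK P l = true) (h' : RowsAll P r) :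
    RowsAll P (apd l r) := fun k hk =>
  (List.mem_append.1 (apd_eq l r ▸ hk)).elim (rowsOK_sound h k) (h' k)

/-- the data for the rows between two degrees -/
def par (Q1 Q2 : NP) (fm ms fe bs : ℕ → ℕ) : Par :=
  ⟨Q1.L, Q1.nv, ⟨Q2.L, Q2.nv, fm, ms⟩, fe, bs⟩

/-- the tests of one step -/
def Stp (Q1 Q2 : NP) (gl : List ℕ) : Prop := ∃ fm ms fe bs rows,
  RowsAll (par Q1 Q2 fm ms fe bs) rows ∧ levOK Q1 Q2 gl rows = true

theorem Stp.of {Q1 Q2 : NP} {gl rows : List ℕ} {fm ms fe bs : ℕ → ℕ}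
    (h : RowsAll (par Q1 Q2 fm ms fe bs) rows) (h' : levOK Q1 Q2 gl rows = true) :
    Stp Q1 Q2 gl := ⟨fm, ms, fe, bs, rows, h, h'⟩

/-- the numerical conditions on the layout of degree `s` -/
def FT.layB (F : FT) (N₀ s : ℕ) : Bool :=
  (F.L s).okB && Nat.beq (F.L s).pi F.pi && Nat.ble F.T (F.L s).N &&
    Nat.ble (2 * (F.L s).N) N₀ && Nat.ble (F.L (min (s + 1) F.S)).N (F.L s).N

/-- the numerical conditions on the tables -/
def FT.numB (F : FT) (N₀ S₀ : ℕ) : Bool :=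
  Nat.ble (2 * (F.T + F.pi)) N₀ && Nat.blt F.b F.pi && Nat.ble F.S S₀

theorem all_of_range {p : ℕ → Bool} {m : ℕ} (h : (List.range m).all p = true) :
    ∀ s < m, p s = true := fun s hs => List.all_eq_true.1 h s (List.mem_range.2 hs)

variable [PL 3 F3] {n : ℕ} {τ₀ τ : Tw F3 (Fin n)} {Cn : Fin n → Ex → Prop}

theorem IsLift.fitG {N : ℤ} (L : IsLift τ₀ Cn N τ) {gl : List ℕ} {s : ℕ} (h : FitG τ₀ gl s) :
    FitG τ gl s := by rwa [FitG, L.sd]

theorem IsLift.fitW {N : ℤ} (L : IsLift τ₀ Cn N τ) {K : Lay} (h : FitW τ₀ K) : FitW τ K := by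
  rwa [FitW, L.dg]

/-- **The values of the nodes are correct in all degrees.** -/
theorem env_of {N₀ S₀ : ℕ} (H : Lev0 τ₀ Cn N₀ S₀) (L : IsLift τ₀ Cn N₀ τ) (F : FT)
    (Q : ℕ → NP) (hL : ∀ s < F.S, F.L (s + 1) = (Q s).L) (hv : ∀ s < F.S, F.nv s = (Q s).nv)
    (num : F.numB N₀ S₀ = true) (lay : ∀ s ≤ F.S, F.layB N₀ s = true)
    (fit : ∀ s ≤ F.S, FitG τ₀ (F.L s).gl s ∧ FitW τ₀ (F.L s))
    (cok : ∀ s < F.S, COK τ₀ Cn (Q s) (F.L s).gl) (bot : (Q 0).sv (τ₀.g0 * 268435456) = 0)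
    (stp : ∀ s, s + 1 < F.S → Stp (Q s) (Q (s + 1)) (F.L s).gl) : F.Env τ N₀ := by
  simp only [FT.numB, Bool.and_eq_true, Nat.ble_eq, Nat.blt_eq] at num
  simp only [FT.layB, Bool.and_eq_true, Nat.ble_eq, Nat.beq_eq] at lay
  have ok : ∀ s ≤ F.S, (F.L s).Ok := fun s hs => Lay.ok_of (lay s hs).1.1.1.1
  have le : ∀ s ≤ F.S, 2 * ((F.L s).N : ℤ) ≤ N₀ := fun s hs => by exact_mod_cast (lay s hs).1.2
  refine ⟨L.ok, by exact_mod_cast num.1.1, num.1.2, fun s hs => ⟨ok s hs, (lay s hs).1.1.1.2,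
    (lay s hs).1.1.2, L.fitG (fit s hs).1, L.fitW (fit s hs).2⟩, fun s => ?_⟩
  induction s with
  | zero =>
    intro hs
    rw [hL 0 hs, hv 0 hs]
    exact botStmt n τ₀ τ Cn N₀ S₀ (Q 0) _ H L (hL 0 hs ▸ le 1 hs) (hL 0 hs ▸ (ok 1 hs).2.2.2.1)
      (fit 0 hs.le).1 (hL 0 hs ▸ (fit 1 hs).2) (cok 0 hs) bot
  | succ s ih =>
    intro hs
    have h1 : s < F.S := by omega
    obtain ⟨fm, ms, fe, bs, rows, h2, h3⟩ := stp s hs
    have h4 := ih h1
    have h5 := (lay (s + 1) h1).2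
    have h6 := ((lay (s + 1 + 1) hs).1.1.1.2.trans (lay (s + 1) h1).1.1.1.2.symm).le
    have h7 := cok (s + 1) hs
    have h8 := fit (s + 1) h1
    rw [min_eq_left hs] at h5
    rw [hL (s + 1) hs] at h5 h6
    rw [hL s h1] at h4 h5 h6 h7 h8
    rw [hv s h1] at h4
    rw [hL (s + 1) hs, hv (s + 1) hs, hL s h1]
    exact levStmt uniqStmt (rowStmt efStmt decStmt) n τ₀ τ Cn N₀ S₀ (Q s) (Q (s + 1)) fm ms fe bs _ rows s H L (by omega)
      (hL s h1 ▸ le (s + 1) h1) (hL s h1 ▸ ok (s + 1) h1) (hL (s + 1) hs ▸ ok (s + 1 + 1) hs) h6 h5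
      (fit s h1.le).1 h8.1 h8.2 (hL (s + 1) hs ▸ (fit (s + 1 + 1) hs).2) (cok s h1) h7 h4 h2 h3

omit [PL 3 F3] in
/-- the tests on ranges of weights cover all weights -/
theorem FT.chkR_sound (F : FT) {s t₀ m : ℕ} (h : F.chkR s t₀ m = true) :
    ∀ t, t₀ ≤ t → t < t₀ + m → F.chk s t = true := by
  induction m with
  | zero => intro t h1 h2; omega
  | succ m ih =>
    obtain ⟨h1, h2⟩ := rec_and (a := F.chkR s t₀ m) (b := F.chk s (t₀ + m)) h
    intro t h3 h4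
    rcases Nat.lt_or_ge t (t₀ + m) with h5 | h5
    · exact ih h1 t h3 h5
    · rwa [show t = t₀ + m by omega]

end Vale.Agent.P236K.Cert
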