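import Vale.Agent.P236K.Cert.F3

/-!
# P236K / Cert / Run : the program which checks one homological degree of `P ⊗ V`

A row is a functional `ξ ∘ d` on the level `s` together with the functional `ξ` on the level
`s + 1`. The second part is only evaluated when it is needed.
-/

noncomputable section

namespace Vale.Agent.P236K.Cert.Pl

/-- rows: tag, first part, pivot, positions up to the pivot, second part -/
inductive RL : Type
  | nil : RL
  | cons (tag p m low msk p' m' : ℕ) (t : RL) : RL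

/-- the rows and the pivots of the earlier weights -/
inductive HL : Type
  | nil : HL
  | cons (r : RL) (M : ℕ) (t : HL) : HL

/-- operators: weight minus one, shift of the pivot, two hints, low positions, terms -/
inductive OL : Type
  | nil : OL
  | cons (n δ jl ul lo : ℕ) (g g' : List L3) (t : OL) : OL

/-- rows given by data -/
inductive DL : Type
  | nil : DL
  | cons (o i b c d : ℕ) (it : L3) (rl : List ℕ) (t : DL) : DL

/-- application -/
def app {α β : Type} (f : α → β) (x : α) : β := f x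

/-- drop -/
def HL.drop (n : ℕ) : HL → HL :=
  Nat.rec (fun l => l) (fun _ r l => HL.rec HL.nil (fun _ _ t _ => app r t) l) n

/-- drop -/
def OL.drop (n : ℕ) : OL → OL :=
  Nat.rec (fun l => l) (fun _ r l => OL.rec OL.nil (fun _ _ _ _ _ _ _ t _ => app r t) l) n

/-- drop -/
def RL.drop (n : ℕ) : RL → RL :=
  Nat.rec (fun l => l) (fun _ r l => RL.rec RL.nil (fun _ _ _ _ _ _ _ t _ => app r t) l) n

/-- universal tables on the box -/
structure Box : Type where
  /-- bound for the second exponent -/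
  S2 : ℕ
  /-- bound for the third exponent -/
  S3 : ℕ
  /-- bound for the fourth exponent -/
  S4 : ℕ
  /-- stride of the tables -/
  BS : ℕ
  /-- bound for the weight -/
  T : ℕ
  /-- weights -/
  N : ℕ
  /-- binomial coefficients of the second exponent -/
  p2 : ℕ
  /-- binomial coefficients of the second exponent -/
  m2 : ℕ
  /-- binomial coefficients of the third exponent -/
  p3 : ℕ
  /-- binomial coefficients of the third exponent -/
  m3 : ℕ
  /-- binomial coefficients of the fourth exponent -/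
  p4 : ℕ
  /-- binomial coefficients of the fourth exponent -/
  m4 : ℕ

/-- the first entry only -/
def L2.one (U : L2) : L2 := L2.cons (U.g1 0) (U.g2 0) L2.nil

/-- the positions below `ρ` in every block -/
def lowm (L : L2) (ρ : ℕ) : ℕ := L.cat fun _ => Nat.pred (Nat.pow 2 ρ)

namespace Box

variable (B : Box)

/-- position in the box -/
def rb (b c d : ℕ) : ℕ := Nat.add b (Nat.mul B.S2 (Nat.add c (Nat.mul B.S3 d)))

/-- the table on the whole layout -/
def tab (L : L2) (p m n : ℕ) : L2 :=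
  L2.mk (fun j => L.cat fun _ => Nat.shiftRight p (Nat.mul B.BS j))
    (fun j => L.cat fun _ => Nat.shiftRight m (Nat.mul B.BS j)) n 0

/-- the positions of weight exactly `u` -/
def new (L : L2) (u : ℕ) : ℕ :=
  L.cat fun w => bf (Nat.ble w u) (Nat.shiftRight B.N (Nat.mul B.BS (Nat.sub u w))) 0

/-- one term -/
def tm (δ3 δ4 : ℕ) (U2 U3 U4 : L2) (j2 j3 j4 : ℕ) (t : L3) : L3 :=
  L3.cz (Nat.add j2 (Nat.add (Nat.mul δ3 j3) (Nat.mul δ4 j4)))
    (mp (mp (U2.g1 j2) (U2.g2 j2) (U3.g1 j3) (U3.g2 j3))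
      (mp (U2.g1 j2) (U2.g2 j2) (U3.g2 j3) (U3.g1 j3)) (U4.g1 j4) (U4.g2 j4))
    (mp (mp (U2.g1 j2) (U2.g2 j2) (U3.g1 j3) (U3.g2 j3))
      (mp (U2.g1 j2) (U2.g2 j2) (U3.g2 j3) (U3.g1 j3)) (U4.g2 j4) (U4.g1 j4)) t

/-- the terms with `j2 + j3 + j4 = n` -/
def grp (δ3 δ4 : ℕ) (U2 U3 U4 : L2) (n : ℕ) : L3 :=
  L3.loop B.S3 (fun j3 t => L3.loop B.S4 (fun j4 t =>
    bf (Nat.ble (Nat.add j3 j4) n) (tm δ3 δ4 U2 U3 U4 (Nat.sub n (Nat.add j3 j4)) j3 j4 t) t) t)
    L3.nil

/-- the groups of terms of the operator dual to `t_(i+1)^n` -/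
def grps (U2 U3 U4 : L2) (i n : ℕ) : List L3 :=
  bf (Nat.beq i 0) ((List.range (Nat.succ n)).map fun j =>
      B.grp (Nat.sub B.S2 3) (Nat.mul B.S2 (Nat.sub B.S3 3)) U2 U3 U4 (Nat.sub n j))
    (bf (Nat.beq i 1) [B.grp B.S2 (Nat.sub (Nat.mul B.S2 B.S3) 9) U2 U3 U4 n]
      (bf (Nat.beq i 2) [B.grp B.S2 (Nat.mul B.S2 B.S3) U2.one U3 U4 n]
        [B.grp B.S2 (Nat.mul B.S2 B.S3) U2.one U3.one U4 n]))

/-- choice by the index of the variable -/
def sel (i x0 x1 x2 x3 : ℕ) : ℕ :=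
  bf (Nat.beq i 0) x0 (bf (Nat.beq i 1) x1 (bf (Nat.beq i 2) x2 x3))

/-- the operators dual to `t_(i+1)^(n+1)` for the pairs `(i, n)` of the list -/
def ops (L U2 U3 U4 V2 V3 V4 : L2) (sp : L2) : OL :=
  L2.rec OL.nil (fun i n _ r => OL.cons
    (Nat.pred (Nat.mul (sel i 1 4 13 40) (Nat.succ n)))
    (B.rb (sel i 0 (Nat.succ n) 0 0) (sel i 0 0 (Nat.succ n) 0) (sel i 0 0 0 (Nat.succ n)))
    (sel i (Nat.succ n) 0 0 0)
    (sel i (U2.g1 0) (Nat.lor (U2.g1 (Nat.succ n)) (U2.g2 (Nat.succ n)))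
      (Nat.lor (U3.g1 (Nat.succ n)) (U3.g2 (Nat.succ n)))
      (Nat.lor (U4.g1 (Nat.succ n)) (U4.g2 (Nat.succ n))))
    (lowm L
      (B.rb (sel i 0 (Nat.succ n) 0 0) (sel i 0 0 (Nat.succ n) 0) (sel i 0 0 0 (Nat.succ n))))
    (B.grps U2 U3 U4 i (Nat.succ n)) (B.grps V2 V3 V4 i (Nat.succ n)) r) sp

/-- the size needed for a block -/
def sz (m : ℕ) : ℕ :=
  Nat.mul B.S2 (Nat.succ (Nat.add (Nat.div (Nat.mod m 40) 13) (Nat.mul B.S3 (Nat.div m 40))))

/-- the check of a layout -/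
def lay (L : L2) : Bool := L.all fun w z => Nat.ble (B.sz (Nat.sub B.T w)) z

/-- the entry of `(p, m)` at `q` is the binomial coefficient -/
def isC (p m q n j : ℕ) : Bool :=
  Nat.beq (bf (p.testBit q) 1 (bf (m.testBit q) 2 0))
    (Nat.mod (Nat.div (Nat.descFactorial n j) (Nat.factorial j)) 3)

/-- the check of the tables at one position -/
def chk1 (b c d : ℕ) : Bool :=
  bf (allLt (Nat.succ B.T) fun m =>
      Nat.beq (bf (B.N.testBit (Nat.add (Nat.mul B.BS m) (B.rb b c d))) 1 0)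
        (bf (Nat.beq (Nat.add (Nat.mul 4 b) (Nat.add (Nat.mul 13 c) (Nat.mul 40 d))) m) 1 0))
    (bf (allLt B.S2 fun j => isC B.p2 B.m2 (Nat.add (Nat.mul B.BS j) (B.rb b c d)) b j)
      (bf (allLt B.S3 fun j => isC B.p3 B.m3 (Nat.add (Nat.mul B.BS j) (B.rb b c d)) c j)
        (allLt B.S4 fun j => isC B.p4 B.m4 (Nat.add (Nat.mul B.BS j) (B.rb b c d)) d j)
        false) false) false

/-- the check of the tables -/
def chk : Bool :=
  Nat.ble 3 B.S2 && Nat.ble 3 B.S3 && Nat.blt B.T (Nat.mul 4 B.S2) &&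
    Nat.blt B.T (Nat.mul 13 B.S3) && Nat.blt B.T (Nat.mul 40 B.S4) && Nat.ble B.T 120 &&
    Nat.beq (Nat.land B.p2 B.m2) 0 && Nat.beq (Nat.land B.p3 B.m3) 0 &&
    Nat.beq (Nat.land B.p4 B.m4) 0 &&
    allLt B.S4 fun d => allLt B.S3 fun c => allLt B.S2 fun b =>
      bf (Nat.ble (Nat.add (Nat.mul 4 b) (Nat.add (Nat.mul 13 c) (Nat.mul 40 d))) B.T)
        (B.chk1 b c d) true

end Box

/-- add a row with a new pivot -/
def push (tag p m low msk p' m' : ℕ) (rows : RL) (M : ℕ) (k : RL → ℕ → Bool) : Bool :=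
  Bool.rec false (k (RL.cons tag p m low msk p' m' rows) (Nat.lor M low))
    (Nat.beq (Nat.land (Nat.lor p m) msk) (Nat.land (Nat.lor M low) low))

/-- apply an operator to the rows whose pivot is in `free` -/
def pass (tag δ lo free : ℕ) (ts ts' : L3) (src : RL) : RL → ℕ → (RL → ℕ → Bool) → Bool :=
  RL.rec (fun rows M k => k rows M) (fun tg p m low msk p' m' _ r rows M k =>
    Bool.rec (k rows M)
      (bf (Nat.beq (Nat.land low free) 0) (r rows M k)
        (L3.ap1 p m ts fun x y => push tag x y (Nat.shiftLeft low δ)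
          (Nat.lor (Nat.shiftLeft msk δ) lo) ((L3.apL p' m' ts').g1 0) ((L3.apL p' m' ts').g2 0)
          rows M fun rows M => r rows M k))
      (Nat.ble tag tg)) src

/-- the positions of `x` which are not in `M` -/
def nd (x M : ℕ) : ℕ := Nat.xor x (Nat.land x M)

/-- apply all operators -/
def opsL (A A' : L2) (H : HL) (ops : OL) : ℕ → RL → ℕ → (RL → ℕ → Bool) → Bool :=
  OL.rec (fun _ rows M k => k rows M) (fun n δ jl ul lo g g' _ r tag rows M k =>
    HL.rec (r (Nat.succ tag) rows M k) (fun src Ms _ _ =>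
      bf (Nat.beq (Nat.land Ms
          (Nat.shiftRight (nd (Nat.land (Nat.lor (A.g1 jl) (A.g2 jl)) ul) M) δ)) 0)
        (r (Nat.succ tag) rows M k)
        (pass tag δ lo (Nat.shiftRight (nd (Nat.land (Nat.lor (A.g1 jl) (A.g2 jl)) ul) M) δ)
          (L3.terms g A) (L3.terms g' A') src rows M fun rows M => r (Nat.succ tag) rows M k))
      (H.drop n)) ops

/-- add or subtract -/
def ads (sg x y x' y' p m p' m' : ℕ) (k : ℕ → ℕ → ℕ → ℕ → Bool) : Bool :=
  Bool.rec (ad x y m p fun a b => k a b (ap x' y' m' p') (am x' y' m' p'))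
    (ad x y p m fun a b => k a b (ap x' y' p' m') (am x' y' p' m')) (Nat.beq sg 0)

/-- add multiples of rows of the same weight -/
def red (l : List ℕ) : RL → ℕ → ℕ → ℕ → ℕ → (ℕ → ℕ → ℕ → ℕ → Bool) → Bool :=
  List.rec (fun _ x y x' y' k => k x y x' y') (fun c _ r rows x y x' y' k =>
    RL.rec false (fun _ p m _ _ p' m' t _ =>
      ads (Nat.mod c 2) x y x' y' p m p' m' fun x y x' y' =>
        bf (Nat.beq x 0) (r t x y x' y' k) (r t x y x' y' k))
      (rows.drop (Nat.div c 2))) l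

/-- add multiples of given functionals and of operators applied to rows -/
def comb (u : ℕ) (A A' : L2) (H : HL) (ops : OL) (SG : L3) (it : L3) :
    ℕ → ℕ → ℕ → ℕ → (ℕ → ℕ → ℕ → ℕ → Bool) → Bool :=
  L3.rec (fun x y x' y' k => k x y x' y') (fun o a sg _ r x y x' y' k =>
    Nat.rec (bf (Nat.blt a SG.len) (bf (Nat.beq (SG.g1 a) u)
        (bf (Nat.beq (Nat.land (SG.g2 a) (SG.g3 a)) 0)
          (ads sg x y x' y' (SG.g2 a) (SG.g3 a) 0 0 fun x y x' y' => r x y x' y' k) false)
        false) false)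
      (fun o _ => OL.rec false (fun n _ _ _ _ g g' _ _ => HL.rec false (fun src _ _ _ =>
        RL.rec false (fun _ p m _ _ p' m' _ _ => L3.ap1 p m (L3.terms g A) fun a b =>
          ads sg x y x' y' a b ((L3.apL p' m' (L3.terms g' A')).g1 0)
            ((L3.apL p' m' (L3.terms g' A')).g2 0) fun x y x' y' => r x y x' y' k)
          (src.drop a)) (H.drop n)) (ops.drop o)) o) it

/-- add a row whose pivot is given -/
def pushD (B : Box) (L : L2) (u i b c d p m p' m' : ℕ) (rows : RL) (M : ℕ)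
    (k : RL → ℕ → Bool) : Bool :=
  bf (Nat.blt i L.len) (bf (Nat.ble (Nat.add (L.g1 i)
      (Nat.add (Nat.mul 4 b) (Nat.add (Nat.mul 13 c) (Nat.mul 40 d)))) u)
    (push 99 p m (Nat.pow 2 (Nat.add (L.off i) (B.rb b c d)))
      (Nat.lor (lowm L (B.rb b c d)) (Nat.mod (L.cat fun _ => Nat.pow 2 (B.rb b c d))
        (Nat.pow 2 (Nat.succ (Nat.add (L.off i) (B.rb b c d)))))) p' m' rows M k) false) false

/-- the entry `j` is `(u, x, y)` -/
def L3.is (l : L3) (j u x y : ℕ) : Bool :=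
  bf (Nat.beq (l.g1 j) u) (bf (Nat.beq (l.g2 j) x) (Nat.beq (l.g3 j) y) false) false

/-- the rows given by data -/
def dat (B : Box) (L L' : L2) (u : ℕ) (A A' : L2) (H : HL) (ops : OL) (GR SG SG' : L3) (dl : DL) :
    ℕ → ℕ → RL → ℕ → (ℕ → ℕ → RL → ℕ → Bool) → Bool :=
  DL.rec (fun j j' rows M k => k j j' rows M) (fun o i b c d it rl _ r j j' rows M k =>
    bf (Nat.beq o 2)
      (comb u A A' H ops SG it 0 0 0 0 fun x y x' y' => red rl rows x y x' y' fun x y _ _ =>
        bf (GR.is j u x y) (bf (Nat.blt j L'.len) (bf (Nat.beq (L'.g1 j) u)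
          (pushD B L u i b c d x y (Nat.pow 2 (L'.off j)) 0 rows M fun rows M =>
            r (Nat.succ j) j' rows M k) false) false) false)
      (comb u A A' H ops L3.nil it 0 0 0 0 fun x y x' y' => red rl rows x y x' y' fun x y x' y' =>
        bf (Nat.beq o 0) (pushD B L u i b c d x y x' y' rows M fun rows M => r j j' rows M k)
          (bf (Nat.beq (Nat.lor x y) 0) (bf (SG'.is j' u x' y')
            (r j (Nat.succ j') rows M k) false) false))) dl

/-- one weight -/
def step (B : Box) (L L' : L2) (ops : OL) (GR SG SG' : L3) (n E u r k cm : ℕ) (dl : DL)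
    (A A' : L2) (H : HL) (j j' : ℕ) (c : L2 → L2 → HL → ℕ → ℕ → Bool) : Bool :=
  opsL A A' H ops 0 RL.nil 0 fun rows M =>
    dat B L L' u A A' H ops GR SG SG' dl j j' rows M fun j j' rows M =>
      bf (Nat.beq M cm) (bf (Nat.ble r (pc E M)) (bf (Nat.ble (pc E (nd (A.g1 0) M)) k)
        (bf (Nat.beq (Nat.shiftRight (nd (A.g1 0) M) (Nat.mul 12 n)) 0)
          (c A A' (HL.cons rows M H) j j') false) false) false) false

/-- all weights -/
def runL (B : Box) (L L' : L2) (ops : OL) (GR SG SG' : L3) (n E : ℕ) (rk : L3) :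
    List DL → ℕ → L2 → L2 → HL → ℕ → ℕ → Bool :=
  L3.rec (fun _ _ _ _ _ j j' => bf (Nat.ble L'.len j) (Nat.ble SG'.len j') false)
    (fun r k cm _ rc D u A A' H j j' => List.rec false (fun dl D' _ =>
      step B L L' ops GR SG SG' n E u r k cm dl (A.pas (B.new L u) 0) (A'.pas (B.new L' u) 0) H
        j j' (rc D' (Nat.succ u))) D) rk

/-- the check for one homological degree -/
def run (B : Box) (sp L L' : L2) (GR SG SG' : L3) (n : ℕ) (rk : L3) (D : List DL) : Bool :=
  bf (B.lay L) (bf (B.lay L') (bf (Nat.blt n 4095) (bf (Nat.beq rk.len (Nat.succ B.T))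
    (runL B L L' (B.ops L (B.tab L B.p2 B.m2 B.S2) (B.tab L B.p3 B.m3 B.S3) (B.tab L B.p4 B.m4 B.S4)
        (B.tab L' B.p2 B.m2 B.S2) (B.tab L' B.p3 B.m3 B.S3) (B.tab L' B.p4 B.m4 B.S4) sp)
      GR SG SG' n (evy n) rk D 0 L2.nil L2.nil HL.nil 0 0) false) false) false) false

end Vale.Agent.P236K.Cert.Pl
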