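import Vale.Agent.P236K.Cert.Spec
import Vale.Agent.P236K.Cert.Run

/-!
# P236K / Cert / Dat : the twisting data modulo `I` defined by tables
-/

noncomputable section

namespace Vale.Agent.P236K.Cert.Pl

open Vale.Agent.P236K.Alg MvPolynomial

/-- tables -/
structure Dat : Type where
  /-- the box -/
  B : Box
  /-- the generators have degree at most `S + 1` -/
  S : ℕ
  /-- weight and block size of the generators of degree `s` -/
  LL : ℕ → L2
  /-- weight and row of the generators of degree `s + 1` -/
  GG : ℕ → L3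
  /-- rank, corank and set of leading positions in degree `s`, for every weight -/
  RK : ℕ → L3
  /-- there is a generator of degree zero -/
  pos0 : 0 < (LL 0).len

namespace Dat

variable (D : Dat)

/-- the generators -/
abbrev G : Type := (s : Fin (D.S + 2)) × Fin (D.LL s).len

/-- the weight of a generator -/
def w (g : D.G) : ℕ := (D.LL g.1).g1 g.2

/-- the position of a node -/
def pos (s i c2 c3 c4 : ℕ) : ℕ := (D.LL s).off i + D.B.rb c2 c3 c4

/-- the coefficient of the generator `j` of degree `s + 1` in the image of `t ^ b` times the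
generator `i` of degree `s` -/
def lamN (s i j : ℕ) (b : Ex) : F3 :=
  if wE 3 b + 2 * ((D.LL s).g1 i : ℕ) = 2 * ((D.LL (s + 1)).g1 j : ℕ) then
    val ((D.GG s).g2 j) ((D.GG s).g3 j) (D.pos s i (b 1) (b 2) (b 3)) else 0

/-- the twisting data -/
def tau : Tw F3 D.G where
  sd g := g.1
  dg g := 2 * (D.w g : ℕ)
  lam g h b := if (h.1 : ℕ) = g.1 + 1 then C (D.lamN g.1 g.2 h.2 b) else 0
  g0 := ⟨0, 0, D.pos0⟩

/-- the leading nodes -/
def Cn (g : D.G) (b : Ex) : Prop := ∃ u ≤ D.B.T, wE 3 b + 2 * (D.w g : ℕ) = 2 * (u : ℕ) ∧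
  ((D.RK g.1).g3 u).testBit (D.pos g.1 g.2 (b 1) (b 2) (b 3)) = true

end Dat

end Vale.Agent.P236K.Cert.Pl
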