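import Vale.Agent.P236K.Cert.Spec

/-!
# P236K / Cert / Eqv : transport of `Lev0` along a bijection of the generators
-/

set_option linter.unusedSectionVars false

noncomputable section

namespace Vale.Agent.P236K.Cert

open Vale.Agent.P236K.Alg MvPolynomial

variable {G G' : Type} [Fintype G] [DecidableEq G] [Fintype G'] [DecidableEq G']

/-- reindexing of twisting data -/
def reix (τ : Tw F3 G) (e : G' ≃ G) : Tw F3 G' where
  sd g := τ.sd (e g)
  dg g := τ.dg (e g)
  lam g h := τ.lam (e g) (e h)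
  g0 := e.symm τ.g0

variable [PL 3 F3] {τ : Tw F3 G} {e : G' ≃ G}

theorem reix_hom {s : ℕ} {u : ℤ} {y : G → Av F3} :
    (reix τ e).Hom 3 s u (fun g => y (e g)) ↔ τ.Hom 3 s u y :=
  ⟨fun h g => by simpa [reix] using h (e.symm g), fun h g => h (e g)⟩

theorem reix_sup {Cn : G → Ex → Prop} {y : G → Av F3} :
    Sup (fun g => Cn (e g)) (fun g => y (e g)) ↔ Sup Cn y :=
  ⟨fun h g => by simpa using h (e.symm g), fun h g => h (e g)⟩

theorem reix_d0 (y : G → Av F3) :
    (reix τ e).d0 3 (fun g => y (e g)) = fun h => τ.d0 3 y (e h) := by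
  funext h
  exact e.sum_comp fun g => op0 3 (fun b => cc F3 (τ.lam g (e h) b)) (y g)

theorem exists_comp (e : G' ≃ G) (y : G' → Av F3) : ∃ x : G → Av F3, y = fun g => x (e g) :=
  ⟨fun g => y (e.symm g), funext fun g => by simp⟩

theorem Lev0.equiv {Cn : G → Ex → Prop} {N : ℤ} {S : ℕ} (H : Lev0 τ Cn N S) (e : G' ≃ G) :
    Lev0 (reix τ e) (fun g => Cn (e g)) N S where
  sd0 := by simpa [reix] using H.sd0
  dg0 := by simpa [reix] using H.dg0
  top g := H.top (e g)
  sd_lam g h := H.sd_lam (e g) (e h)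
  wt_lam g h := H.wt_lam (e g) (e h)
  lam0 h := by simpa [reix] using H.lam0 (e h)
  const g h := H.const (e g) (e h)
  bot g b h1 h2 h3 := by
    obtain ⟨h4, h5⟩ := H.bot (e g) b h1 h2 h3
    exact ⟨e.eq_symm_apply.2 h4, h5⟩
  span s hs u hu y hy := by
    obtain ⟨x, rfl⟩ := exists_comp e y
    obtain ⟨z, h1, h2, h3⟩ := H.span s hs u hu x (reix_hom.1 hy)
    refine ⟨fun g => z (e g), reix_hom.2 h1, reix_sup.2 h2, ?_⟩
    rw [reix_d0]
    exact reix_sup.2 h3
  inj s hs u hu z h1 h2 h3 := by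
    obtain ⟨x, rfl⟩ := exists_comp e z
    rw [reix_d0] at h3
    rw [H.inj s hs u hu x (reix_hom.1 h1) (reix_sup.1 h2) (reix_sup.1 h3)]
    rfl
  sq s hs u hu z h1 h2 l := by
    obtain ⟨x, rfl⟩ := exists_comp e z
    rw [reix_d0, ← H.sq s hs u hu x (reix_hom.1 h1) (reix_sup.1 h2) (e l)]
    exact e.sum_comp fun h => fn (fun b => cc F3 (τ.lam h (e l) b)) (τ.d0 3 x h)

end Vale.Agent.P236K.Cert
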