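import Vale.Agent.P236K.Cert.CokA
import Vale.Agent.P236K.Cert.Eqv
import Vale.Agent.P236K.Cert.Dat
import Mathlib.Algebra.BigOperators.Fin

/-!
# P236K / Cert / Cok : global numbering of the generators, `FitG`, `FitW`, `COK` for the tables

The generator number `i` of degree `s` has the global number `st s + i`.
-/

set_option linter.unusedSectionVars false

noncomputable section

namespace Vale.Agent.P236K.Cert.Pl.Dat

open Vale.Agent.P236K.Alg MvPolynomial

variable (D : Dat)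

/-- the number of generators of degree below `s` -/
def st (s : ℕ) : ℕ := Nat.rec 0 (fun j r => Nat.add r (D.LL j).len) s

/-- the number of generators -/
def n : ℕ := ∑ s : Fin (D.S + 2), (D.LL s).len

/-- the numbering -/
def e : Fin D.n ≃ D.G := finSigmaFinEquiv.symm

/-- the renumbered twisting data -/
def tau0 : Tw F3 (Fin D.n) := reix D.tau D.e

/-- the renumbered set of nodes -/
def Cn0 (g : Fin D.n) : Ex → Prop := D.Cn (D.e g)

/-- the list of the generators of degree `s` -/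
def gl (s : ℕ) : List ℕ := List.range' (D.st s) (D.LL s).len

/-- the bit position of a node key of degree `s` -/
def posK (s k : ℕ) : ℕ := fS (Nat.sub (Nat.div k 268435456) (D.st s)) fun i =>
  Nat.add ((D.LL s).off i) (D.B.rb (Nat.mod (Nat.div k 128) 128) (Nat.mod (Nat.div k 16384) 128)
    (Nat.mod (Nat.div k 2097152) 128))

/-- the programs of degree `s`; `L` is the layout of degree `s + 1` -/
def pd (s : ℕ) (L : Lay) : PD where
  L := L
  pos := D.posK s
  cm := (D.RK s).g3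
  gp h := fS (Nat.succ s) fun s' => fS (Nat.sub h (D.st s')) fun j => (D.GG s).g2 j
  gm h := fS (Nat.succ s) fun s' => fS (Nat.sub h (D.st s')) fun j => (D.GG s).g3 j

/-- the values of the nodes of degree `s` -/
def np (s : ℕ) (L : Lay) (tw : ℕ → BT) (unp : ℕ → ℕ) : NP := (D.pd s L).np tw unp

/-- the test of the weights -/
def wB (w : ℕ → ℕ) : Bool :=
  Nat.rec true (fun s r => Bool.rec false r (Nat.rec true (fun i r => Bool.rec false r
    (Nat.beq (w (Nat.add (D.st s) i)) ((D.LL s).g1 i))) (D.LL s).len)) (Nat.add D.S 2)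

/-- the degree of a generator -/
def sdN (h : Fin D.n) : ℕ := (D.e h).1

/-- the local number of a generator -/
def ixN (h : Fin D.n) : ℕ := (D.e h).2

theorem st_succ (s : ℕ) : D.st (s + 1) = D.st s + (D.LL s).len := rfl

theorem st_eq (s : ℕ) : D.st s = ∑ i ∈ Finset.range s, (D.LL i).len := by
  induction s with
  | zero => rfl
  | succ s ih => rw [st_succ, Finset.sum_range_succ, ih]

theorem n_eq : D.n = D.st (D.S + 2) := by
  rw [st_eq, n, Finset.sum_range fun i => (D.LL i).len]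

theorem st_mono {s s' : ℕ} (h : s ≤ s') : D.st s ≤ D.st s' := by
  induction h with
  | refl => exact le_rfl
  | step _ ih => exact ih.trans (Nat.le_add_right _ _)

theorem symm_val (g : D.G) : (D.e.symm g : ℕ) = D.st g.1 + g.2 := by
  refine (finSigmaFinEquiv_apply (n := fun s : Fin (D.S + 2) => (D.LL s).len) g).trans ?_
  rw [st_eq, Finset.sum_range fun i => (D.LL i).len]
  rfl

theorem val_eq (h : Fin D.n) : (h : ℕ) = D.st (D.sdN h) + D.ixN h := by
  rw [sdN, ixN, ← symm_val, Equiv.symm_apply_apply]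

theorem ix_lt (h : Fin D.n) : D.ixN h < (D.LL (D.sdN h)).len := (D.e h).2.2

theorem g0_val : (D.tau0.g0 : ℕ) = 0 := D.symm_val D.tau.g0

theorem mem_gl {s h : ℕ} : h ∈ D.gl s ↔ D.st s ≤ h ∧ h < D.st (s + 1) := by
  rw [gl, List.mem_range'_1, st_succ]

theorem sd_eq {s : ℕ} {h : Fin D.n} (hh : h.1 ∈ D.gl s) : D.sdN h = s := by
  rw [mem_gl] at hh
  have h1 := D.val_eq h
  have h2 := D.ix_lt h
  have h3 := D.st_succ (D.sdN h)
  rcases lt_trichotomy (D.sdN h) s with h4 | h4 | h4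
  · have := D.st_mono (Nat.succ_le_of_lt h4)
    rw [Nat.succ_eq_add_one] at this
    omega
  · exact h4
  · have := D.st_mono (Nat.succ_le_of_lt h4)
    rw [Nat.succ_eq_add_one] at this
    omega

theorem ix_eq {s : ℕ} {h : Fin D.n} (hh : h.1 ∈ D.gl s) : D.ixN h = h - D.st s := by
  have h1 := D.val_eq h
  rw [D.sd_eq hh] at h1
  omega

theorem fitG {s : ℕ} (hs : s ≤ D.S + 1) : FitG D.tau0 (D.gl s) s := by
  intro h
  refine ⟨fun hh => ?_, ?_⟩
  · have h1 : h < D.n := by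
      have := D.st_mono (show s + 1 ≤ D.S + 2 by omega)
      rw [n_eq]
      rw [mem_gl] at hh
      omega
    exact ⟨h1, D.sd_eq (h := ⟨h, h1⟩) hh⟩
  · rintro ⟨h1, h2⟩
    have h3 : h = _ := D.val_eq ⟨h, h1⟩
    have h4 := D.ix_lt ⟨h, h1⟩
    have h5 := D.st_succ (D.sdN ⟨h, h1⟩)
    have h6 : D.sdN ⟨h, h1⟩ = s := h2
    rw [mem_gl, ← h6]
    omega

theorem fitW {L : Lay} (h : D.wB L.w = true) : FitW D.tau0 L := by
  intro g
  have h1 := Lv.all_nat (f := fun s => Nat.rec true (fun i r => Bool.rec false r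
    (Nat.beq (L.w (Nat.add (D.st s) i)) ((D.LL s).g1 i))) (D.LL s).len) h (D.sdN g) (D.e g).1.2
  have h2 := Nat.eq_of_beq_eq_true (Lv.all_nat (f := fun i => Nat.beq (L.w (Nat.add
    (D.st (D.sdN g)) i)) ((D.LL (D.sdN g)).g1 i)) h1 (D.ixN g) (D.ix_lt g))
  rw [Nat.add_eq, ← val_eq] at h2
  rw [h2]
  rfl

theorem nodup_gl (s : ℕ) : (D.gl s).Nodup := List.nodup_range' ..

theorem w_eq {L : Lay} (hw : FitW D.tau0 L) (g : Fin D.n) :
    (D.LL (D.sdN g)).g1 (D.ixN g) = L.w g := by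
  have h : 2 * (((D.LL (D.sdN g)).g1 (D.ixN g) : ℕ) : ℤ) = 2 * (L.w g : ℤ) := hw g
  omega

theorem posK_def (s k : ℕ) : D.posK s k = D.pos s (k / 268435456 - D.st s) (k / 128 % 128)
    (k / 16384 % 128) (k / 2097152 % 128) := rfl

theorem posK_eq {s : ℕ} {h : Fin D.n} (hh : h.1 ∈ D.gl s) {y : ℕ} (hy : y < 268435456) :
    D.posK s (h * 268435456 + y) = D.pos s (D.ixN h) (ex y 1) (ex y 2) (ex y 3) := by
  rw [D.ix_eq hh, Lv.ex_1, Lv.ex_2, Lv.ex_3, posK_def,
    show (h * 268435456 + y) / 268435456 = h by omega,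
    show (h * 268435456 + y) / 128 % 128 = y / 128 % 128 by omega,
    show (h * 268435456 + y) / 16384 % 128 = y / 16384 % 128 by omega,
    show (h * 268435456 + y) / 2097152 % 128 = y / 2097152 % 128 by omega]

theorem Cn0_iff (h : Fin D.n) (b : Ex) : D.Cn0 h b ↔ ∃ u ≤ D.B.T,
    wE 3 b + 2 * ((D.LL (D.sdN h)).g1 (D.ixN h) : ℕ) = 2 * (u : ℕ) ∧
      ((D.RK (D.sdN h)).g3 u).testBit (D.pos (D.sdN h) (D.ixN h) (b 1) (b 2) (b 3)) = true :=
  Iff.rfl

theorem lam0_eq (h l : Fin D.n) (b : Ex) : D.tau0.lam h l b =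
    if D.sdN l = D.sdN h + 1 then C (D.lamN (D.sdN h) (D.ixN h) (D.ixN l) b) else 0 := rfl

theorem trit_cast (p m i : ℕ) : ((trit p m i : ℕ) : F3) = val p m i := by
  rw [trit_eq, val]
  rcases p.testBit i with _ | _ <;> rcases m.testBit i with _ | _ <;> rfl

variable [PL 3 F3]

theorem lev0' {N : ℤ} {S : ℕ} (H : Lev0 D.tau D.Cn N S) : Lev0 D.tau0 D.Cn0 N S := H.equiv D.e

theorem cok {s : ℕ} (hs : s ≤ D.S) {L : Lay} (hg : L.gl = D.gl (s + 1)) (hw : FitW D.tau0 L)
    (hN : L.N ≤ D.B.T) (hl : L.gl.length ≤ 190) (tw : ℕ → BT) (unp : ℕ → ℕ) :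
    COK D.tau0 D.Cn0 (D.np s L tw unp) (D.gl s) := by
  refine cok_of (s := s) (D.pd s L) tw unp (fun g h b hh => if_neg hh)
    (hg ▸ D.nodup_gl _ : L.gl.Nodup) hl (D.fitG (by omega))
    (hg ▸ D.fitG (by omega) : FitG D.tau0 L.gl (s + 1)) (fun h hh y hy hle => ?_)
    fun h hh y hy hle l hl => ?_
  · have e1 : (D.pd s L).cm = (D.RK s).g3 := rfl
    have e2 : (D.pd s L).pos = D.posK s := rfl
    have e3 : (D.pd s L).L = L := rfl
    rw [e3] at hle
    rw [e1, e2, e3, D.posK_eq hh hy, Cn0_iff, D.w_eq hw, D.sd_eq hh, Lv.wE_ex]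
    refine ⟨fun h1 => ⟨_, hle.trans hN, by push_cast; ring, h1⟩, ?_⟩
    rintro ⟨u, -, h1, h2⟩
    rwa [show L.w h + w4 y = u by omega]
  · have e1 : (D.pd s L).gp l = (D.GG s).g2 (l - D.st (s + 1)) := rfl
    have e1' : (D.pd s L).gm l = (D.GG s).g3 (l - D.st (s + 1)) := rfl
    have e2 : (D.pd s L).pos = D.posK s := rfl
    have e3 : (D.pd s L).L = L := rfl
    rw [e3, hg] at hl
    have h1 := D.w_eq hw h
    have h2 := D.w_eq hw l
    rw [D.sd_eq hh] at h1
    rw [D.sd_eq hl] at h2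
    rw [e1, e1', e2, e3, lam0_eq, if_pos (by rw [D.sd_eq hh, D.sd_eq hl]), D.sd_eq hh, lamN, h1, h2,
      Lv.wE_ex, D.posK_eq hh hy, D.ix_eq hl]
    by_cases h3 : L.w l = L.w h + w4 y
    · rw [if_pos h3, if_pos (by rw [h3]; push_cast; ring), trit_cast]
    · rw [if_neg h3, if_neg (by omega), Nat.cast_zero]

end Vale.Agent.P236K.Cert.Pl.Dat
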