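import Vale.Agent.P236K.Cert.Prog

/-!
# P236K / Cert / Lev : the induction on the degree (block E)
-/

set_option linter.unusedSectionVars false

noncomputable section

namespace Vale.Agent.P236K.Cert

open Vale.Agent.P236K.Alg MvPolynomial

namespace Lv

theorem ex_0 (y : ℕ) : ex y 0 = y % 128 := by simp [ex]
theorem ex_1 (y : ℕ) : ex y 1 = y / 128 % 128 := by simp [ex]
theorem ex_2 (y : ℕ) : ex y 2 = y / 16384 % 128 := by simp [ex]
theorem ex_3 (y : ℕ) : ex y 3 = y / 2097152 % 128 := by simp [ex]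

theorem enc_ex (y : ℕ) : enc (ex y) = y % 268435456 := by
  rw [enc, ex_0, ex_1, ex_2, ex_3]
  omega

theorem ex_mod (y : ℕ) : ex (y % 268435456) = ex y := by
  unfold ex
  rw [show y % 268435456 % 128 = y % 128 by omega,
    show y % 268435456 / 128 % 128 = y / 128 % 128 by omega,
    show y % 268435456 / 16384 % 128 = y / 16384 % 128 by omega,
    show y % 268435456 / 2097152 % 128 = y / 2097152 % 128 by omega]

theorem w4_def (k : ℕ) : w4 k = k % 128 + 4 * (k / 128 % 128) +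
    (13 * (k / 16384 % 128) + 40 * (k / 2097152 % 128)) := rfl

theorem w4_mod (y : ℕ) : w4 (y % 268435456) = w4 y := by
  rw [w4_def, w4_def]
  omega

theorem wE_ex (y : ℕ) : wE 3 (ex y) = 2 * (w4 y : ℤ) := by
  rw [ex, map_add, map_add, map_add, w4_def]
  simp only [wE, Finsupp.weight_single, wz, nsmul_eq_mul]
  norm_num
  ring

theorem wk_def (L : Lay) (k : ℕ) : wk L k = L.w (k / 268435456) + w4 k := rfl

theorem of_rec {a b : Bool} (h : (Bool.rec false a b : Bool) = true) : a = true ∧ b = true := by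
  cases b
  · exact absurd h Bool.false_ne_true
  · exact ⟨h, rfl⟩

theorem find_mem {k d : ℕ} {t : BT} (h : t.find k = d + 1) : k ∈ t.keys := by
  induction t with
  | l => exact absurd h (Nat.succ_ne_zero d).symm
  | n q k' d' r ihl ihr =>
    change (Bool.rec (Bool.rec (r.find k) (Nat.succ d') (Nat.beq k k')) (q.find k)
      (Nat.blt k k') : ℕ) = _ at h
    rw [BT.keys, List.mem_append, List.mem_cons]
    rcases h1 : Nat.blt k k' with _ | _
    · rw [h1] at h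
      rcases h2 : Nat.beq k k' with _ | _
      · rw [h2] at h
        exact Or.inr (Or.inr (ihr h))
      · exact Or.inr (Or.inl (Nat.eq_of_beq_eq_true h2))
    · rw [h1] at h
      exact Or.inl (ihl h)

theorem length_keys (t : BT) : t.keys.length = t.size := by
  induction t with
  | l => rfl
  | n q k d r ihl ihr =>
    change _ = q.size + r.size + 1
    rw [BT.keys, List.length_append, List.length_cons, ihl, ihr, add_assoc]

theorem incr_sound {l : List ℕ} {x : ℕ} (h : incr l x = true) :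
    (∀ k ∈ l, x ≤ k) ∧ l.Nodup := by
  induction l generalizing x with
  | nil => simp
  | cons k l ih =>
    obtain ⟨h1, h2⟩ := of_rec (a := incr l (Nat.succ k)) (b := Nat.ble x k) h
    rw [Nat.ble_eq] at h2
    obtain ⟨h3, h4⟩ := ih h1
    refine ⟨fun j hj => ?_, List.nodup_cons.2 ⟨fun hk => ?_, h4⟩⟩
    · rcases List.mem_cons.1 hj with rfl | hj
      · exact h2
      · have := h3 j hj
        omega
    · have := h3 k hk
      omega

theorem memL_sound {g : ℕ} {l : List ℕ} (h : memL g l = true) : g ∈ l := by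
  induction l with
  | nil => exact absurd h Bool.false_ne_true
  | cons k l ih =>
    change (Bool.rec (memL g l) true (Nat.beq k g) : Bool) = true at h
    rcases h1 : Nat.beq k g with _ | _
    · rw [h1] at h
      exact List.mem_cons_of_mem _ (ih h)
    · rw [Nat.eq_of_beq_eq_true h1]
      exact List.mem_cons_self

theorem cnt_aux (L : Lay) (u : ℕ) (l : List ℕ) (c : ℕ) :
    (List.rec (motive := fun _ => ℕ → ℕ) (fun c => c) (fun k _ r c =>
      Bool.rec (r c) (fS (Nat.succ c) r) (Nat.beq (wk L k) u)) l c) =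
      c + (l.filter fun k => wk L k = u).length := by
  induction l generalizing c with
  | nil => rfl
  | cons k l ih =>
    by_cases h : wk L k = u
    · rw [List.filter_cons_of_pos (by simpa using h), List.length_cons, ← add_assoc,
        add_right_comm, ← ih (c + 1)]
      have h1 : Nat.beq (wk L k) u = true := by rw [h]; exact Nat.beq_refl u
      change (Bool.rec _ _ (Nat.beq (wk L k) u) : ℕ) = _
      rw [h1]
      rfl
    · rw [List.filter_cons_of_neg (by simpa using h), ← ih c]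
      have h1 : Nat.beq (wk L k) u = false := by
        rcases h2 : Nat.beq (wk L k) u with _ | _
        · rfl
        · exact absurd (Nat.eq_of_beq_eq_true h2) h
      change (Bool.rec _ _ (Nat.beq (wk L k) u) : ℕ) = _
      rw [h1]

theorem cntW_eq (L : Lay) (u : ℕ) (l : List ℕ) :
    cntW L u l = (l.filter fun k => wk L k = u).length := (cnt_aux L u l 0).trans (zero_add _)

theorem all_nat {f : ℕ → Bool} {m : ℕ}
    (h : (Nat.rec true (fun u r => Bool.rec false r (f u)) m : Bool) = true) :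
    ∀ u < m, f u = true := by
  induction m with
  | zero => exact fun u hu => absurd hu (Nat.not_lt_zero u)
  | succ m ih =>
    obtain ⟨h1, h2⟩ := of_rec (b := f m) h
    intro u hu
    rcases Nat.lt_succ_iff_lt_or_eq.1 hu with hu | rfl
    · exact ih h1 u hu
    · exact h2

theorem all_rows {f g h : ℕ → Bool} {l : List ℕ}
    (H : (List.rec true (fun k _ r => Bool.rec false (Bool.rec false (Bool.rec false r (f k))
      (g k)) (h k)) l : Bool) = true) : ∀ k ∈ l, f k = true ∧ g k = true ∧ h k = true := by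
  induction l with
  | nil => simp
  | cons k l ih =>
    obtain ⟨h1, h2⟩ := of_rec (b := h k) H
    obtain ⟨h3, h4⟩ := of_rec (b := g k) h1
    obtain ⟨h5, h6⟩ := of_rec (b := f k) h3
    intro j hj
    rcases List.mem_cons.1 hj with rfl | hj
    · exact ⟨h6, h4, h2⟩
    · exact ih h5 j hj

theorem levOK_sound {Q1 Q2 : NP} {gl rows : List ℕ} (h : levOK Q1 Q2 gl rows = true) :
    rows.Nodup ∧ (∀ k ∈ rows, Q1.isC k = true ∧ wk Q1.L k ≤ Q2.L.N ∧ k / 268435456 ∈ gl) ∧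
      ∀ u ≤ Q2.L.N, (Q2.tw u).keys.length ≤ (rows.filter fun k => wk Q1.L k = u).length := by
  obtain ⟨h1, h2⟩ := of_rec (b := incr rows 0) h
  obtain ⟨h3, h4⟩ := of_rec h1
  refine ⟨(incr_sound h2).2, fun k hk => ?_, fun u hu => ?_⟩
  · obtain ⟨h5, h6, h7⟩ := all_rows (f := Q1.isC) (g := fun k => Nat.ble (wk Q1.L k) Q2.L.N)
      (h := fun k => fS (Nat.div k 268435456) fun g => memL g gl) h4 k hk
    exact ⟨h5, Nat.ble_eq ▸ h6, memL_sound h7⟩
  · have h5 := all_nat (f := fun u => Nat.ble (Q2.tw u).size (cntW Q1.L u rows)) h3 u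
      (Nat.lt_succ_of_le hu)
    rw [Nat.ble_eq, cntW_eq] at h5
    rwa [length_keys]

theorem sv_rep (Q : NP) (k : ℕ) :
    Th Q.L.H ≤ Q.sv k ∨ (k ∈ (Q.tw (wk Q.L k)).keys ∧
      Rep Q.L.z Q.L.H 3 0 (Q.sv k) (val Q.L.z Q.L.H (Q.sv k))) := by
  have e : Q.sv k = Nat.rec Q.L.T (fun d _ => Nat.land (Q.unp d) Q.L.K3)
    ((Q.tw (wk Q.L k)).find k) := rfl
  rcases h : (Q.tw (wk Q.L k)).find k with _ | d
  · rw [h] at e
    exact Or.inl (le_of_eq e.symm)
  · rw [h] at e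
    refine Or.inr ⟨find_mem h, ?_⟩
    rw [e]
    exact Rep.lit (c := 3) (by norm_num) _

variable {n : ℕ}

/-- the node with a given key -/
def nd (g0 : Fin n) (k : ℕ) : Fin n × Ex :=
  (if h : k / 268435456 < n then ⟨_, h⟩ else g0, ex k)

theorem nd_key (g0 h : Fin n) {y : ℕ} (hy : y < 268435456) :
    nd g0 (h * 268435456 + y) = (h, ex y) := by
  have e : (h * 268435456 + y) / 268435456 = h := by omega
  have e' : (h * 268435456 + y) % 268435456 = y := by omega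
  rw [nd, ← ex_mod, e', dif_pos (by rw [e]; exact h.2)]
  exact Prod.ext (Fin.ext e) rfl

theorem wk_key (L : Lay) (h : ℕ) {y : ℕ} (hy : y < 268435456) :
    wk L (h * 268435456 + y) = L.w h + w4 y := by
  rw [wk_def, ← w4_mod, show (h * 268435456 + y) / 268435456 = h by omega,
    show (h * 268435456 + y) % 268435456 = y by omega]

/-- a family of finite sets indexed by the weights -/
def fam (g0 : Fin n) (N : ℕ) (l : ℕ → List ℕ) (u : ℤ) : Finset (Fin n × Ex) :=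
  if u = 2 * ((u / 2).toNat : ℤ) ∧ (u / 2).toNat ≤ N then
    (l (u / 2).toNat).toFinset.image (nd g0) else ∅

theorem fam_two (g0 : Fin n) {N : ℕ} (l : ℕ → List ℕ) {m : ℕ} (hm : m ≤ N) :
    fam g0 N l (2 * (m : ℤ)) = (l m).toFinset.image (nd g0) := by
  have e : (2 * (m : ℤ) / 2).toNat = m := by omega
  rw [fam, e, if_pos ⟨rfl, hm⟩]

theorem fam_cases (g0 : Fin n) (N : ℕ) (u : ℤ) :
    (∃ m ≤ N, u = 2 * (m : ℤ)) ∨ ∀ l, fam g0 N l u = ∅ := by
  by_cases h : u = 2 * ((u / 2).toNat : ℤ) ∧ (u / 2).toNat ≤ N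
  · exact Or.inl ⟨_, h.2, h.1⟩
  · exact Or.inr fun l => if_neg h

variable [PL 3 F3]

theorem wN_ex {τ : Tw F3 (Fin n)} {L : Lay} (hw : FitW τ L) (h : Fin n) (y : ℕ) :
    wN τ h (ex y) = 2 * ((L.w h + w4 y : ℕ) : ℤ) := by
  rw [wN, wE_ex, hw h]
  push_cast
  ring

theorem psi_eq {τ₀ τ : Tw F3 (Fin n)} {Cn : Fin n → Ex → Prop} {N₀ : ℤ} (hl : IsLift τ₀ Cn N₀ τ)
    {R : Type} [CommRing R] (κ : Av F3 →+* R) (o : Fin n → R) {h : Fin n} {b : Ex}
    (hc : Cn h b) : Psi κ o τ h b = Psi κ o τ₀ h b :=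
  Finset.sum_congr rfl fun l _ => by rw [hl.onC h l b hc]

theorem ofn_val {R : Type} [Zero R] (B : Fin n → Ex → R) (h : Fin n) : ofn B h = B h := by
  funext b
  rw [ofn, dif_pos h.2]

theorem nvOK_of_adm {τ₀ τ : Tw F3 (Fin n)} {Cn : Fin n → Ex → Prop} {N₀ : ℤ}
    (hl : IsLift τ₀ Cn N₀ τ) {Q : NP} {gl : List ℕ} {s : ℕ} (hN : 2 * (Q.L.N : ℤ) ≤ N₀)
    (hg : FitG τ gl s) (hw : FitW τ Q.L) (hc : COK τ₀ Cn Q gl) {B : Fin n → Ex → R0 Q.L.H}
    (hB : Adm Q.L.kap Q.L.o τ Cn N₀ s (fam τ.g0 Q.L.N fun m => (Q.tw m).keys)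
      (fun h b => val Q.L.z Q.L.H (Q.sv (h * 268435456 + enc b))) B) :
    NvOK Q.L Q.nv gl (ofn B) := by
  intro h hh y hy hle
  obtain ⟨hn, hs⟩ := (hg h).1 hh
  have e := wN_ex hw ⟨h, hn⟩ y
  obtain ⟨h1, h2⟩ := hB ⟨h, hn⟩ (ex y) hs (by rw [e]; change 2 * ((Q.L.w h + w4 y : ℕ) : ℤ) ≤ _; omega)
  obtain ⟨h3, h4⟩ := hc ⟨h, hn⟩ hh y hy hle
  rw [show ofn B h = B ⟨h, hn⟩ from ofn_val B ⟨h, hn⟩, NP.nv]
  rcases h5 : Q.isC (h * 268435456 + y) with _ | _
  · have h6 : ¬ Cn ⟨h, hn⟩ (ex y) := fun h7 => by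
      have h8 : Q.isC (h * 268435456 + y) = true := h3.2 h7
      rw [h5] at h8
      exact Bool.false_ne_true h8
    rcases sv_rep Q (h * 268435456 + y) with h7 | ⟨h7, h8⟩
    · exact Rep.poison h7
    · rw [wk_key _ _ hy] at h7
      rw [h2 h6 (by
        rw [e, fam_two _ _ hle, ← nd_key τ.g0 ⟨h, hn⟩ hy]
        exact Finset.mem_image_of_mem _ (List.mem_toFinset.2 h7))]
      beta_reduce
      rw [enc_ex, Nat.mod_eq_of_lt hy]
      exact h8
  · have h6 : Cn ⟨h, hn⟩ (ex y) := h3.1 h5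
    rw [h1 h6, psi_eq hl _ _ h6]
    exact h4 h6

end Lv

open Lv

variable [PL 3 F3]

theorem botStmt : BotStmt := by
  intro n τ₀ τ Cn N₀ S Q gl h0 hl hN _ hg hw hc hv h hh y hy hle
  obtain ⟨hn, hs⟩ := (hg h).1 hh
  obtain ⟨h3, h4⟩ := hc ⟨h, hn⟩ hh y hy hle
  rw [tv, show ofn (Psi Q.L.kap Q.L.o τ) h = Psi Q.L.kap Q.L.o τ ⟨h, hn⟩ from ofn_val _ ⟨h, hn⟩,
    NP.nv]
  rcases h5 : Q.isC (h * 268435456 + y) with _ | _
  · have h6 : ¬ Cn ⟨h, hn⟩ (ex y) := fun h7 => by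
      have h8 : Q.isC (h * 268435456 + y) = true := h3.2 h7
      rw [h5] at h8
      exact Bool.false_ne_true h8
    obtain ⟨h7, h8⟩ := h0.bot ⟨h, hn⟩ (ex y) hs (by
      rw [wN_ex hw]; change 2 * ((Q.L.w h + w4 y : ℕ) : ℤ) ≤ _; omega) h6
    have h9 : y = 0 := by
      have := enc_ex y
      rw [h8, Nat.mod_eq_of_lt hy] at this
      exact this.symm
    have h10 : h = τ₀.g0 := congrArg Fin.val h7
    have h11 : Psi Q.L.kap Q.L.o τ ⟨h, hn⟩ (ex y) = 0 := by
      rw [h7, h8, ← hl.g0]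
      exact Finset.sum_eq_zero fun l _ => by rw [hl.ok.lam0, map_zero, zero_mul]
    rw [h11, h9, h10, add_zero]
    change Rep _ _ _ _ (Q.sv _) _
    rw [hv]
    exact Rep.zero
  · have h6 : Cn ⟨h, hn⟩ (ex y) := h3.1 h5
    rw [psi_eq hl _ _ h6]
    exact h4 h6

theorem levStmt (hU : UniqStmt) (hR : RowStmt) : LevStmt := by
  intro n τ₀ τ Cn N₀ S Q1 Q2 fm ms fe bs gl rows s h0 hl hs hN o1 o2 hpi hle g1 g2 w1 w2 c1 c2 hnv
    hrow hlev
  obtain ⟨hnd, hr, hcard⟩ := levOK_sound hlev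
  have g2' : FitG τ Q1.L.gl (s + 1) := by rw [FitG, hl.sd]; exact g2
  have w1' : FitW τ Q1.L := by rw [FitW, hl.dg]; exact w1
  have w2' : FitW τ Q2.L := by rw [FitW, hl.dg]; exact w2
  have hN2 : 2 * (Q2.L.N : ℤ) ≤ N₀ := by omega
  have : Nontrivial (R0 Q2.L.H) := nontrivial_R0 (Nat.mul_pos o2.1 o2.2.1)
  have key : ∀ k ∈ rows, ∃ g : Fin n, τ.sd g = s ∧ g.1 ∈ gl ∧ g.1 = k / 268435456 ∧
      nd τ.g0 k = (g, ex (k % 268435456)) ∧ wk Q1.L k = Q1.L.w g + w4 (k % 268435456) := by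
    intro k hk
    obtain ⟨hn, h1⟩ := (g1 _).1 (hr k hk).2.2
    refine ⟨⟨_, hn⟩, by rw [hl.sd]; exact h1, (hr k hk).2.2, rfl, ?_, ?_⟩
    · rw [nd, dif_pos hn, ex_mod]
    · rw [w4_mod, wk_def]
  have mem : ∀ u, ∀ r ∈ fam τ.g0 Q2.L.N (fun m => rows.filter fun k => wk Q1.L k = m) u,
      ∃ k ∈ rows, u = 2 * (wk Q1.L k : ℤ) ∧ r = nd τ.g0 k := by
    intro u r h
    rcases fam_cases τ.g0 Q2.L.N u with ⟨m, hm, rfl⟩ | h1
    · rw [fam_two _ _ hm, Finset.mem_image] at h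
      obtain ⟨k, hk, rfl⟩ := h
      rw [List.mem_toFinset, List.mem_filter, decide_eq_true_eq] at hk
      exact ⟨k, hk.1, by rw [hk.2], rfl⟩
    · rw [h1] at h
      exact absurd h (Finset.notMem_empty _)
  refine nvOK_of_adm hl hN2 g2' w2' c2 fun h b h1 h2 => ⟨fun _ => rfl, fun h3 h4 => ?_⟩
  refine hU (Fin n) τ₀ Cn N₀ S h0 τ hl s hs (R0 Q2.L.H) Q2.L.kap Q2.L.o
    (fam τ.g0 Q2.L.N fun m => (Q2.tw m).keys)
    (fam τ.g0 Q2.L.N fun m => rows.filter fun k => wk Q1.L k = m)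
    (fun h b => val Q2.L.z Q2.L.H (Q2.sv (h * 268435456 + enc b))) ?_ ?_ ?_ h b h1 h2 h3 h4
  · intro u _ r hr'
    obtain ⟨k, hk, rfl, rfl⟩ := mem u r hr'
    obtain ⟨g, h5, h6, h7, h8, h9⟩ := key k hk
    rw [h8]
    refine ⟨h5, by rw [wN_ex w1', h9], ?_⟩
    have h10 := (hr k hk).2.1
    refine (c1 g h6 _ (Nat.mod_lt _ (by norm_num)) (by omega)).1.1 ?_
    rw [h7, Nat.div_add_mod' k 268435456]
    exact (hr k hk).1
  · intro u _
    rcases fam_cases τ.g0 Q2.L.N u with ⟨m, hm, rfl⟩ | h5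
    · rw [fam_two _ _ hm, fam_two _ _ hm, Finset.card_image_of_injOn (s := List.toFinset
        (rows.filter fun k => wk Q1.L k = m)), List.toFinset_card_of_nodup (hnd.filter _)]
      · exact (Finset.card_image_le.trans (List.toFinset_card_le _)).trans (hcard m hm)
      · intro k hk k' hk' e
        rw [Finset.mem_coe, List.mem_toFinset, List.mem_filter] at hk hk'
        obtain ⟨g, -, -, h7, h8, -⟩ := key k hk.1
        obtain ⟨g', -, -, h7', h8', -⟩ := key k' hk'.1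
        rw [h8, h8', Prod.mk.injEq] at e
        have h9 := congrArg enc e.2
        rw [enc_ex, enc_ex] at h9
        have h10 := congrArg Fin.val e.1
        omega
    · rw [h5]
      exact Nat.zero_le _
  · intro u _ r hr' B hB
    obtain ⟨k, hk, rfl, rfl⟩ := mem u r hr'
    obtain ⟨g, h5, h6, h7, h8, h9⟩ := key k hk
    rw [h8]
    refine hR n τ N₀ ⟨Q1.L, Q1.nv, ⟨Q2.L, Q2.nv, fm, ms⟩, fe, bs⟩ s hl.ok o1 hpi o2.2.1 hle g2' w1'
      w2' g h5 (fun h hh => hnv h (by rw [List.mem_singleton.1 hh]; exact h6)) B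
      (nvOK_of_adm hl hN2 g2' w2' c2 hB) _ (Nat.mod_lt _ (by norm_num))
      (h9 ▸ (hr k hk).2.1) ?_
    rw [h7]
    exact hrow k hk

end Vale.Agent.P236K.Cert
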