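import Vale.Agent.P236K.Cert.Key
import Vale.Agent.P236K.Cert.Lev

/-!
# P236K / Cert / CokA : the programs `isC`, `cv` from bit masks
-/

set_option linter.unusedSectionVars false

noncomputable section

namespace Vale.Agent.P236K.Cert

open Vale.Agent.P236K.Alg MvPolynomial

/-- a bit -/
def bit (m i : ℕ) : ℕ := Nat.land (Nat.shiftRight m i) 1

theorem bit_eq (m i : ℕ) : bit m i = if m.testBit i then 1 else 0 := by
  change (m >>> i) &&& 1 = _
  rw [Nat.and_one_is_mod, Nat.shiftRight_eq_div_pow, Nat.testBit_eq_decide_div_mod_eq]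
  rcases Nat.mod_two_eq_zero_or_one (m / 2 ^ i) with h | h <;> simp [h]

/-- the value of a trit : `1`, `2` or `0` -/
def trit (p m i : ℕ) : ℕ := Bool.rec (Nat.mul 2 (bit m i)) 1 (Nat.beq (bit p i) 1)

theorem trit_eq (p m i : ℕ) :
    trit p m i = if p.testBit i then 1 else if m.testBit i then 2 else 0 := by
  rw [trit, bit_eq, bit_eq]
  rcases p.testBit i with _ | _ <;> rcases m.testBit i with _ | _ <;> rfl

theorem trit_le (p m i : ℕ) : trit p m i ≤ 2 := by
  rw [trit_eq]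
  split_ifs <;> omega

/-- the data modulo `I` of one degree, as programs -/
structure PD where
  /-- the layout of the next degree -/
  L : Lay
  /-- the bit position of a node key -/
  pos : ℕ → ℕ
  /-- the mask of `Cn` in weight `u` -/
  cm : ℕ → ℕ
  /-- the bits of the value `1` for a generator of the next degree -/
  gp : ℕ → ℕ
  /-- the bits of the value `2` -/
  gm : ℕ → ℕ

namespace PD

variable (D : PD)

/-- membership in `Cn` -/
def isC (k : ℕ) : Bool := fS (wk D.L k) fun u => fS (D.pos k) fun i => Nat.beq (bit (D.cm u) i) 1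

/-- the bits of all generators of weight `u` of a list -/
def omL (u : ℕ) (l : List ℕ) : ℕ :=
  List.rec 0 (fun h _ r => Bool.rec r (Nat.lor (Nat.lor (D.gp h) (D.gm h)) r)
    (Nat.beq (D.L.w h) u)) l

/-- the bits of all generators of weight `u` -/
def om (u : ℕ) : ℕ := D.omL u D.L.gl

/-- the coefficient of `h` -/
def co (u i h : ℕ) : ℕ := Bool.rec 0 (trit (D.gp h) (D.gm h) i) (Nat.beq (D.L.w h) u)

/-- the packed sum -/
def cvL (u i : ℕ) (l : List ℕ) : ℕ :=
  List.rec 0 (fun h _ r => Nat.add (Nat.shiftLeft (D.co u i h) (Nat.mul 16 (D.L.off h))) r) l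

/-- the value on `Cn` -/
def cv (k : ℕ) : ℕ := fS (wk D.L k) fun u => fS (D.pos k) fun i =>
  Bool.rec 0 (nr1 D.L.T (D.L.cm 0) D.L.K (D.cvL u i D.L.gl)) (Nat.beq (bit (D.om u) i) 1)

/-- the values of the nodes -/
def np (tw : ℕ → BT) (unp : ℕ → ℕ) : NP := ⟨D.L, D.isC, D.cv, tw, unp⟩

theorem co_le (u i h : ℕ) : D.co u i h ≤ 2 := by
  rw [co]
  rcases Nat.beq (D.L.w h) u with _ | _
  · exact Nat.zero_le _
  · exact trit_le _ _ _

theorem co_eq (u i h : ℕ) : D.co u i h = if D.L.w h = u then trit (D.gp h) (D.gm h) i else 0 := by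
  rw [co]
  split_ifs with e
  · rw [e, Nat.beq_refl]
  · rcases h1 : Nat.beq (D.L.w h) u with _ | _
    · rfl
    · exact absurd (Nat.eq_of_beq_eq_true h1) e

theorem co_zero {u i : ℕ} {l : List ℕ} (h : (D.omL u l).testBit i = false) :
    ∀ g ∈ l, D.co u i g = 0 := by
  induction l with
  | nil => simp
  | cons a l ih =>
    change Nat.testBit (Bool.rec (D.omL u l) (D.gp a ||| D.gm a ||| D.omL u l)
      (Nat.beq (D.L.w a) u)) i = false at h
    intro g hg
    rcases h1 : Nat.beq (D.L.w a) u with _ | _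
    · rw [h1] at h
      rcases List.mem_cons.1 hg with rfl | hg
      · rw [co, h1]
      · exact ih h g hg
    · rw [h1] at h
      simp only [Nat.testBit_or, Bool.or_eq_false_iff] at h
      rcases List.mem_cons.1 hg with rfl | hg
      · rw [co, h1]
        change trit _ _ _ = 0
        rw [trit_eq, h.1.1, h.1.2]
        rfl
      · exact ih h.2 g hg

theorem rep_cvL (u i : ℕ) (l : List ℕ) (hl : l.length ≤ 190) :
    Rep D.L.z D.L.H (2 * l.length) 0 (D.cvL u i l)
      (l.map fun h => (D.co u i h : R0 D.L.H) * D.L.z ^ D.L.off h).sum := by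
  induction l with
  | nil => exact Rep.zero
  | cons a l ih =>
    rw [List.length_cons] at hl ⊢
    have h1 : Rep D.L.z D.L.H (1 * D.co u i a) (0 + 0) (Nat.mul 1 (D.co u i a))
        ((D.co u i a : R0 D.L.H) * 1) :=
      (Rep.one D.L.hz).mul_nat (by have := D.co_le u i a; omega)
    rw [show Nat.mul 1 (D.co u i a) = D.co u i a from one_mul _] at h1
    have h2 := (h1.mono (β' := 2) (by have := D.co_le u i a; omega) le_rfl).shift D.L.hz
      (s := D.L.off a) (c := 0) (n := Nat.mul 16 (D.L.off a)) (Nat.zero_le _) rfl (by norm_num)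
    have h3 := h2.add (ih (by omega)) (by omega)
    refine (h3.mono (by omega) le_rfl).of_eq ?_
    rw [List.map_cons, List.sum_cons]
    ring

theorem rep_cv (hl : D.L.gl.length ≤ 190) (k : ℕ) :
    Rep D.L.z D.L.H 3 0 (D.cv k)
      (D.L.gl.map fun h => (D.co (wk D.L k) (D.pos k) h : R0 D.L.H) * D.L.z ^ D.L.off h).sum := by
  change Rep _ _ _ _ (Bool.rec 0 (nr1 D.L.T (D.L.cm 0) D.L.K (D.cvL (wk D.L k) (D.pos k) D.L.gl))
    (Nat.beq (bit (D.om (wk D.L k)) (D.pos k)) 1)) _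
  rcases h : (D.om (wk D.L k)).testBit (D.pos k) with _ | _
  · rw [bit_eq, h, List.sum_eq_zero]
    · exact Rep.zero
    · intro x hx
      obtain ⟨g, hg, rfl⟩ := List.mem_map.1 hx
      rw [D.co_zero h g hg, Nat.cast_zero, zero_mul]
  · rw [bit_eq, h]
    have h1 := D.rep_cvL (wk D.L k) (D.pos k) D.L.gl hl
    exact (Rep.nr1 (β := 0) (by rwa [mul_zero]) (by omega)).mono (by norm_num) (by rw [mul_zero])

theorem isC_iff (k : ℕ) : D.isC k = true ↔ (D.cm (wk D.L k)).testBit (D.pos k) = true := by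
  change Nat.beq (bit (D.cm (wk D.L k)) (D.pos k)) 1 = true ↔ _
  rw [bit_eq]
  rcases (D.cm (wk D.L k)).testBit (D.pos k) with _ | _ <;> simp

end PD

variable {n : ℕ}

theorem sum_fin_list {A : Type} [AddCommMonoid A] {l : List ℕ} (hl : l.Nodup)
    (hn : ∀ h ∈ l, h < n) (F : Fin n → A) (f : ℕ → A) (h0 : ∀ h : Fin n, h.1 ∉ l → F h = 0)
    (h1 : ∀ h : Fin n, h.1 ∈ l → F h = f h) : ∑ h, F h = (l.map f).sum := by
  rw [← List.sum_toFinset f hl, ← Finset.sum_subset
    (Finset.subset_univ (Finset.univ.filter fun h : Fin n => h.1 ∈ l))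
    fun h _ hh => h0 h (by simpa using hh)]
  refine Finset.sum_bij (fun h _ => h.1) (fun h hh => by simpa using hh)
    (fun a _ b _ e => Fin.ext e) (fun b hb => ?_) fun h hh => h1 h (by simpa using hh)
  rw [List.mem_toFinset] at hb
  exact ⟨⟨b, hn b hb⟩, by simpa using hb, rfl⟩

variable [PL 3 F3]

theorem cok_of {τ : Tw F3 (Fin n)} {Cn : Fin n → Ex → Prop} (D : PD) (tw : ℕ → BT) (unp : ℕ → ℕ)
    {gl : List ℕ} {s : ℕ} (hsd : ∀ g h b, τ.sd h ≠ τ.sd g + 1 → τ.lam g h b = 0)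
    (hnd : D.L.gl.Nodup) (hl : D.L.gl.length ≤ 190) (g1 : FitG τ gl s)
    (g2 : FitG τ D.L.gl (s + 1))
    (hC : ∀ h : Fin n, h.1 ∈ gl → ∀ y < 268435456, D.L.w h + w4 y ≤ D.L.N →
      ((D.cm (D.L.w h + w4 y)).testBit (D.pos (h * 268435456 + y)) = true ↔ Cn h (ex y)))
    (hL : ∀ h : Fin n, h.1 ∈ gl → ∀ y < 268435456, D.L.w h + w4 y ≤ D.L.N → ∀ l : Fin n,
      l.1 ∈ D.L.gl → τ.lam h l (ex y) = C ((if D.L.w l = D.L.w h + w4 y then
        trit (D.gp l) (D.gm l) (D.pos (h * 268435456 + y)) else 0 : ℕ) : F3)) :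
    COK τ Cn (D.np tw unp) gl := by
  intro h hh y hy hle
  refine ⟨(D.isC_iff _).trans (by rw [Lv.wk_key _ _ hy]; exact hC h hh y hy hle), fun _ => ?_⟩
  refine (D.rep_cv hl _).of_eq (sum_fin_list hnd (fun l hl => ((g2 l).1 hl).1) _ _
    (fun l hl => ?_) fun l hl => ?_).symm
  · obtain ⟨_, h1⟩ := (g1 h).1 hh
    rw [hsd h l _ fun e => hl ((g2 l).2 ⟨l.2, by rw [← h1]; exact e⟩), map_zero]
    exact zero_mul _
  · rw [hL h hh y hy hle l hl, Lv.wk_key _ _ hy, D.co_eq, map_natCast, map_natCast]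
    rfl

end Vale.Agent.P236K.Cert
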