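import Vale.Agent.P236K.Alg.Col
import Vale.Agent.P236K.Alg.Inv

/-!
# P236K / Cert / Conv : convolution on `P = k[t]`, the operators dual to `t_i ^ n`
-/

set_option linter.unusedSectionVars false

noncomputable section

namespace Vale.Agent.P236K.Cert.Pl

open Vale.Agent.P236K.Alg MvPolynomial Finset

/-- the exponent `(a, b, c, d, 0, …)` -/
def ex4 (a b c d : ℕ) : Ex :=
  Finsupp.single 0 a + Finsupp.single 1 b + Finsupp.single 2 c + Finsupp.single 3 d

@[simp] theorem ex4_0 (a b c d : ℕ) : ex4 a b c d 0 = a := by simp [ex4]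
@[simp] theorem ex4_1 (a b c d : ℕ) : ex4 a b c d 1 = b := by simp [ex4]
@[simp] theorem ex4_2 (a b c d : ℕ) : ex4 a b c d 2 = c := by simp [ex4]
@[simp] theorem ex4_3 (a b c d : ℕ) : ex4 a b c d 3 = d := by simp [ex4]
@[simp] theorem ex4_4 (a b c d i : ℕ) : ex4 a b c d (i + 4) = 0 := by simp [ex4]

theorem ex_ext {e e' : Ex} (h0 : e 0 = e' 0) (h1 : e 1 = e' 1) (h2 : e 2 = e' 2) (h3 : e 3 = e' 3)
    (h : ∀ i, e (i + 4) = e' (i + 4)) : e = e' := by
  ext i
  rcases i with _ | _ | _ | _ | i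
  exacts [h0, h1, h2, h3, h i]

theorem wE_ex4 (a b c d : ℕ) :
    wE 3 (ex4 a b c d) = 2 * ((a + 4 * b + 13 * c + 40 * d : ℕ) : ℤ) := by
  simp only [ex4, map_add, wE, Finsupp.weight_single, wz]
  push_cast
  ring

theorem eq_ex4 {e : Ex} (h : wE 3 e < 242) : e = ex4 (e 0) (e 1) (e 2) (e 3) := by
  refine ex_ext (by simp) (by simp) (by simp) (by simp) fun i => ?_
  rw [ex4_4]
  by_contra h1
  obtain ⟨d, hd⟩ := le_iff_exists_add.1
    (Finsupp.single_le_iff.2 (Nat.one_le_iff_ne_zero.2 h1) : Finsupp.single (i + 4) 1 ≤ e)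
  have h2 := degree_le_wE (p := 3) d
  have h3 : 3 ^ 5 ≤ 3 ^ (i + 4 + 1) := Nat.pow_le_pow_right (by norm_num) (by omega)
  rw [hd, map_add, wE, Finsupp.weight_single, wz, one_smul, ← wE] at h
  omega

section conv

variable (p : ℕ) {k : Type} [CommRing k] [hp : Fact p.Prime] [PL p k]

/-- `y ↦ μ (y') l (y'')` -/
def conv0 (μ l : Ex → k) (b : Ex) : k := fn μ (op0 p l (monomial b 1))

variable {p}

theorem fn_conv0 (μ l : Ex → k) (y : Av k) : fn (conv0 p μ l) y = fn μ (op0 p l y) := by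
  have h : fn (conv0 p μ l) = (fn μ).comp (op0 p l) :=
    (basisMonomials ℕ k).ext fun b => fn_one _ b
  exact LinearMap.congr_fun h y

theorem mA_cc_C (q : Av k) : mA (cc k) (mA C q) = q := by
  have h : (mA (cc k)).comp (mA C) = RingHom.id (Av k) :=
    ringHom_ext (fun c => by simp) fun i => by simp
  exact RingHom.congr_fun h q

theorem red_op' (h0 : (p : k) = 0) (l : Ex → k) (y : Gam k) :
    mA (cc k) (op p (fun b => C (l b)) y) = op0 p l (mA (cc k) y) := by
  rw [red_op h0]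
  simp only [cc_C]

theorem op0_conv0 (h0 : (p : k) = 0) (μ l : Ex → k) (y : Av k) :
    op0 p (conv0 p μ l) y = op0 p μ (op0 p l y) := by
  have h : (fun b => cc k (conv p (fun b => C (μ b)) (fun b => C (l b)) b)) = conv0 p μ l := by
    funext b
    rw [conv, map_fn, red_op' h0, mA_monomial, map_one, conv0]
    simp only [cc_C]
  rw [← mA_cc_C y, ← h, ← red_op h0, op_conv, red_op' h0, red_op' h0]

theorem conv0_assoc (h0 : (p : k) = 0) (ν μ l : Ex → k) :
    conv0 p (conv0 p ν μ) l = conv0 p ν (conv0 p μ l) := by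
  funext b
  rw [conv0, conv0, fn_conv0, op0_conv0 h0]

theorem conv0_eps (h0 : (p : k) = 0) (l : Ex → k) : conv0 p (eps k) l = l := by
  funext b
  have h := red_op' h0 l (monomial b 1)
  rw [mA_monomial, map_one (cc k)] at h
  rw [conv0, fn_eps, ← h, cc_apply, coeff_mA, ← cc_apply, cc_op, fn_one, cc_C]

theorem op0_sum {ι : Type} (s : Finset ι) (l : ι → Ex → k) (y : Av k) :
    op0 p (fun b => ∑ i ∈ s, l i b) y = ∑ i ∈ s, op0 p (l i) y := by
  simp only [op0_apply, map_sum, fn_sum]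

theorem add_pow_range {R : Type} [CommRing R] (x y : R) {a N : ℕ} (h : a < N) :
    (x + y) ^ a = ∑ j ∈ range N, y ^ j * x ^ (a - j) * (a.choose j : R) := by
  rw [add_comm, add_pow]
  refine sum_subset (range_subset_range.2 h) fun j _ hj => ?_
  rw [Nat.choose_eq_zero_of_lt (by simpa using hj), Nat.cast_zero, mul_zero]

theorem pow_range (i : ℕ) (e : k) (x : Ex) {a N : ℕ} (h : a < N) :
    (X i + C (Polynomial.C e * Polynomial.X) * monomial x 1 : Av (Polynomial k)) ^ a =
      ∑ j ∈ range N, monomial (Finsupp.single i (a - j) + j • x)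
        (Polynomial.C (e ^ j * (a.choose j : k)) * Polynomial.X ^ j) := by
  rw [add_pow_range _ _ h]
  refine sum_congr rfl fun j _ => ?_
  rw [C_mul_monomial, mul_one, monomial_pow, X_pow_eq_monomial, monomial_mul, ← map_natCast C,
    mul_comm, C_mul_monomial, add_comm, map_mul Polynomial.C, map_pow, map_natCast, mul_pow]
  congr 1
  ring

variable (p) in
/-- the formula for the operators defined by `t_i ↦ t_i + e_i x t ^ (x_i)` -/
def Fml (e1 e2 e3 : k) (x21 x31 x32 x41 x42 x43 : ℕ) : Prop :=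
  ∀ n, ∃ μ : Ex → k, ∀ (φ : Ex → k) (a b c d S3 S4 : ℕ), c < S3 → d < S4 →
    conv0 p μ φ (ex4 a b c d) = ∑ j1 ∈ range (n + 1), e1 ^ j1 * (a.choose j1 : k) *
      ∑ j3 ∈ range S3, ∑ j4 ∈ range S4, if j3 + j4 ≤ n - j1 then
        e2 ^ (n - j1 - (j3 + j4)) * (b.choose (n - j1 - (j3 + j4)) : k) *
          (e3 ^ j3 * (c.choose j3 : k)) * (d.choose j4 : k) *
          φ (ex4 (a - j1 + x21 * (n - j1 - (j3 + j4)) + x31 * j3 + x41 * j4)
            (b - (n - j1 - (j3 + j4)) + x32 * j3 + x42 * j4) (c - j3 + x43 * j4) (d - j4))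
      else 0

theorem fml_of (ev : Av k →+* Polynomial k) (hev : ∀ c, ev (C c) = Polynomial.C c)
    {e1 e2 e3 : k} {x21 x31 x32 x41 x42 x43 : ℕ}
    (h1 : mA ev (del0 p k (X 0)) = X 0 + C (Polynomial.C e1 * Polynomial.X) * monomial 0 1)
    (h2 : mA ev (del0 p k (X 1)) =
      X 1 + C (Polynomial.C e2 * Polynomial.X) * monomial (ex4 x21 0 0 0) 1)
    (h3 : mA ev (del0 p k (X 2)) =
      X 2 + C (Polynomial.C e3 * Polynomial.X) * monomial (ex4 x31 x32 0 0) 1)
    (h4 : mA ev (del0 p k (X 3)) =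
      X 3 + C (Polynomial.C 1 * Polynomial.X) * monomial (ex4 x41 x42 x43 0) 1) :
    Fml p e1 e2 e3 x21 x31 x32 x41 x42 x43 := by
  intro n
  refine ⟨fun e => (ev (monomial e 1)).coeff n, fun φ a b c d S3 S4 hc hd => ?_⟩
  have e0 : ∀ y, fn (fun e => (ev (monomial e 1)).coeff n) y = (ev y).coeff n := fun y => by
    induction y using MvPolynomial.induction_on' with
    | monomial b r =>
      rw [fn_monomial, ← Polynomial.coeff_C_mul, ← hev, ← map_mul, C_mul_monomial, mul_one]
    | add x y hx hy => rw [map_add, hx, hy, map_add, Polynomial.coeff_add]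
  have e1' : (monomial (ex4 a b c d) 1 : Av k) = X 0 ^ a * (X 2 ^ c * (X 3 ^ d * X 1 ^ b)) := by
    simp only [X_pow_eq_monomial, monomial_mul, mul_one, ex4]
    congr 2
    abel
  rw [conv0, e0, op0_apply, map_fn, e1']
  simp only [map_mul (del0 p k), map_mul (mA ev), map_pow, h1, h2, h3, h4, hev]
  rw [pow_range _ _ _ (show a < a + n + 1 by omega), pow_range _ _ _ (show b < b + n + 1 by omega),
    pow_range _ _ _ hc, pow_range _ _ _ hd, sum_mul, map_sum, Polynomial.finsetSum_coeff]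
  have key : ∀ j1 j2 j3 j4 : ℕ, (fn (fun b => Polynomial.C (φ b))
      ((monomial (Finsupp.single 0 (a - j1) + j1 • (0 : Ex))
        (Polynomial.C (e1 ^ j1 * (a.choose j1 : k)) * Polynomial.X ^ j1) : Av (Polynomial k)) *
      (monomial (Finsupp.single 2 (c - j3) + j3 • ex4 x31 x32 0 0)
        (Polynomial.C (e3 ^ j3 * (c.choose j3 : k)) * Polynomial.X ^ j3) *
      (monomial (Finsupp.single 3 (d - j4) + j4 • ex4 x41 x42 x43 0)
        (Polynomial.C (1 ^ j4 * (d.choose j4 : k)) * Polynomial.X ^ j4) *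
      monomial (Finsupp.single 1 (b - j2) + j2 • ex4 x21 0 0 0)
        (Polynomial.C (e2 ^ j2 * (b.choose j2 : k)) * Polynomial.X ^ j2))))).coeff n =
      if n = j1 + j2 + j3 + j4 then e1 ^ j1 * (a.choose j1 : k) * (e2 ^ j2 * (b.choose j2 : k) *
        (e3 ^ j3 * (c.choose j3 : k)) * (d.choose j4 : k) *
        φ (ex4 (a - j1 + x21 * j2 + x31 * j3 + x41 * j4) (b - j2 + x32 * j3 + x42 * j4)
          (c - j3 + x43 * j4) (d - j4))) else 0 := by
    intro j1 j2 j3 j4
    rw [monomial_mul, monomial_mul, monomial_mul, fn_monomial, ← Polynomial.coeff_C_mul_X_pow]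
    have e2' : Finsupp.single 0 (a - j1) + j1 • (0 : Ex) + (Finsupp.single 2 (c - j3) +
        j3 • ex4 x31 x32 0 0 + (Finsupp.single 3 (d - j4) + j4 • ex4 x41 x42 x43 0 +
        (Finsupp.single 1 (b - j2) + j2 • ex4 x21 0 0 0))) =
        ex4 (a - j1 + x21 * j2 + x31 * j3 + x41 * j4) (b - j2 + x32 * j3 + x42 * j4)
          (c - j3 + x43 * j4) (d - j4) := by
      refine ex_ext ?_ ?_ ?_ ?_ fun i => ?_ <;> simp <;> ring
    rw [e2']
    congr 1
    simp only [map_mul, pow_add, one_pow, map_one]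
    ring
  have e3' : ∀ (x : Av (Polynomial k)) (f g h : ℕ → Av (Polynomial k)),
      x * ((∑ j ∈ range S3, f j) * ((∑ j ∈ range S4, g j) * ∑ j ∈ range (b + n + 1), h j)) =
      ∑ j3 ∈ range S3, ∑ j4 ∈ range S4, ∑ j2 ∈ range (b + n + 1), x * (f j3 * (g j4 * h j2)) := by
    intro x f g h
    rw [sum_mul, mul_sum]
    refine sum_congr rfl fun j3 _ => ?_
    rw [sum_mul, mul_sum, mul_sum]
    refine sum_congr rfl fun j4 _ => ?_
    rw [mul_sum, mul_sum, mul_sum]
  simp only [e3', map_sum, Polynomial.finsetSum_coeff, key]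
  rw [← sum_subset (range_subset_range.2 (show n + 1 ≤ a + n + 1 by omega))]
  · refine sum_congr rfl fun j1 hj1 => ?_
    rw [mul_sum]
    refine sum_congr rfl fun j3 _ => ?_
    rw [mul_sum]
    refine sum_congr rfl fun j4 _ => ?_
    rw [mem_range] at hj1
    split_ifs with h
    · rw [sum_eq_single (n - j1 - (j3 + j4)), if_pos (by omega)]
      · intro j2 _ hj
        rw [if_neg (by omega)]
      · intro hj
        exact absurd (mem_range.2 (by omega)) hj
    · rw [mul_zero]
      exact sum_eq_zero fun j2 _ => if_neg (by omega)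
  · intro j1 _ hj1
    rw [mem_range] at hj1
    exact sum_eq_zero fun _ _ => sum_eq_zero fun _ _ => sum_eq_zero fun _ _ => if_neg (by omega)

variable (k) in
/-- `t_(i+1) ↦ x`, the other variables go to zero -/
def evx (i : ℕ) : Av k →+* Polynomial k :=
  eval₂Hom Polynomial.C fun j => if j = i then Polynomial.X else 0

theorem evx_C (i : ℕ) (c : k) : evx k i (C c) = Polynomial.C c := by simp [evx]

theorem evx_del0 (i m : ℕ) : mA (evx k i) (del0 p k (X m)) =
    C (if m = i then Polynomial.X else 0) + X m + ∑ l ∈ range m,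
      C (if l = i then Polynomial.X else 0) * X (m - 1 - l) ^ p ^ (l + 1) := by
  rw [del0_X, delT_of_zero p fun i => ph0_X i]
  simp [evx]

end conv

variable {k : Type} [CommRing k] [PL 3 k]

theorem fml0 : Fml 3 (1 : k) 1 1 3 0 3 0 0 3 :=
  fml_of (evx k 0) (evx_C 0) (by simp [evx_del0, add_comm])
    (by simp [evx_del0, ex4, X_pow_eq_monomial])
    (by simp [evx_del0, sum_range_succ, ex4, X_pow_eq_monomial])
    (by simp [evx_del0, sum_range_succ, ex4, X_pow_eq_monomial])

theorem fml1 : Fml 3 (0 : k) 1 1 0 9 0 0 9 0 :=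
  fml_of (evx k 1) (evx_C 1) (by simp [evx_del0])
    (by simp [evx_del0, ex4, add_comm])
    (by simp [evx_del0, sum_range_succ, ex4, X_pow_eq_monomial])
    (by simp [evx_del0, sum_range_succ, ex4, X_pow_eq_monomial])

theorem fml2 : Fml 3 (0 : k) 0 1 0 0 0 27 0 0 :=
  fml_of (evx k 2) (evx_C 2) (by simp [evx_del0])
    (by simp [evx_del0])
    (by simp [evx_del0, sum_range_succ, ex4, add_comm])
    (by simp [evx_del0, sum_range_succ, ex4, X_pow_eq_monomial])

theorem fml3 : Fml 3 (0 : k) 0 0 0 0 0 0 0 0 :=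
  fml_of (evx k 3) (evx_C 3) (by simp [evx_del0])
    (by simp [evx_del0])
    (by simp [evx_del0, sum_range_succ])
    (by simp [evx_del0, sum_range_succ, ex4, add_comm])

end Vale.Agent.P236K.Cert.Pl
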