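import Vale.Agent.P236K.Cert.Dat
import Vale.Agent.P236K.P96.B
import Vale.Agent.P236K.P96.A0
import Vale.Agent.P236K.P96.A1
import Vale.Agent.P236K.P96.A2
import Vale.Agent.P236K.P96.A3
import Vale.Agent.P236K.P96.A4
import Vale.Agent.P236K.P96.A5
import Vale.Agent.P236K.P96.A6
import Vale.Agent.P236K.P96.A7
import Vale.Agent.P236K.P96.A8
import Vale.Agent.P236K.P96.A9
import Vale.Agent.P236K.P96.A10
import Vale.Agent.P236K.P96.A11
import Vale.Agent.P236K.P96.A12
import Vale.Agent.P236K.P96.A13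
import Vale.Agent.P236K.P96.A14
import Vale.Agent.P236K.P96.A15
import Vale.Agent.P236K.P96.A16
import Vale.Agent.P236K.P96.A17
import Vale.Agent.P236K.P96.A18
import Vale.Agent.P236K.P96.A19
import Vale.Agent.P236K.P96.A20
import Vale.Agent.P236K.P96.A21
import Vale.Agent.P236K.P96.A22
import Vale.Agent.P236K.P96.A23
import Vale.Agent.P236K.P96.A24
import Vale.Agent.P236K.P96.A25
import Vale.Agent.P236K.P96.A26

/-!
# P236K / Cert / D96 : the tables up to weight 96 and degree 26
-/

noncomputable section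

namespace Vale.Agent.P236K.Cert.Pl

namespace P96

/-- weights and block sizes -/
def LL : ℕ → L2 := pick L2.nil [W0, W1, W2, W3, W4, W5, W6, W7, W8, W9, W10, W11, W12, W13, W14, W15, W16, W17, W18, W19, W20, W21, W22, W23, W24, W25, W26]

/-- the rows of the generators -/
def GG : ℕ → L3 := pick L3.nil [G0, G1, G2, G3, G4, G5, G6, G7, G8, G9, G10, G11, G12, G13, G14, G15, G16, G17, G18, G19, G20, G21, G22, G23, G24, G25]

/-- rank, corank, leading positions -/
def RK : ℕ → L3 := pick L3.nil [K0, K1, K2, K3, K4, K5, K6, K7, K8, K9, K10, K11, K12, K13, K14, K15, K16, K17, K18, K19, K20, K21, K22, K23, K24, K25]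

/-- functionals which kill the image -/
def YY : ℕ → L3 := pick L3.nil [Y0, Y1, Y2, Y3, Y4, Y5, Y6, Y7, Y8, Y9, Y10, Y11, Y12, Y13, Y14, Y15, Y16, Y17, Y18, Y19, Y20, Y21, Y22, Y23, Y24, Y25, Y26]

end P96

/-- the tables -/
def D96 : Dat := ⟨P96.B, 25, P96.LL, P96.GG, P96.RK, by decide⟩

end Vale.Agent.P236K.Cert.Pl
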