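import Mathlib.Data.ZMod.Basic
import Mathlib.Algebra.BigOperators.Ring.Finset
import Mathlib.Algebra.BigOperators.Intervals
import Mathlib.Tactic.Ring

/-!
# P236K / Cert / F3 : vectors over `F_3` as pairs of natural numbers, for kernel evaluation

The pair `(p, m)` is the vector whose entry at the position `q` is `1` if the bit `q` of `p` is set
and `2` if the bit `q` of `m` is set.
-/

noncomputable section

namespace Vale.Agent.P236K.Cert.Pl

/-- the field with three elements -/
abbrev K : Type := ZMod 3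

/-- the value of a pair of bits -/
def vb (x y : Bool) : K := cond x 1 (cond y 2 0)

/-- the entry at the position `q` -/
def val (p m q : ℕ) : K := vb (p.testBit q) (m.testBit q)

/-- no position has both bits -/
def Can (p m : ℕ) : Prop := ∀ q, (p.testBit q && m.testBit q) = false

/-- if then else -/
def bf {α : Type} (c : Bool) (x y : α) : α := Bool.rec y x c

@[simp] theorem bf_true {α : Type} (x y : α) : bf true x y = x := rfl
@[simp] theorem bf_false {α : Type} (x y : α) : bf false x y = y := rfl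

theorem bf_and {c x : Bool} (h : bf c x false = true) : c = true ∧ x = true := by
  cases c
  · exact absurd h Bool.false_ne_true
  · exact ⟨rfl, h⟩

theorem can_of_land {p m : ℕ} (h : Nat.beq (Nat.land p m) 0 = true) : Can p m := fun q => by
  rw [← Nat.testBit_and, ← Nat.land_eq, Nat.eq_of_beq_eq_true h, Nat.zero_testBit]

theorem can_zero (p : ℕ) : Can p 0 := fun q => by rw [Nat.zero_testBit, Bool.and_false]

theorem Can.symm {p m : ℕ} (h : Can p m) : Can m p := fun q => by rw [Bool.and_comm, h q]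

theorem val_zero (q : ℕ) : val 0 0 q = 0 := by
  rw [val, Nat.zero_testBit]
  rfl

theorem val_right_zero (p q : ℕ) : val p 0 q = if p.testBit q then 1 else 0 := by
  rw [val, Nat.zero_testBit]
  cases p.testBit q <;> rfl

theorem val_swap {p m : ℕ} (h : Can p m) (q : ℕ) : val m p q = -val p m q := by
  have h1 := h q
  rw [val, val]
  revert h1
  generalize p.testBit q = x
  generalize m.testBit q = y
  revert x y
  decide

theorem val_eq_zero {p m q : ℕ} : val p m q = 0 ↔ (Nat.lor p m).testBit q = false := by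
  rw [val, Nat.lor_eq, Nat.testBit_or]
  generalize p.testBit q = x
  generalize m.testBit q = y
  revert x y
  decide

theorem val_of_lor {p m : ℕ} (h : Nat.beq (Nat.lor p m) 0 = true) (q : ℕ) : val p m q = 0 := by
  rw [val_eq_zero, Nat.eq_of_beq_eq_true h, Nat.zero_testBit]

/-- first component of the sum -/
def ap (a0 a1 b0 b1 : ℕ) : ℕ :=
  Nat.xor (Nat.lor a1 b1) (Nat.xor (Nat.lor a0 b1) (Nat.lor a1 b0))

/-- second component of the sum -/
def am (a0 a1 b0 b1 : ℕ) : ℕ :=
  Nat.xor (Nat.lor a0 b0) (Nat.xor (Nat.lor a0 b1) (Nat.lor a1 b0))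

/-- the sum, passed to a continuation -/
def ad {α : Type} (a0 a1 b0 b1 : ℕ) (k : ℕ → ℕ → α) : α :=
  k (Nat.xor (Nat.lor a1 b1) (Nat.xor (Nat.lor a0 b1) (Nat.lor a1 b0)))
    (Nat.xor (Nat.lor a0 b0) (Nat.xor (Nat.lor a0 b1) (Nat.lor a1 b0)))

theorem ad_eq {α : Type} (a0 a1 b0 b1 : ℕ) (k : ℕ → ℕ → α) :
    ad a0 a1 b0 b1 k = k (ap a0 a1 b0 b1) (am a0 a1 b0 b1) := rfl

theorem add_bool : ∀ a0 a1 b0 b1 : Bool, (a0 && a1) = false → (b0 && b1) = false →
    (((a1 || b1) ^^ ((a0 || b1) ^^ (a1 || b0))) && ((a0 || b0) ^^ ((a0 || b1) ^^ (a1 || b0)))) =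
      false ∧ vb ((a1 || b1) ^^ ((a0 || b1) ^^ (a1 || b0)))
        ((a0 || b0) ^^ ((a0 || b1) ^^ (a1 || b0))) = vb a0 a1 + vb b0 b1 := by decide

theorem Can.add {a0 a1 b0 b1 : ℕ} (ha : Can a0 a1) (hb : Can b0 b1) :
    Can (ap a0 a1 b0 b1) (am a0 a1 b0 b1) := fun q => by
  simp only [ap, am, Nat.xor_eq, Nat.lor_eq, Nat.testBit_xor, Nat.testBit_or]
  exact (add_bool _ _ _ _ (ha q) (hb q)).1

theorem val_add {a0 a1 b0 b1 : ℕ} (ha : Can a0 a1) (hb : Can b0 b1) (q : ℕ) :
    val (ap a0 a1 b0 b1) (am a0 a1 b0 b1) q = val a0 a1 q + val b0 b1 q := by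
  simp only [val, ap, am, Nat.xor_eq, Nat.lor_eq, Nat.testBit_xor, Nat.testBit_or]
  exact (add_bool _ _ _ _ (ha q) (hb q)).2

/-- first component of the pointwise product; the second one is `mp a0 a1 b1 b0` -/
def mp (a0 a1 b0 b1 : ℕ) : ℕ := Nat.lor (Nat.land a0 b0) (Nat.land a1 b1)

theorem mul_bool : ∀ a0 a1 b0 b1 : Bool, (a0 && a1) = false → (b0 && b1) = false →
    ((a0 && b0 || a1 && b1) && (a0 && b1 || a1 && b0)) = false ∧
      vb (a0 && b0 || a1 && b1) (a0 && b1 || a1 && b0) = vb a0 a1 * vb b0 b1 := by decide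

theorem Can.mul {a0 a1 b0 b1 : ℕ} (ha : Can a0 a1) (hb : Can b0 b1) :
    Can (mp a0 a1 b0 b1) (mp a0 a1 b1 b0) := fun q => by
  simp only [mp, Nat.land_eq, Nat.lor_eq, Nat.testBit_and, Nat.testBit_or]
  exact (mul_bool _ _ _ _ (ha q) (hb q)).1

theorem val_mul {a0 a1 b0 b1 : ℕ} (ha : Can a0 a1) (hb : Can b0 b1) (q : ℕ) :
    val (mp a0 a1 b0 b1) (mp a0 a1 b1 b0) q = val a0 a1 q * val b0 b1 q := by
  simp only [val, mp, Nat.land_eq, Nat.lor_eq, Nat.testBit_and, Nat.testBit_or]
  exact (mul_bool _ _ _ _ (ha q) (hb q)).2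

/-- shift of a function on positions -/
def shf (f : ℕ → K) (δ q : ℕ) : K := if δ ≤ q then f (q - δ) else 0

theorem shf_add (f : ℕ → K) (δ q : ℕ) : shf f δ (q + δ) = f q := by
  rw [shf, if_pos (Nat.le_add_left _ _), Nat.add_sub_cancel]

theorem Can.shl {p m : ℕ} (h : Can p m) (δ : ℕ) :
    Can (Nat.shiftLeft p δ) (Nat.shiftLeft m δ) := fun q => by
  simp only [Nat.shiftLeft_eq', Nat.testBit_shiftLeft]
  have h1 := h (q - δ)
  revert h1
  generalize p.testBit (q - δ) = x
  generalize m.testBit (q - δ) = y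
  generalize decide (q ≥ δ) = z
  revert x y z
  decide

theorem val_shl (p m δ q : ℕ) :
    val (Nat.shiftLeft p δ) (Nat.shiftLeft m δ) q = shf (val p m) δ q := by
  simp only [val, shf, Nat.shiftLeft_eq', Nat.testBit_shiftLeft]
  split_ifs with h
  · simp [h]
  · simp [h, vb]

theorem Can.shr {p m : ℕ} (h : Can p m) (δ : ℕ) :
    Can (Nat.shiftRight p δ) (Nat.shiftRight m δ) := fun q => by
  change ((p >>> δ).testBit q && (m >>> δ).testBit q) = false
  rw [Nat.testBit_shiftRight, Nat.testBit_shiftRight, h]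

theorem val_shr (p m δ q : ℕ) :
    val (Nat.shiftRight p δ) (Nat.shiftRight m δ) q = val p m (δ + q) := by
  change vb ((p >>> δ).testBit q) ((m >>> δ).testBit q) = _
  rw [Nat.testBit_shiftRight, Nat.testBit_shiftRight, val]

/-- on the positions of `k` the only entry is at the position `q` -/
theorem low_spec {p m q k M : ℕ} (h : Nat.beq (Nat.land (Nat.lor p m) k)
    (Nat.land (Nat.lor M (2 ^ q)) (2 ^ q)) = true) :
    val p m q ≠ 0 ∧ ∀ j, k.testBit j = true → j ≠ q → val p m j = 0 := by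
  have h1 := Nat.eq_of_beq_eq_true h
  change (Nat.lor p m) &&& k = (M ||| 2 ^ q) &&& 2 ^ q at h1
  have h2 : ∀ j, ((Nat.lor p m).testBit j && k.testBit j) = decide (q = j) := fun j => by
    have h3 := congrArg (fun x => Nat.testBit x j) h1
    simp only [Nat.testBit_and, Nat.testBit_or, Nat.testBit_two_pow] at h3
    rw [h3]
    cases decide (q = j) <;> simp
  refine ⟨fun h3 => ?_, fun j hj hq => ?_⟩
  · have h4 := h2 q
    rw [val_eq_zero.1 h3] at h4
    simp at h4
  · have h4 := h2 j
    rw [hj, Bool.and_true, decide_eq_false hq.symm] at h4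
    exact val_eq_zero.2 h4

/-! ### lists -/

/-- lists of pairs -/
inductive L2 : Type
  | nil : L2
  | cons (a b : ℕ) (t : L2) : L2

/-- lists of triples -/
inductive L3 : Type
  | nil : L3
  | cons (a b c : ℕ) (t : L3) : L3

namespace L2

/-- length -/
def len (l : L2) : ℕ := L2.rec 0 (fun _ _ _ r => Nat.succ r) l

/-- first component of an entry -/
def g1 (l : L2) : ℕ → ℕ :=
  L2.rec (fun _ => 0) (fun a _ _ r i => Nat.rec a (fun j _ => r j) i) l

/-- second component of an entry -/
def g2 (l : L2) : ℕ → ℕ :=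
  L2.rec (fun _ => 0) (fun _ b _ r i => Nat.rec b (fun j _ => r j) i) l

/-- sum of the second components of the earlier entries -/
def off (l : L2) : ℕ → ℕ :=
  L2.rec (fun _ => 0) (fun _ b _ r i => Nat.rec 0 (fun j _ => Nat.add b (r j)) i) l

/-- all entries satisfy `f` -/
def all (f : ℕ → ℕ → Bool) (l : L2) : Bool :=
  L2.rec true (fun a b _ r => bf (f a b) r false) l

/-- the list of the values at `j, j + 1, …, j + n - 1` -/
def mk (f g : ℕ → ℕ) (n : ℕ) : ℕ → L2 :=
  Nat.rec (fun _ => nil) (fun _ r j => cons (f j) (g j) (r (Nat.succ j))) n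

@[simp] theorem len_nil : nil.len = 0 := rfl
@[simp] theorem len_cons (a b : ℕ) (t : L2) : (cons a b t).len = t.len + 1 := rfl
@[simp] theorem g1_nil (i : ℕ) : nil.g1 i = 0 := rfl
@[simp] theorem g1_zero (a b : ℕ) (t : L2) : (cons a b t).g1 0 = a := rfl
@[simp] theorem g1_succ (a b : ℕ) (t : L2) (i : ℕ) : (cons a b t).g1 (i + 1) = t.g1 i := rfl
@[simp] theorem g2_nil (i : ℕ) : nil.g2 i = 0 := rfl
@[simp] theorem g2_zero (a b : ℕ) (t : L2) : (cons a b t).g2 0 = b := rfl
@[simp] theorem g2_succ (a b : ℕ) (t : L2) (i : ℕ) : (cons a b t).g2 (i + 1) = t.g2 i := rfl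
@[simp] theorem off_zero (l : L2) : l.off 0 = 0 := by cases l <;> rfl
@[simp] theorem off_succ (a b : ℕ) (t : L2) (i : ℕ) : (cons a b t).off (i + 1) = b + t.off i := rfl

theorem all_spec {f : ℕ → ℕ → Bool} {l : L2} (h : l.all f = true) {i : ℕ} (hi : i < l.len) :
    f (l.g1 i) (l.g2 i) = true := by
  induction l generalizing i with
  | nil => exact absurd hi (Nat.not_lt_zero _)
  | cons a b t ih =>
    have h1 := bf_and (c := f a b) (x := t.all f) h
    rcases i with _ | i
    · exact h1.1
    · exact ih h1.2 (Nat.lt_of_succ_lt_succ hi)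

theorem g1_mk (f g : ℕ → ℕ) (n j i : ℕ) : (mk f g n j).g1 i = if i < n then f (j + i) else 0 := by
  induction n generalizing j i with
  | zero => rfl
  | succ n ih =>
    rcases i with _ | i
    · rw [if_pos (Nat.succ_pos n)]
      rfl
    · change (mk f g n (j + 1)).g1 i = _
      rw [ih, add_right_comm, add_assoc]
      simp only [Nat.add_lt_add_iff_right]

theorem g2_mk (f g : ℕ → ℕ) (n j i : ℕ) : (mk f g n j).g2 i = if i < n then g (j + i) else 0 := by
  induction n generalizing j i with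
  | zero => rfl
  | succ n ih =>
    rcases i with _ | i
    · rw [if_pos (Nat.succ_pos n)]
      rfl
    · change (mk f g n (j + 1)).g2 i = _
      rw [ih, add_right_comm, add_assoc]
      simp only [Nat.add_lt_add_iff_right]

theorem off_inj {l : L2} {i i' r r' : ℕ} (hi : i < l.len) (hi' : i' < l.len) (hr : r < l.g2 i)
    (hr' : r' < l.g2 i') (h : l.off i + r = l.off i' + r') : i = i' ∧ r = r' := by
  induction l generalizing i i' with
  | nil => exact absurd hi (Nat.not_lt_zero _)
  | cons a b t ih =>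
    rcases i with _ | i <;> rcases i' with _ | i' <;>
      simp only [off_zero, off_succ, g2_zero, g2_succ, len_cons] at hi hi' hr hr' h
    · omega
    · omega
    · omega
    · have h1 := ih (by omega) (by omega) hr hr' (by omega)
      omega

/-- concatenation of the blocks `f a` of size `b` -/
def cat (f : ℕ → ℕ) (l : L2) : ℕ :=
  L2.rec 0 (fun a b _ r => Nat.lor (Nat.mod (f a) (Nat.pow 2 b)) (Nat.shiftLeft r b)) l

theorem testBit_cat_cons (f : ℕ → ℕ) (a b : ℕ) (t : L2) (q : ℕ) :
    ((cons a b t).cat f).testBit q =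
      if q < b then (f a).testBit q else (t.cat f).testBit (q - b) := by
  change (f a % 2 ^ b ||| t.cat f <<< b).testBit q = _
  rw [Nat.testBit_or, Nat.testBit_mod_two_pow, Nat.testBit_shiftLeft]
  split_ifs with h
  · simp [h]
  · simp [h, Nat.le_of_not_lt h]

theorem testBit_cat (f : ℕ → ℕ) {l : L2} {i r : ℕ} (hi : i < l.len) (hr : r < l.g2 i) :
    (l.cat f).testBit (l.off i + r) = (f (l.g1 i)).testBit r := by
  induction l generalizing i with
  | nil => exact absurd hi (Nat.not_lt_zero _)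
  | cons a b t ih =>
    rw [testBit_cat_cons]
    rcases i with _ | i
    · rw [off_zero, zero_add, if_pos (show r < b from hr), g1_zero]
    · rw [off_succ, if_neg (by omega), add_assoc, Nat.add_sub_cancel_left,
        ih (Nat.lt_of_succ_lt_succ hi) hr, g1_succ]

theorem can_cat {f g : ℕ → ℕ} (h : ∀ a, Can (f a) (g a)) (l : L2) : Can (l.cat f) (l.cat g) := by
  induction l with
  | nil => exact can_zero _
  | cons a b t ih =>
    intro q
    rw [testBit_cat_cons, testBit_cat_cons]
    split_ifs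
    · exact h a q
    · exact ih _

theorem val_cat (f g : ℕ → ℕ) {l : L2} {i r : ℕ} (hi : i < l.len) (hr : r < l.g2 i) :
    val (l.cat f) (l.cat g) (l.off i + r) = val (f (l.g1 i)) (g (l.g1 i)) r := by
  rw [val, testBit_cat f hi hr, testBit_cat g hi hr, val]

/-- all entries are canonical -/
def CanL (l : L2) : Prop := ∀ j, Can (l.g1 j) (l.g2 j)

theorem canL_nil : nil.CanL := fun _ => can_zero _

theorem CanL.head {a b : ℕ} {t : L2} (h : (cons a b t).CanL) : Can a b := h 0

theorem CanL.tail {a b : ℕ} {t : L2} (h : (cons a b t).CanL) : t.CanL := fun j => h (j + 1)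

theorem CanL.cons {a b : ℕ} {t : L2} (h : Can a b) (ht : t.CanL) : (cons a b t).CanL
  | 0 => h
  | j + 1 => ht j

theorem canL_mk {f g : ℕ → ℕ} (h : ∀ j, Can (f j) (g j)) (n j : ℕ) : (mk f g n j).CanL := by
  intro i
  rw [g1_mk, g2_mk]
  split_ifs
  · exact h _
  · exact can_zero _

/-- the entry `j` at the position `q` -/
def vl (l : L2) (j q : ℕ) : K := val (l.g1 j) (l.g2 j) q

theorem vl_nil (j q : ℕ) : nil.vl j q = 0 := val_zero q

/-- one step of the triangle of Pascal -/
def pas (l : L2) : ℕ → ℕ → L2 :=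
  L2.rec (fun p m => cons p m nil)
    (fun a b _ r p m => cons (ap a b p m) (am a b p m) (r a b)) l

theorem CanL.pas {l : L2} (h : l.CanL) {p m : ℕ} (hp : Can p m) : (l.pas p m).CanL := by
  induction l generalizing p m with
  | nil => exact CanL.cons hp canL_nil
  | cons a b t ih => exact CanL.cons (h.head.add hp) (ih h.tail h.head)

theorem vl_pas_zero {l : L2} (h : l.CanL) {p m : ℕ} (hp : Can p m) (q : ℕ) :
    (l.pas p m).vl 0 q = l.vl 0 q + val p m q := by
  cases l with
  | nil => rw [vl_nil, zero_add]; rfl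
  | cons a b t => exact val_add h.head hp q

theorem vl_pas_succ {l : L2} (h : l.CanL) (p m j q : ℕ) :
    (l.pas p m).vl (j + 1) q = l.vl (j + 1) q + l.vl j q := by
  induction l generalizing p m j with
  | nil => rw [vl_nil, vl_nil, add_zero]; exact val_zero q
  | cons a b t ih =>
    rcases j with _ | j
    · exact vl_pas_zero h.tail h.head q
    · exact ih h.tail a b j

end L2

namespace L3

/-- length -/
def len (l : L3) : ℕ := L3.rec 0 (fun _ _ _ _ r => Nat.succ r) l

/-- first component of an entry -/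
def g1 (l : L3) : ℕ → ℕ :=
  L3.rec (fun _ => 0) (fun a _ _ _ r i => Nat.rec a (fun j _ => r j) i) l

/-- second component of an entry -/
def g2 (l : L3) : ℕ → ℕ :=
  L3.rec (fun _ => 0) (fun _ b _ _ r i => Nat.rec b (fun j _ => r j) i) l

/-- third component of an entry -/
def g3 (l : L3) : ℕ → ℕ :=
  L3.rec (fun _ => 0) (fun _ _ c _ r i => Nat.rec c (fun j _ => r j) i) l

/-- all masks are canonical -/
def CanT (ts : L3) : Prop := L3.rec True (fun _ a b _ r => Can a b ∧ r) ts

/-- the sum of the masked shifts of `f` -/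
def ev (ts : L3) (f : ℕ → K) (q : ℕ) : K :=
  L3.rec 0 (fun δ a b _ r => val a b q * shf f δ q + r) ts

theorem ev_nil (f : ℕ → K) (q : ℕ) : nil.ev f q = 0 := rfl

theorem ev_cons (δ a b : ℕ) (t : L3) (f : ℕ → K) (q : ℕ) :
    (cons δ a b t).ev f q = val a b q * shf f δ q + t.ev f q := rfl

/-- add the masked shifts of `(p, m)` -/
def apT {α : Type} (p m : ℕ) (ts : L3) : ℕ → ℕ → (ℕ → ℕ → α) → α :=
  L3.rec (fun x y k => k x y) (fun δ a b _ r x y k =>
    ad x y
      (Nat.lor (Nat.land (Nat.shiftLeft p δ) a) (Nat.land (Nat.shiftLeft m δ) b))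
      (Nat.lor (Nat.land (Nat.shiftLeft p δ) b) (Nat.land (Nat.shiftLeft m δ) a))
      fun x' y' => r x' y' k) ts

theorem apT_spec {α : Type} {p m : ℕ} (h : Can p m) {ts : L3} (ht : ts.CanT) {x y : ℕ}
    (hx : Can x y) (k : ℕ → ℕ → α) : ∃ x' y', apT p m ts x y k = k x' y' ∧ Can x' y' ∧
      ∀ q, val x' y' q = val x y q + ts.ev (val p m) q := by
  induction ts generalizing x y with
  | nil => exact ⟨x, y, rfl, hx, fun q => (add_zero _).symm⟩
  | cons δ a b t ih =>
    have h1 := (h.shl δ).mul ht.1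
    obtain ⟨x', y', h2, h3, h4⟩ := ih ht.2 (hx.add h1)
    refine ⟨x', y', h2, h3, fun q => ?_⟩
    rw [h4, val_add hx h1, val_mul (h.shl δ) ht.1, val_shl, ev_cons]
    ring

/-- the sum of the masked shifts of `(p, m)` -/
def ap1 {α : Type} (p m : ℕ) (ts : L3) (k : ℕ → ℕ → α) : α :=
  L3.rec (k 0 0) (fun δ a b t _ => apT p m t
    (Nat.lor (Nat.land (Nat.shiftLeft p δ) a) (Nat.land (Nat.shiftLeft m δ) b))
    (Nat.lor (Nat.land (Nat.shiftLeft p δ) b) (Nat.land (Nat.shiftLeft m δ) a)) k) ts

theorem ap1_spec {α : Type} {p m : ℕ} (h : Can p m) {ts : L3} (ht : ts.CanT) (k : ℕ → ℕ → α) :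
    ∃ x y, ap1 p m ts k = k x y ∧ Can x y ∧ ∀ q, val x y q = ts.ev (val p m) q := by
  cases ts with
  | nil => exact ⟨0, 0, rfl, can_zero _, val_zero⟩
  | cons δ a b t =>
    obtain ⟨x', y', h2, h3, h4⟩ := apT_spec h ht.2 ((h.shl δ).mul ht.1) k
    refine ⟨x', y', h2, h3, fun q => ?_⟩
    rw [h4, val_mul (h.shl δ) ht.1, val_shl, ev_cons, mul_comm]

/-- the sum of the masked shifts as a list with one entry -/
def apL (p m : ℕ) (ts : L3) : L2 := ap1 p m ts fun x y => L2.cons x y L2.nil

theorem apL_spec {p m : ℕ} (h : Can p m) {ts : L3} (ht : ts.CanT) :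
    Can ((apL p m ts).g1 0) ((apL p m ts).g2 0) ∧
      ∀ q, val ((apL p m ts).g1 0) ((apL p m ts).g2 0) q = ts.ev (val p m) q := by
  obtain ⟨x, y, h1, h2, h3⟩ := ap1_spec h ht fun x y => L2.cons x y L2.nil
  rw [apL, h1]
  exact ⟨h2, h3⟩

/-- add a term unless its mask is zero -/
def cz (δ a b : ℕ) (t : L3) : L3 := Bool.rec (cons δ a b t) t (Nat.beq (Nat.lor a b) 0)

theorem CanT.cz {δ a b : ℕ} {t : L3} (h : Can a b) (ht : t.CanT) : (cz δ a b t).CanT := by
  unfold L3.cz
  cases Nat.beq (Nat.lor a b) 0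
  · exact ⟨h, ht⟩
  · exact ht

theorem ev_cz (δ a b : ℕ) (t : L3) (f : ℕ → K) (q : ℕ) :
    (cz δ a b t).ev f q = val a b q * shf f δ q + t.ev f q := by
  unfold cz
  rcases h : Nat.beq (Nat.lor a b) 0 with _ | _
  · rfl
  · rw [val_of_lor h, zero_mul, zero_add]

/-- multiply all masks by `(p, m)` and append -/
def mulA (p m : ℕ) (ts acc : L3) : L3 :=
  L3.rec acc (fun δ a b _ r => cz δ (mp p m a b) (mp p m b a) r) ts

theorem CanT.mulA {p m : ℕ} (h : Can p m) {ts acc : L3} (ht : ts.CanT) (ha : acc.CanT) :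
    (mulA p m ts acc).CanT := by
  induction ts with
  | nil => exact ha
  | cons δ a b t ih => exact CanT.cz (h.mul ht.1) (ih ht.2)

theorem ev_mulA {p m : ℕ} (h : Can p m) {ts : L3} (ht : ts.CanT) (acc : L3) (f : ℕ → K) (q : ℕ) :
    (mulA p m ts acc).ev f q = val p m q * ts.ev f q + acc.ev f q := by
  induction ts with
  | nil => rw [ev_nil, mul_zero, zero_add]; rfl
  | cons δ a b t ih =>
    change (cz δ (mp p m a b) (mp p m b a) (mulA p m t acc)).ev f q = _
    rw [ev_cz, ih ht.2, val_mul h ht.1, ev_cons]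
    ring

/-- the group `j` is multiplied by the entry `j` of the second argument -/
def terms (g : List L3) : L2 → L3 :=
  List.rec (fun _ => nil) (fun ts _ r A => L2.rec nil (fun p m A' _ => mulA p m ts (r A')) A) g

theorem canT_terms {g : List L3} (hg : ∀ ts ∈ g, ts.CanT) {A : L2} (hA : A.CanL) :
    (terms g A).CanT := by
  induction g generalizing A with
  | nil => trivial
  | cons ts g ih =>
    cases A with
    | nil => trivial
    | cons p m A =>
      exact CanT.mulA hA.head (hg ts List.mem_cons_self)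
        (ih (fun t ht => hg t (List.mem_cons_of_mem _ ht)) hA.tail)

theorem ev_terms {g : List L3} (hg : ∀ ts ∈ g, ts.CanT) {A : L2} (hA : A.CanL) (f : ℕ → K)
    (q : ℕ) : (terms g A).ev f q =
      ∑ j ∈ Finset.range g.length, A.vl j q * (g.getD j nil).ev f q := by
  induction g generalizing A with
  | nil => rfl
  | cons ts g ih =>
    cases A with
    | nil => simp only [L2.vl_nil, zero_mul, Finset.sum_const_zero]; rfl
    | cons p m A =>
      change (mulA p m ts (terms g A)).ev f q = _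
      rw [ev_mulA hA.head (hg ts List.mem_cons_self), List.length_cons, Finset.sum_range_succ',
        ih (fun t ht => hg t (List.mem_cons_of_mem _ ht)) hA.tail, add_comm]
      rfl

/-- iteration -/
def loop (n : ℕ) (F : ℕ → L3 → L3) (acc : L3) : L3 := Nat.rec acc F n

theorem canT_loop {F : ℕ → L3 → L3} (h : ∀ j t, t.CanT → (F j t).CanT) (n : ℕ) {acc : L3}
    (ha : acc.CanT) : (loop n F acc).CanT := by
  induction n with
  | zero => exact ha
  | succ n ih => exact h n _ ih

theorem ev_loop {F : ℕ → L3 → L3} {f : ℕ → K} {q : ℕ} {c : ℕ → K}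
    (h : ∀ j t, (F j t).ev f q = c j + t.ev f q) (n : ℕ) (acc : L3) :
    (loop n F acc).ev f q = ∑ j ∈ Finset.range n, c j + acc.ev f q := by
  induction n with
  | zero => rw [Finset.sum_range_zero, zero_add]; rfl
  | succ n ih =>
    change (F n (loop n F acc)).ev f q = _
    rw [h, ih, Finset.sum_range_succ]
    ring

end L3

/-! ### counting bits -/

/-- every twelfth bit -/
def evy (n : ℕ) : ℕ := Nat.rec 0 (fun _ r => Nat.add (Nat.mul 4096 r) 1) n

/-- the number of bits, for `E = evy n` -/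
def pc (E x : ℕ) : ℕ :=
  Nat.rec 0 (fun j r => Nat.add r (Nat.mod (Nat.land (Nat.shiftRight x j) E) 4095)) 12

theorem land_evy (n z : ℕ) : z &&& evy (n + 1) = 2 ^ 12 * (z >>> 12 &&& evy n) + z % 2 := by
  refine Nat.eq_of_testBit_eq fun j => ?_
  change (z &&& (2 ^ 12 * evy n + 1)).testBit j = _
  rw [Nat.testBit_and, Nat.testBit_two_pow_mul_add _ (by norm_num),
    Nat.testBit_two_pow_mul_add _ (by omega)]
  split_ifs with h
  · have h1 := Nat.testBit_mod_two_pow z 1 j
    have h2 := Nat.testBit_two_pow (n := 0) (m := j)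
    rw [pow_one] at h1
    rw [pow_zero] at h2
    rw [h1, h2, Bool.and_comm]
    congr 1
    exact decide_eq_decide.2 (by omega)
  · rw [Nat.testBit_and, Nat.testBit_shiftRight, Nat.add_sub_cancel' (Nat.le_of_not_lt h)]

theorem mod_evy (n z : ℕ) : (z &&& evy n) % 4095 =
    ((Finset.range n).filter fun i => z.testBit (12 * i) = true).card % 4095 := by
  induction n generalizing z with
  | zero => simp [evy]
  | succ n ih =>
    have h1 := ih (z >>> 12)
    rw [Finset.card_filter] at h1
    rw [land_evy, Finset.card_filter, Finset.sum_range_succ']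
    simp only [Nat.testBit_shiftRight, mul_add, mul_one, add_comm 12, mul_zero,
      Nat.testBit_zero, decide_eq_true_eq] at h1 ⊢
    split_ifs <;> omega

theorem pc_eq {n : ℕ} (hn : n < 4095) (x : ℕ) : pc (evy n) x =
    ((Finset.range 12 ×ˢ Finset.range n).filter fun a => x.testBit (a.1 + 12 * a.2) = true).card := by
  have h : ∀ m, (Nat.rec 0 (fun j r => Nat.add r
      (Nat.mod (Nat.land (Nat.shiftRight x j) (evy n)) 4095)) m : ℕ) = ∑ j ∈ Finset.range m,
        ((Finset.range n).filter fun i => x.testBit (j + 12 * i) = true).card := by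
    intro m
    induction m with
    | zero => rfl
    | succ m ih =>
      rw [Finset.sum_range_succ, ← ih]
      change _ + (x >>> m &&& evy n) % 4095 = _
      rw [mod_evy, Nat.mod_eq_of_lt ((Finset.card_filter_le _ _).trans_lt (by simpa using hn))]
      simp only [Nat.testBit_shiftRight]
  rw [pc, h, Finset.card_filter, Finset.sum_product]
  simp only [Finset.card_filter]

theorem pc_ge {n x r : ℕ} (hn : n < 4095) (h : Nat.ble r (pc (evy n) x) = true) :
    ∃ Z : Finset ℕ, r ≤ Z.card ∧ ∀ q ∈ Z, x.testBit q = true := by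
  rw [Nat.ble_eq, pc_eq hn] at h
  refine ⟨Finset.image (fun a : ℕ × ℕ => a.1 + 12 * a.2) _, h.trans_eq
    (Finset.card_image_of_injOn fun a ha b hb e => ?_).symm, fun q hq => ?_⟩
  · simp only [Finset.coe_filter, Finset.mem_product, Finset.mem_range, Set.mem_ofPred_eq] at ha hb e
    exact Prod.ext (by omega) (by omega)
  · obtain ⟨a, ha, rfl⟩ := Finset.mem_image.1 hq
    exact (Finset.mem_filter.1 ha).2

theorem pc_le {n x k : ℕ} (hn : n < 4095) (h : Nat.ble (pc (evy n) x) k = true)
    (hx : Nat.beq (Nat.shiftRight x (Nat.mul 12 n)) 0 = true) :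
    ∃ Z : Finset ℕ, Z.card ≤ k ∧ ∀ q, x.testBit q = true → q ∈ Z := by
  rw [Nat.ble_eq, pc_eq hn] at h
  refine ⟨Finset.image (fun a : ℕ × ℕ => a.1 + 12 * a.2) _, Finset.card_image_le.trans h,
    fun q hq => Finset.mem_image.2 ⟨(q % 12, q / 12), ?_, Nat.mod_add_div q 12⟩⟩
  have h1 : q < 12 * n := by
    by_contra h2
    have h3 := Nat.testBit_shiftRight (i := 12 * n) (j := q - 12 * n) x
    rw [show x >>> (12 * n) = 0 from Nat.eq_of_beq_eq_true hx, Nat.zero_testBit,
      Nat.add_sub_cancel' (Nat.le_of_not_lt h2), hq] at h3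
    exact Bool.false_ne_true h3
  rw [Finset.mem_filter, Finset.mem_product, Finset.mem_range, Finset.mem_range,
    Nat.mod_add_div]
  exact ⟨⟨by omega, by omega⟩, hq⟩

/-- `f i` holds for all `i < n` -/
def allLt (n : ℕ) (f : ℕ → Bool) : Bool := Nat.rec true (fun i r => bf (f i) r false) n

theorem allLt_spec {n : ℕ} {f : ℕ → Bool} (h : allLt n f = true) {i : ℕ} (hi : i < n) :
    f i = true := by
  induction n with
  | zero => exact absurd hi (Nat.not_lt_zero _)
  | succ n ih =>
    have h1 := bf_and (c := f n) (x := allLt n f) h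
    rcases Nat.lt_succ_iff_lt_or_eq.1 hi with h2 | rfl
    · exact ih h1.2 h2
    · exact h1.1

end Vale.Agent.P236K.Cert.Pl
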