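import Vale.Agent.P236K.Cert.Chain
import Vale.Agent.P236K.Cert.Cok
import Vale.Agent.P236K.Cert.D96
import Vale.Agent.P236K.Cert.LayD
import Vale.Agent.P236K.Cert.FRow

/-!
# P236K / Cert / F89 : the tables of weight at most 89, the tests which do not need the nodes
-/

noncomputable section

namespace Vale.Agent.P236K.Cert

open Pl

/-- the tables, for given values of the nodes -/
def FN (nv : ℕ → ℕ → ℕ) (fm ms : ℕ → ℕ) : FT :=
  ⟨lyS, nv, fm, ms, fun _ => unpR, rowT, 6, 3, 24, 89⟩

/-- the layout of degree `s` fits the tables -/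
def fitL (s : ℕ) : Bool :=
  decide ((lyS s).gl = D96.gl s) && Nat.ble (lyS s).N D96.B.T && Nat.ble (lyS s).gl.length 190

theorem wB89 : D96.wB wG = true := by decide +kernel

theorem fitL_all : (List.range 25).all fitL = true := by decide +kernel

theorem lyS_w : ∀ s < 25, (lyS s).w = wG := by
  intro s hs
  interval_cases s <;> rfl

variable (nv : ℕ → ℕ → ℕ) (fm ms : ℕ → ℕ)

theorem fit89 : D96.wB wG = true ∧ (FN nv fm ms).S ≤ D96.S ∧ ∀ s ≤ (FN nv fm ms).S,
    ((FN nv fm ms).L s).gl = D96.gl s ∧ ((FN nv fm ms).L s).w = wG ∧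
      ((FN nv fm ms).L s).N ≤ D96.B.T ∧ ((FN nv fm ms).L s).gl.length ≤ 190 := by
  refine ⟨wB89, (by decide : 24 ≤ 25), fun s hs => ?_⟩
  have hs' : s < 25 := Nat.lt_succ_of_le hs
  have h := all_of_range fitL_all s hs'
  simp only [fitL, Bool.and_eq_true, decide_eq_true_eq, Nat.ble_eq] at h
  exact ⟨h.1.1, lyS_w s hs', h.1.2, h.2⟩

theorem num89 : (FN nv fm ms).numB 193 D96.S = true := rfl

theorem lay0 : (List.range 25).all ((FN (fun _ _ => 0) id id).layB 193) = true := by
  decide +kernel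

theorem lay89 : ∀ s ≤ (FN nv fm ms).S, (FN nv fm ms).layB 193 s = true := fun s hs =>
  all_of_range lay0 s (Nat.lt_succ_of_le hs)

end Vale.Agent.P236K.Cert
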