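import Vale.Agent.P236K.Cert.Key
import Vale.Agent.P236K.Cert.Frob
import Vale.Agent.P236K.Cert.BarSpec
import Vale.Agent.P236K.Alg.OpB

/-!
# P236K / Cert / Lay : packed elements of `W`, layouts, triangular bases

`pk κ o u` packs an element of `W` into `R0 H`; the monomial `v^e g` goes to `z ^ ln c off g e`.
-/

set_option linter.unusedSectionVars false

noncomputable section

namespace Vale.Agent.P236K.Cert

open Vale.Agent.P236K.Alg MvPolynomial

variable {G : Type} [Fintype G] [DecidableEq G]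

section pk

variable {R : Type} [CommRing R] (κ : Av F3 →+* R) (o : G → R)

/-- the packed value of an element of `W`, as an additive map -/
def pkH : (G → Av F3) →+ R where
  toFun := pk κ o
  map_zero' := by simp [pk]
  map_add' x y := by simp [pk, add_mul, Finset.sum_add_distrib]

omit [DecidableEq G] in
theorem pkH_apply (u : G → Av F3) : pkH κ o u = pk κ o u := rfl

omit [DecidableEq G] in
theorem pk_apply (u : G → Av F3) : pk κ o u = ∑ l, κ (u l) * o l := rfl

omit [DecidableEq G] in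
theorem pk_zero : pk κ o 0 = 0 := map_zero (pkH κ o)

omit [DecidableEq G] in
theorem pk_sub (u v : G → Av F3) : pk κ o (u - v) = pk κ o u - pk κ o v := map_sub (pkH κ o) u v

omit [DecidableEq G] in
theorem pk_neg (u : G → Av F3) : pk κ o (-u) = -pk κ o u := map_neg (pkH κ o) u

omit [DecidableEq G] in
theorem pk_sum {ι : Type} (I : Finset ι) (u : ι → G → Av F3) :
    pk κ o (∑ i ∈ I, u i) = ∑ i ∈ I, pk κ o (u i) := map_sum (pkH κ o) u I

omit [DecidableEq G] in
theorem pk_smul (a : Av F3) (u : G → Av F3) : pk κ o (a • u) = κ a * pk κ o u := by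
  simp only [pk_apply, Pi.smul_apply, smul_eq_mul, map_mul, Finset.mul_sum, mul_assoc]

theorem pk_single (g : G) (a : Av F3) : pk κ o (Pi.single g a) = κ a * o g := by
  rw [pk_apply, Finset.sum_eq_single g (fun l _ h => by rw [Pi.single_eq_of_ne h]; simp) (by simp),
    Pi.single_eq_same]

end pk

/-- the lane of the monomial `v^e g` -/
def ln (c : ℕ → ℕ) (off : G → ℕ) (g : G) (e : Ex) : ℕ := Finsupp.weight c e + off g

/-- `v^e g` has degree `s` and weight `w` -/
def Mon (τ : Tw F3 G) (s : ℕ) (w : ℤ) (g : G) (e : Ex) : Prop :=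
  τ.sd g = s ∧ wE 3 e + τ.dg g = w

/-- `κ` and `o` send the variables and the generators to powers of `z` -/
structure Pw (H : ℕ) (κ : Av F3 →+* R0 H) (o : G → R0 H) (c : ℕ → ℕ) (off : G → ℕ) : Prop where
  var : ∀ i, κ (X i) = z0 H ^ c i
  gen : ∀ g, o g = z0 H ^ off g

/-- the layout is faithful in degree `s` and weight `w` : `v_1` shifts by `c 0` lanes and the
monomials without `v_1` of weight at most `w` have distinct lanes below `c 0` -/
structure Fai (τ : Tw F3 G) (c : ℕ → ℕ) (off : G → ℕ) (s : ℕ) (w : ℤ) : Prop where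
  lt : ∀ u ≤ w, ∀ g e, Mon τ s u g e → e 0 = 0 → ln c off g e < c 0
  inj : ∀ u ≤ w, ∀ g e g' e', Mon τ s u g e → Mon τ s u g' e' → e 0 = 0 → e' 0 = 0 →
    ln c off g e = ln c off g' e' → g = g' ∧ e = e'

/-- `n` is the lane of a monomial of degree `s` and weight `w` -/
def IsLn (τ : Tw F3 G) (c : ℕ → ℕ) (off : G → ℕ) (s : ℕ) (w : ℤ) (n : ℕ) : Prop :=
  ∃ g e, Mon τ s w g e ∧ ln c off g e = n

/-- `p` is the lane of a monomial without `v_1` -/
def IsLn0 (τ : Tw F3 G) (c : ℕ → ℕ) (off : G → ℕ) (s : ℕ) (w : ℤ) (p : ℕ) : Prop :=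
  ∃ g e, Mon τ s w g e ∧ e 0 = 0 ∧ ln c off g e = p

variable {H : ℕ} {κ : Av F3 →+* R0 H} {o : G → R0 H} {c : ℕ → ℕ} {off : G → ℕ} {τ : Tw F3 G}
  {s : ℕ} {w : ℤ}

omit [Fintype G] [DecidableEq G] in
theorem kap_C (κ : Av F3 →+* R0 H) (r : F3) : κ (C r) = algebraMap F3 (R0 H) r :=
  RingHom.congr_fun (RingHom.ext_zmod (κ.comp C) (algebraMap F3 (R0 H))) r

omit [Fintype G] [DecidableEq G] in
theorem Pw.monomial (P : Pw H κ o c off) (e : Ex) (r : F3) :
    κ (monomial e r) = r • z0 H ^ Finsupp.weight c e := by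
  rw [monomial_eq, map_mul, kap_C, ← Algebra.smul_def, map_finsuppProd, Finsupp.weight_apply,
    Finsupp.sum, ← Finset.prod_pow_eq_pow_sum, Finsupp.prod]
  congr 1
  exact Finset.prod_congr rfl fun i _ => by rw [map_pow, P.var, ← pow_mul, smul_eq_mul, mul_comm]

omit [DecidableEq G] in
theorem pk_csmul (κ : Av F3 →+* R0 H) (o : G → R0 H) (r : F3) (u : G → Av F3) :
    pk κ o (r • u) = r • pk κ o u := by
  have : r • u = (C r : Av F3) • u := funext fun g => by simp [smul_eq_C_mul]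
  rw [this, pk_smul, kap_C, Algebra.smul_def]

omit [DecidableEq G] in
theorem Pw.pk_eq (P : Pw H κ o c off) (u : G → Av F3) :
    pk κ o u = ∑ g, ∑ e ∈ (u g).support, coeff e (u g) • z0 H ^ ln c off g e := by
  refine Finset.sum_congr rfl fun g _ => ?_
  conv_lhs => rw [(u g).as_sum]
  rw [map_sum, Finset.sum_mul]
  exact Finset.sum_congr rfl fun e _ => by rw [P.monomial, P.gen, ln, pow_add, smul_mul_assoc]

theorem Pw.pk_mon (P : Pw H κ o c off) (g : G) (e : Ex) (r : F3) :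
    pk κ o (Pi.single g (MvPolynomial.monomial e r)) = r • z0 H ^ ln c off g e := by
  rw [pk_single, P.monomial, P.gen, ln, pow_add, smul_mul_assoc]

omit [DecidableEq G] in
theorem Pw.pk_v (P : Pw H κ o c off) (m : ℕ) (u : G → Av F3) :
    pk κ o ((X 0 ^ m : Av F3) • u) = z0 H ^ (c 0 * m) * pk κ o u := by
  rw [pk_smul, map_pow, P.var, pow_mul]

theorem co_mul_pow {p : ℕ} (hp : p < H) (j : ℕ) (r : R0 H) :
    co H p (z0 H ^ j * r) = if j ≤ p then co H (p - j) r else 0 := by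
  conv_lhs => rw [eq_sum_co r]
  exact co_shift hp j fun q => co H q r

/-- vanishing of the low lanes -/
theorem pow_mul_eq_zero_iff {j L : ℕ} (h : j + L = H) (r : R0 H) :
    z0 H ^ j * r = 0 ↔ ∀ p < L, co H p r = 0 := by
  constructor
  · intro e p hp
    have := co_mul_pow (show p + j < H by omega) j r
    rw [e, map_zero, if_pos (by omega), Nat.add_sub_cancel] at this
    exact this.symm
  · intro e
    refine ext_co fun p hp => ?_
    rw [co_mul_pow hp, map_zero]
    split_ifs with h1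
    · exact e _ (by omega)
    · rfl

omit [Fintype G] [DecidableEq G] in
theorem ln_erase (g : G) (e : Ex) : ln c off g e = c 0 * e 0 + ln c off g (e.erase 0) := by
  conv_lhs => rw [← Finsupp.single_add_erase 0 e]
  rw [ln, ln, map_add, Finsupp.weight_single, smul_eq_mul]
  ring

omit [Fintype G] [DecidableEq G] in
theorem wE_erase (e : Ex) : wE 3 e = 2 * e 0 + wE 3 (e.erase 0) := by
  conv_lhs => rw [← Finsupp.single_add_erase 0 e]
  rw [map_add, wE, Finsupp.weight_single, nsmul_eq_mul, show wz 3 0 = 2 from rfl, mul_comm]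

omit [Fintype G] [DecidableEq G] in
theorem Mon.erase {g : G} {e : Ex} (h : Mon τ s w g e) :
    Mon τ s (w - 2 * e 0) g (e.erase 0) := ⟨h.1, by rw [← h.2, wE_erase e]; ring⟩

omit [Fintype G] [DecidableEq G] in
theorem Fai.mono (L : Fai τ c off s w) {w' : ℤ} (h : w' ≤ w) : Fai τ c off s w' :=
  ⟨fun u hu => L.lt u (hu.trans h), fun u hu => L.inj u (hu.trans h)⟩

omit [Fintype G] [DecidableEq G] in
theorem Fai.lt' (L : Fai τ c off s w) {g : G} {e : Ex} (h : Mon τ s w g e) :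
    ln c off g (e.erase 0) < c 0 :=
  L.lt _ (by linarith [Int.natCast_nonneg (e 0)]) g _ h.erase Finsupp.erase_same

omit [Fintype G] [DecidableEq G] in
theorem Fai.div (L : Fai τ c off s w) {g : G} {e : Ex} (h : Mon τ s w g e) :
    ln c off g e / c 0 = e 0 ∧ ln c off g e % c 0 = ln c off g (e.erase 0) := by
  have := L.lt' h
  rw [ln_erase g e]
  exact (Nat.div_mod_unique (by omega)).2 ⟨add_comm _ _, this⟩

omit [Fintype G] [DecidableEq G] in
theorem Fai.inj' (L : Fai τ c off s w) {g g' : G} {e e' : Ex} (h : Mon τ s w g e)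
    (h' : Mon τ s w g' e') (hl : ln c off g e = ln c off g' e') : g = g' ∧ e = e' := by
  have e0 : e 0 = e' 0 := by rw [← (L.div h).1, hl, (L.div h').1]
  obtain ⟨h1, h2⟩ := L.inj (w - 2 * e 0) (by linarith [Int.natCast_nonneg (e 0)]) g _ g' _ h.erase
    (e0 ▸ h'.erase) Finsupp.erase_same Finsupp.erase_same
    (by rw [← (L.div h).2, hl, (L.div h').2])
  refine ⟨h1, ?_⟩
  rw [← Finsupp.single_add_erase 0 e, h2, e0, Finsupp.single_add_erase]

omit [Fintype G] [DecidableEq G] in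
theorem IsLn0.lt (L : Fai τ c off s w) {p : ℕ} (h : IsLn0 τ c off s w p) : p < c 0 := by
  obtain ⟨g, e, h1, h2, rfl⟩ := h
  exact L.lt w le_rfl g e h1 h2

omit [Fintype G] [DecidableEq G] in
theorem IsLn0.isLn {p : ℕ} {u : ℤ} (h : IsLn0 τ c off s u p) (m : ℕ) (e : u + 2 * m = w) :
    IsLn τ c off s w (c 0 * m + p) := by
  obtain ⟨g, b, h1, -, rfl⟩ := h
  refine ⟨g, Finsupp.single 0 m + b, ⟨h1.1, ?_⟩, ?_⟩
  · rw [← e, ← h1.2, map_add, wE, Finsupp.weight_single, nsmul_eq_mul, show wz 3 0 = 2 from rfl]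
    ring
  · rw [ln, ln, map_add, Finsupp.weight_single, smul_eq_mul]
    ring

omit [Fintype G] [DecidableEq G] in
theorem Fai.isLn_iff (L : Fai τ c off s w) {n : ℕ} :
    IsLn τ c off s w n ↔ IsLn0 τ c off s (w - 2 * (n / c 0 : ℕ)) (n % c 0) := by
  constructor
  · rintro ⟨g, e, h, rfl⟩
    rw [(L.div h).1, (L.div h).2]
    exact ⟨g, _, h.erase, Finsupp.erase_same, rfl⟩
  · intro h
    have := h.isLn (n / c 0) (sub_add_cancel w _)
    rwa [Nat.div_add_mod] at this

variable [PL 3 F3]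

omit [DecidableEq G] [Fintype G] [PL 3 F3] in
theorem mon_of_mem {U : UpperSet Ex} {u : G → Av F3} (hu : u ∈ τ.WK 3 U s w) {g : G} {e : Ex}
    (he : coeff e (u g) ≠ 0) : Mon τ s w g e := by
  refine ⟨by_contra fun h => he (by rw [(hu.1 g).1 h, coeff_zero]), ?_⟩
  have := (hu.1 g).2 he
  rw [wE, this, sub_add_cancel]

omit [Fintype G] [PL 3 F3] in
theorem single_mem_WK {g : G} {e : Ex} (h : Mon τ s w g e) (r : F3) :
    Pi.single g (monomial e r) ∈ τ.WK 3 Uall s w := by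
  refine ⟨fun l => ?_, fun _ => mem_JA_all _⟩
  rcases eq_or_ne l g with rfl | hl
  · rw [Pi.single_eq_same]
    exact ⟨fun h' => absurd h.1 h', isWeightedHomogeneous_monomial _ _ _ (by
      rw [← h.2, add_sub_cancel_right]; rfl)⟩
  · rw [Pi.single_eq_of_ne hl]
    exact ⟨fun _ => rfl, isWeightedHomogeneous_zero _ _ _⟩

omit [Fintype G] [DecidableEq G] [PL 3 F3] in
theorem csmul_mem_WK {U : UpperSet Ex} {u : G → Av F3} (hu : u ∈ τ.WK 3 U s w) (r : F3) :
    r • u ∈ τ.WK 3 U s w :=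
  ⟨fun g => ⟨fun h => by rw [Pi.smul_apply, (hu.1 g).1 h, smul_zero],
    (weightedHomogeneousSubmodule F3 (wz 3) _).smul_mem r (hu.1 g).2⟩,
    fun g => by rw [Pi.smul_apply, smul_eq_C_mul]; exact Ideal.mul_mem_left _ _ (hu.2 g)⟩

omit [Fintype G] [DecidableEq G] [PL 3 F3] in
theorem v_mem_WK {U : UpperSet Ex} {y : G → Av F3} {u : ℤ} (hy : y ∈ τ.WK 3 U s u) (m : ℕ)
    (e : u + 2 * m = w) : (X 0 ^ m : Av F3) • y ∈ τ.WK 3 U s w := by
  refine ⟨fun g => ⟨fun h => by rw [Pi.smul_apply, (hy.1 g).1 h, smul_zero], ?_⟩,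
    fun g => Ideal.mul_mem_left _ _ (hy.2 g)⟩
  have := ((isWeightedHomogeneous_X F3 (wz 3) 0).pow m).mul (hy.1 g).2
  rw [nsmul_eq_mul, show wz 3 0 = 2 from rfl] at this
  rw [← e, Pi.smul_apply, smul_eq_mul]
  convert this using 1
  ring

omit [DecidableEq G] [PL 3 F3] in
/-- lanes which carry no monomial vanish -/
theorem Pw.co_eq_zero (P : Pw H κ o c off) {U : UpperSet Ex} {u : G → Av F3}
    (hu : u ∈ τ.WK 3 U s w) {n : ℕ} (hn : n < H) (h : ¬ IsLn τ c off s w n) :
    co H n (pk κ o u) = 0 := by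
  rw [P.pk_eq, map_sum]
  refine Finset.sum_eq_zero fun g _ => ?_
  rw [map_sum]
  refine Finset.sum_eq_zero fun e he => ?_
  rw [map_smul, co_pow hn, if_neg fun h1 => h ⟨g, e, mon_of_mem hu (mem_support_iff.1 he), h1⟩,
    smul_zero]

omit [PL 3 F3] in
/-- reading a coefficient -/
theorem Pw.co_pk (P : Pw H κ o c off) (L : Fai τ c off s w) {U : UpperSet Ex} {u : G → Av F3}
    (hu : u ∈ τ.WK 3 U s w) {g : G} {e : Ex} (h : Mon τ s w g e) (hn : ln c off g e < H) :
    co H (ln c off g e) (pk κ o u) = coeff e (u g) := by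
  have k : ∀ l b, b ∈ (u l).support → (l, b) ≠ (g, e) →
      co H (ln c off g e) (coeff b (u l) • z0 H ^ ln c off l b) = 0 := fun l b hb hne => by
    rw [map_smul, co_pow hn, if_neg fun h1 => hne ?_, smul_zero]
    obtain ⟨h2, h3⟩ := L.inj' (mon_of_mem hu (mem_support_iff.1 hb)) h h1
    rw [h2, h3]
  rw [P.pk_eq, map_sum, Finset.sum_eq_single g (fun l _ hl => by
    rw [map_sum]
    exact Finset.sum_eq_zero fun b hb => k l b hb fun h1 => hl (congrArg Prod.fst h1)) (by simp),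
    map_sum, Finset.sum_eq_single e (fun b hb hne => k g b hb fun h1 => hne (congrArg Prod.snd h1))
      (fun he => by rw [notMem_support_iff.1 he, zero_smul, map_zero]), map_smul, co_pow hn,
    if_pos rfl, smul_eq_mul, mul_one]

omit [PL 3 F3] in
/-- **layout lemma**: vanishing low lanes give divisibility by `v_1 ^ j` -/
theorem Pw.mem_JW (P : Pw H κ o c off) (L : Fai τ c off s w) {U : UpperSet Ex} {u : G → Av F3}
    (hu : u ∈ τ.WK 3 U s w) {j : ℕ} (hj : c 0 * j ≤ H)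
    (h : ∀ n < c 0 * j, co H n (pk κ o u) = 0) : u ∈ JW F3 G (U1 j) := fun g => by
  refine mem_JA.2 fun e he => by_contra fun h1 => mem_support_iff.1 he ?_
  have m := mon_of_mem hu (mem_support_iff.1 he)
  have h2 : ln c off g e < c 0 * j := by
    have h3 := L.lt' m
    have h4 : e 0 + 1 ≤ j := not_le.1 (mt mem_U1.2 h1)
    have h5 := Nat.mul_le_mul_left (c 0) h4
    rw [ln_erase g e]
    rw [mul_add, mul_one] at h5
    omega
  rw [← P.co_pk L hu m (by omega)]
  exact h _ h2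

omit [PL 3 F3] in
theorem Pw.mem_JW' (P : Pw H κ o c off) (L : Fai τ c off s w) {U : UpperSet Ex} {u : G → Av F3}
    (hu : u ∈ τ.WK 3 U s w) {i j : ℕ} (hj : i + c 0 * j = H) (h : z0 H ^ i * pk κ o u = 0) :
    u ∈ JW F3 G (U1 j) := P.mem_JW L hu (by omega) ((pow_mul_eq_zero_iff hj _).1 h)

omit [DecidableEq G] [PL 3 F3] in
/-- the converse, without any layout condition -/
theorem Pw.co_of_JW (P : Pw H κ o c off) {u : G → Av F3} {j : ℕ} (hu : u ∈ JW F3 G (U1 j))
    {n : ℕ} (hn : n < H) (h : n < c 0 * j) : co H n (pk κ o u) = 0 := by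
  rw [P.pk_eq, map_sum]
  refine Finset.sum_eq_zero fun g _ => ?_
  rw [map_sum]
  refine Finset.sum_eq_zero fun e he => ?_
  have h1 := Nat.mul_le_mul_left (c 0) (mem_U1.1 (mem_JA.1 (hu g) e he))
  rw [map_smul, co_pow hn, if_neg (by rw [ln_erase g e]; omega), smul_zero]

/-! ### triangular families -/

/-- `y` has lowest lane `n` -/
def Lead (H : ℕ) (r : R0 H) (n : ℕ) : Prop := co H n r ≠ 0 ∧ ∀ q < n, co H q r = 0

theorem Lead.shift {r : R0 H} {n : ℕ} (h : Lead H r n) (j : ℕ) (hn : j + n < H) :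
    Lead H (z0 H ^ j * r) (j + n) := by
  refine ⟨by rw [co_mul_pow hn, if_pos (by omega), Nat.add_sub_cancel_left]; exact h.1,
    fun q hq => ?_⟩
  rw [co_mul_pow (by omega)]
  split_ifs with h1
  · exact h.2 _ (by omega)
  · rfl

omit [DecidableEq G] [PL 3 F3] in
/-- a triangular family spans -/
theorem Pw.tri_span (P : Pw H κ o c off) {N : ℕ} (hN : N ≤ H) {E : ℕ → G → Av F3}
    (hE : ∀ n < N, IsLn τ c off s w n → E n ∈ τ.WK 3 Uall s w ∧ Lead H (pk κ o (E n)) n)
    {y : G → Av F3} (hy : y ∈ τ.WK 3 Uall s w) :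
    ∃ a : ℕ → F3, (∀ n, ¬ IsLn τ c off s w n → a n = 0) ∧ (∀ n, N ≤ n → a n = 0) ∧
      y - ∑ n ∈ Finset.range N, a n • E n ∈ τ.WK 3 Uall s w ∧
      ∀ q < N, co H q (pk κ o (y - ∑ n ∈ Finset.range N, a n • E n)) = 0 := by
  classical
  induction N with
  | zero => exact ⟨0, fun _ _ => rfl, fun _ _ => rfl, by simpa using hy, fun q hq => by omega⟩
  | succ N ih =>
    obtain ⟨a, h1, h2, h3, h4⟩ := ih (by omega) fun n hn => hE n (by omega)
    by_cases hl : IsLn τ c off s w N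
    · obtain ⟨k1, k2⟩ := hE N (by omega) hl
      set x := y - ∑ n ∈ Finset.range N, a n • E n
      have e : y - ∑ n ∈ Finset.range (N + 1),
          Function.update a N (co H N (pk κ o x) / co H N (pk κ o (E N))) n • E n =
          x - (co H N (pk κ o x) / co H N (pk κ o (E N))) • E N := by
        rw [Finset.sum_range_succ, Function.update_self, ← sub_sub]
        congr 2
        exact Finset.sum_congr rfl fun n hn => by
          rw [Function.update_of_ne (Finset.mem_range.1 hn).ne]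
      refine ⟨Function.update a N (co H N (pk κ o x) / co H N (pk κ o (E N))), fun n hn => ?_,
        fun n hn => ?_, ?_, fun q hq => ?_⟩
      · rw [Function.update_of_ne (fun h : n = N => hn (h ▸ hl)), h1 n hn]
      · rw [Function.update_of_ne (by omega), h2 n (by omega)]
      · rw [e]
        exact sub_mem h3 (csmul_mem_WK k1 _)
      · rw [e, pk_sub, pk_csmul, map_sub, map_smul, smul_eq_mul]
        rcases Nat.lt_succ_iff_lt_or_eq.1 hq with h | rfl
        · rw [h4 q h, k2.2 q h, mul_zero, sub_zero]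
        · rw [div_mul_cancel₀ _ k2.1, sub_self]
    · have e : ∑ n ∈ Finset.range (N + 1), a n • E n = ∑ n ∈ Finset.range N, a n • E n := by
        rw [Finset.sum_range_succ, h1 N hl, zero_smul, add_zero]
      refine ⟨a, h1, fun n hn => h2 n (by omega), e ▸ h3, fun q hq => ?_⟩
      rw [e]
      rcases Nat.lt_succ_iff_lt_or_eq.1 hq with h | rfl
      · exact h4 q h
      · exact P.co_eq_zero h3 (by omega) hl

/-- a triangular family is independent -/
theorem lead_ind {ι : Type} {I : Finset ι} {r : ι → R0 H} {l : ι → ℕ} {N : ℕ}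
    (hr : ∀ i ∈ I, Lead H (r i) (l i) ∧ l i < N) (hl : Set.InjOn l I) {a : ι → F3}
    (h : ∀ q < N, co H q (∑ i ∈ I, a i • r i) = 0) : ∀ i ∈ I, a i = 0 := by
  have k : ∀ n, ∀ i ∈ I, l i = n → a i = 0 := fun n => by
    induction n using Nat.strong_induction_on with
    | _ n ih =>
      intro i hi e
      have h1 := h n (e ▸ (hr i hi).2)
      rw [map_sum, Finset.sum_eq_single i (fun j hj hne => ?_) (fun h2 => absurd hi h2), map_smul,
        smul_eq_mul, ← e] at h1
      · exact (mul_eq_zero.1 h1).resolve_right (hr i hi).1.1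
      · rcases lt_trichotomy (l j) n with h2 | h2 | h2
        · rw [ih _ h2 j hj rfl, zero_smul, map_zero]
        · exact absurd (hl hj hi (h2.trans e.symm)) hne
        · rw [map_smul, (hr j hj).1.2 n h2, smul_zero]
  exact fun i hi => k _ i hi rfl

/-- a family with distinct lowest lanes which cover all lanes is a basis modulo `v_1` -/
theorem Pw.basis (P : Pw H κ o c off) (L : Fai τ c off s w) (h0 : c 0 ≤ H) {n : ℕ} {lx : ℕ → ℕ}
    {al : ℕ → G → Av F3} (all : ∀ p, IsLn0 τ c off s w p → ∃ x < n, lx x = p)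
    (inj : ∀ x < n, ∀ x' < n, lx x = lx x' → x = x') (lt : ∀ x < n, lx x < c 0)
    (mem : ∀ x < n, al x ∈ τ.WK 3 Uall s w) (lead : ∀ x < n, Lead H (pk κ o (al x)) (lx x)) :
    (∀ y ∈ τ.WK 3 Uall s w, ∃ a : ℕ → F3,
      y - ∑ x ∈ Finset.range n, a x • al x ∈ JW F3 G (U1 1)) ∧
    ∀ a : ℕ → F3, ∑ x ∈ Finset.range n, a x • al x ∈ JW F3 G (U1 1) → ∀ x < n, a x = 0 := by
  have io : Set.InjOn lx (Finset.range n) := fun x hx x' hx' =>
    inj x (Finset.mem_range.1 hx) x' (Finset.mem_range.1 hx')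
  refine ⟨fun y hy => ?_, fun a ha x hx => ?_⟩
  · have k : ∀ p < c 0, IsLn τ c off s w p → ∃ x < n, lx x = p := fun p hp h => all p (by
      have := L.isLn_iff.1 h
      rwa [Nat.div_eq_of_lt hp, Nat.mod_eq_of_lt hp, Nat.cast_zero, mul_zero, sub_zero] at this)
    choose! ix k1 k2 using k
    obtain ⟨a, a1, -, a3, a4⟩ := P.tri_span h0 (E := fun p => al (ix p)) (fun p hp h =>
      ⟨mem _ (k1 p hp h), by have := lead _ (k1 p hp h); rwa [k2 p hp h] at this⟩) hy
    have e : ∑ p ∈ Finset.range (c 0), a p • al (ix p) =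
        ∑ x ∈ Finset.range n, a (lx x) • al x := by
      rw [← Finset.sum_subset (s₁ := (Finset.range n).image lx) (fun p hp => by
        obtain ⟨x, hx, rfl⟩ := Finset.mem_image.1 hp
        exact Finset.mem_range.2 (lt x (Finset.mem_range.1 hx))) (fun p hp hq => by
        rw [a1 p fun h => hq (Finset.mem_image.2 ⟨ix p, Finset.mem_range.2
          (k1 p (Finset.mem_range.1 hp) h), k2 p (Finset.mem_range.1 hp) h⟩), zero_smul]),
        Finset.sum_image io]
      refine Finset.sum_congr rfl fun x hx => ?_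
      have hx' := Finset.mem_range.1 hx
      have h : IsLn τ c off s w (lx x) := by_contra fun h =>
        (lead x hx').1 (P.co_eq_zero (mem x hx') ((lt x hx').trans_le h0) h)
      rw [inj _ (k1 _ (lt x hx') h) x hx' (k2 _ (lt x hx') h)]
    exact ⟨fun x => a (lx x), e ▸ P.mem_JW L a3 (j := 1) (by omega) fun q hq => a4 q (by omega)⟩
  · refine lead_ind (I := Finset.range n) (r := fun x => pk κ o (al x)) (l := lx) (N := c 0)
      (fun x hx => ⟨lead x (Finset.mem_range.1 hx), lt x (Finset.mem_range.1 hx)⟩) io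
      (fun q hq => ?_) x (Finset.mem_range.2 hx)
    have := P.co_of_JW ha (hq.trans_le h0) (by omega)
    rwa [pk_sum, Finset.sum_congr rfl fun x _ => pk_csmul κ o (a x) (al x)] at this

/-- a family which is triangular with respect to a list of the monomials is a basis modulo `v_1` -/
theorem tri (τ : Tw F3 G) (s : ℕ) (w : ℤ) (n : ℕ) (pg : ℕ → G) (pe : ℕ → Ex) (al : ℕ → G → Av F3)
    (h1 : ∀ g e, τ.sd g = s → e 0 = 0 → wE 3 e + τ.dg g = w → ∃ x < n, pg x = g ∧ pe x = e)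
    (h2 : ∀ x < n, pe x 0 = 0) (h3 : ∀ x < n, al x ∈ τ.WK 3 Uall s w)
    (h4 : ∀ x < n, coeff (pe x) (al x (pg x)) ≠ 0)
    (h5 : ∀ x < n, ∀ x' < x, coeff (pe x') (al x (pg x')) = 0) :
    (∀ y ∈ τ.WK 3 Uall s w, ∃ c : ℕ → F3,
      y - ∑ x ∈ Finset.range n, c x • al x ∈ JW F3 G (U1 1)) ∧
    ∀ c : ℕ → F3, ∑ x ∈ Finset.range n, c x • al x ∈ JW F3 G (U1 1) → ∀ x < n, c x = 0 := by
  refine ⟨fun y hy => ?_, fun a ha x => ?_⟩
  · have k : ∀ m ≤ n, ∃ a : ℕ → F3, y - ∑ x ∈ Finset.range m, a x • al x ∈ τ.WK 3 Uall s w ∧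
        ∀ x < m, coeff (pe x) ((y - ∑ x ∈ Finset.range m, a x • al x) (pg x)) = 0 := by
      intro m hm
      induction m with
      | zero => exact ⟨0, by simpa using hy, fun x hx => by omega⟩
      | succ m ih =>
        obtain ⟨a, k1, k2⟩ := ih (by omega)
        set u := y - ∑ x ∈ Finset.range m, a x • al x
        set r := coeff (pe m) (u (pg m)) / coeff (pe m) (al m (pg m))
        have e : y - ∑ x ∈ Finset.range (m + 1), Function.update a m r x • al x = u - r • al m := by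
          rw [Finset.sum_range_succ, Function.update_self, ← sub_sub]
          congr 2
          exact Finset.sum_congr rfl fun x hx => by
            rw [Function.update_of_ne (Finset.mem_range.1 hx).ne]
        refine ⟨Function.update a m r, e ▸ sub_mem k1 (csmul_mem_WK (h3 m hm) r), fun x hx => ?_⟩
        rw [e, Pi.sub_apply, Pi.smul_apply, coeff_sub, coeff_smul, smul_eq_mul]
        rcases Nat.lt_succ_iff_lt_or_eq.1 hx with h | rfl
        · rw [k2 x h, h5 m hm x h, mul_zero, sub_zero]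
        · rw [div_mul_cancel₀ _ (h4 x hm), sub_self]
    obtain ⟨a, k1, k2⟩ := k n le_rfl
    refine ⟨a, fun g => mem_JA.2 fun e he => by_contra fun h => mem_support_iff.1 he ?_⟩
    have m := mon_of_mem k1 (mem_support_iff.1 he)
    obtain ⟨x, hx, rfl, rfl⟩ := h1 g e m.1 (by rw [mem_U1] at h; omega) m.2
    exact k2 x hx
  · induction x using Nat.strong_induction_on with
    | _ x ih =>
      intro hx
      have k := mem_JA'.1 (ha (pg x)) (pe x) (by rw [mem_U1, h2 x hx]; omega)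
      rw [Finset.sum_apply, coeff_sum, Finset.sum_eq_single x (fun y hy hne => ?_)
        (fun h => absurd (Finset.mem_range.2 hx) h), Pi.smul_apply, coeff_smul, smul_eq_mul] at k
      · exact (mul_eq_zero.1 k).resolve_right (h4 x hx)
      · rw [Pi.smul_apply, coeff_smul]
        rcases lt_or_gt_of_ne hne with h | h
        · rw [ih y h (Finset.mem_range.1 hy), zero_smul]
        · rw [h5 y (Finset.mem_range.1 hy) x h, smul_zero]

omit [Fintype G] [DecidableEq G] [PL 3 F3] in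
/-- block B1c -/
theorem triStmt : TriStmt := fun _ _ _ τ s w n pg pe al => tri τ s w n pg pe al

/-- the form used by the barcode -/
theorem Pw.at (P : Pw H κ o c off) {B : Bar G} {t : ℕ} (L : Fai τ c off s (2 * (t : ℤ)))
    (h0 : c 0 ≤ H) {lx : ℕ → ℕ}
    (all : ∀ p, IsLn0 τ c off s (2 * (t : ℤ)) p → ∃ x < B.cnt s t, lx x = p)
    (inj : ∀ x < B.cnt s t, ∀ x' < B.cnt s t, lx x = lx x' → x = x')
    (lt : ∀ x < B.cnt s t, lx x < c 0)
    (mem : ∀ x < B.cnt s t, B.al s t x ∈ τ.WK 3 Uall s (2 * (t : ℤ)))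
    (lead : ∀ x < B.cnt s t, Lead H (pk κ o (B.al s t x)) (lx x)) : B.At τ s t :=
  ⟨mem, (P.basis L h0 all inj lt mem lead).1, (P.basis L h0 all inj lt mem lead).2⟩

/-! ### exponents in four variables, the check of a layout -/

omit [PL 3 F3] in
theorem weight_ex4 {M : Type} [AddCommMonoid M] (f : ℕ → M) (a b c d : ℕ) :
    Finsupp.weight f (ex4 a b c d) = a • f 0 + b • f 1 + c • f 2 + d • f 3 := by
  simp only [ex4, map_add, Finsupp.weight_single]

omit [Fintype G] [DecidableEq G] [PL 3 F3] in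
theorem ln_ex4 (g : G) (e0 e1 e2 e3 : ℕ) :
    ln c off g (ex4 e0 e1 e2 e3) = c 0 * e0 + c 1 * e1 + c 2 * e2 + c 3 * e3 + off g := by
  rw [ln, weight_ex4]
  simp only [smul_eq_mul]
  ring

omit [PL 3 F3] in
theorem eq_ex4_of_wE {e : Ex} (h : wE 3 e < 242) : e = ex4 (e 0) (e 1) (e 2) (e 3) :=
  eq_ex4 fun _ hi => apply_eq_zero_of_wE (n := 4) h hi

omit [Fintype G] [DecidableEq G] [PL 3 F3] in
/-- the monomials in half weight `t` -/
theorem Mon.exists {tg : G → ℕ} (hg : ∀ g, τ.sd g = s → τ.dg g = 2 * (tg g : ℤ)) (hw : w < 242)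
    {g : G} {e : Ex} (h : Mon τ s w g e) : e = ex4 (e 0) (e 1) (e 2) (e 3) ∧
      w = 2 * ((e 0 + 4 * e 1 + 13 * e 2 + 40 * e 3 + tg g : ℕ) : ℤ) := by
  have h1 := h.2
  rw [hg g h.1] at h1
  have h2 : e = ex4 (e 0) (e 1) (e 2) (e 3) := eq_ex4_of_wE (by omega)
  refine ⟨h2, ?_⟩
  have h3 := wE_ex4 (e 0) (e 1) (e 2) (e 3)
  rw [← h2] at h3
  omega

omit [Fintype G] [DecidableEq G] [PL 3 F3] in
theorem mon_ex4 {tg t : ℕ} {g : G} (hs : τ.sd g = s) (hg : τ.dg g = 2 * (tg : ℤ)) {a b c d : ℕ}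
    (h : a + 4 * b + 13 * c + 40 * d + tg = t) : Mon τ s (2 * (t : ℤ)) g (ex4 a b c d) :=
  ⟨hs, by rw [wE_ex4, hg, ← h]; push_cast; ring⟩

/-- the triples `(g, e 2, e 3)` of half weight at most `T` -/
def trs (gs : List G) (tg : G → ℕ) (T : ℕ) : List (G × ℕ × ℕ) :=
  gs.flatMap fun g => (List.range (T / 13 + 1)).flatMap fun x =>
    ((List.range (T / 40 + 1)).filter fun y => Nat.ble (tg g + 13 * x + 40 * y) T).map
      fun y => (g, x, y)

/-- the lane and the residue of the weight -/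
def key (tg off : G → ℕ) (c2 c3 : ℕ) (v : G × ℕ × ℕ) : ℕ :=
  4 * (c2 * v.2.1 + c3 * v.2.2 + off v.1) + (tg v.1 + 13 * v.2.1 + 40 * v.2.2) % 4

/-- the numbers are distinct, below `n`, and not in the mask -/
def dis (n : ℕ) : List ℕ → ℕ → Bool
  | [], _ => true
  | x :: l, m => Nat.blt x n && !m.testBit x && dis n l (m ||| 2 ^ x)

omit [PL 3 F3] in
theorem dis_spec {n : ℕ} {l : List ℕ} {m : ℕ} (h : dis n l m = true) :
    l.Nodup ∧ ∀ x ∈ l, x < n ∧ m.testBit x = false := by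
  induction l generalizing m with
  | nil => simp
  | cons x l ih =>
    simp only [dis, Bool.and_eq_true, Nat.blt_eq, Bool.not_eq_true'] at h
    obtain ⟨h1, h2⟩ := ih h.2
    refine ⟨List.nodup_cons.2 ⟨fun hx => ?_, h1⟩, fun y hy => ?_⟩
    · have := (h2 x hx).2
      simp [Nat.testBit_or] at this
    · rcases List.mem_cons.1 hy with rfl | hy
      · exact h.1
      · have := (h2 y hy).2
        rw [Nat.testBit_or, Bool.or_eq_false_iff] at this
        exact ⟨(h2 y hy).1, this.1⟩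

omit [Fintype G] [DecidableEq G] [PL 3 F3] in
theorem mem_trs {gs : List G} {tg : G → ℕ} {T : ℕ} {g : G} (hg : g ∈ gs) {x y : ℕ}
    (h : tg g + 13 * x + 40 * y ≤ T) : (g, x, y) ∈ trs gs tg T := by
  simp only [trs, List.mem_flatMap, List.mem_range, List.mem_map, List.mem_filter, Nat.ble_eq]
  exact ⟨g, hg, x, by omega, y, ⟨by omega, h⟩, rfl⟩

/-- **the check of a layout** with `v_2 ↦ 1` -/
theorem fai_of {gs : List G} {tg : G → ℕ} {T : ℕ} (hT : T ≤ 120) (h1 : c 1 = 0)
    (hs : ∀ g, τ.sd g = s → g ∈ gs) (hg : ∀ g, τ.sd g = s → τ.dg g = 2 * (tg g : ℤ))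
    (h : dis (4 * c 0) ((trs gs tg T).map (key tg off (c 2) (c 3))) 0 = true) :
    Fai τ c off s (2 * (T : ℤ)) := by
  obtain ⟨k1, k2⟩ := dis_spec h
  have k : ∀ u ≤ 2 * (T : ℤ), ∀ g e, Mon τ s u g e → e 0 = 0 → (g, e 2, e 3) ∈ trs gs tg T ∧
      ln c off g e = c 2 * e 2 + c 3 * e 3 + off g := fun u hu g e m e0 => by
    obtain ⟨a, b⟩ := m.exists hg (by omega)
    refine ⟨mem_trs (hs g m.1) (by omega), ?_⟩
    conv_lhs => rw [a, ln_ex4, e0, h1]
    ring
  refine ⟨fun u hu g e m e0 => ?_, fun u hu g e g' e' m m' e0 e0' hl => ?_⟩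
  · obtain ⟨a, b⟩ := k u hu g e m e0
    have := (k2 _ (List.mem_map_of_mem a)).1
    simp only [key] at this
    omega
  · obtain ⟨a, b⟩ := k u hu g e m e0
    obtain ⟨a', b'⟩ := k u hu g' e' m' e0'
    obtain ⟨p, q⟩ := m.exists hg (by omega)
    obtain ⟨p', q'⟩ := m'.exists hg (by omega)
    have := List.inj_on_of_nodup_map k1 a a' (by simp only [key]; omega)
    simp only [Prod.mk.injEq] at this
    obtain ⟨rfl, t2, t3⟩ := this
    refine ⟨rfl, ?_⟩
    rw [p, p', e0, e0', t2, t3, show e 1 = e' 1 by omega]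

/-- the lanes of half weight `t` are among the keys -/
theorem IsLn0.key_mem {gs : List G} {tg : G → ℕ} {t T : ℕ} (hT : t ≤ T) (ht : t ≤ 120)
    (h1 : c 1 = 0) (hs : ∀ g, τ.sd g = s → g ∈ gs) (hg : ∀ g, τ.sd g = s → τ.dg g = 2 * (tg g : ℤ))
    {p : ℕ} (h : IsLn0 τ c off s (2 * (t : ℤ)) p) :
    ∃ v ∈ trs gs tg T, tg v.1 + 13 * v.2.1 + 40 * v.2.2 ≤ t ∧
      key tg off (c 2) (c 3) v = 4 * p + t % 4 := by
  obtain ⟨g, e, m, e0, rfl⟩ := h
  obtain ⟨a, b⟩ := m.exists hg (by omega)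
  refine ⟨(g, e 2, e 3), mem_trs (hs g m.1) (by omega), by dsimp only; omega, ?_⟩
  have : ln c off g e = c 2 * e 2 + c 3 * e 3 + off g := by
    conv_lhs => rw [a, ln_ex4, e0, h1]
    ring
  simp only [key]
  omega

omit [PL 3 F3] in
/-- reading the lowest lane of a normalised number -/
theorem Rep.lead {β j x n : ℕ} {r : R0 H} (h : Rep (z0 H) H β j x r) (hx : x < Th H)
    (hn : n + j < H) (h1 : lane x n % 3 ≠ 0) (h2 : x % 65536 ^ n = 0) : Lead H r n := by
  refine ⟨?_, fun q hq => ?_⟩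
  · rw [h.co_eq hx hn]
    exact fun e => h1 (Nat.mod_eq_zero_of_dvd ((ZMod.natCast_eq_zero_iff _ 3).1 e))
  · obtain ⟨y, rfl⟩ := Nat.dvd_of_mod_eq_zero h2
    rw [h.co_eq hx (by omega), mul_comm, lane_up, if_pos hq, Nat.cast_zero]

/-! ### the layouts of the programs -/

namespace Lay

variable (L : Lay) {n : ℕ}

/-- the lanes of the variables -/
def cv (i : ℕ) : ℕ := [L.a, 0, 1, L.ga].getD i L.H

/-- the lanes of the generators -/
def og (h : Fin n) : ℕ := L.off h

omit [PL 3 F3]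

@[simp] theorem cv_0 : L.cv 0 = L.a := rfl
@[simp] theorem cv_1 : L.cv 1 = 0 := rfl
@[simp] theorem cv_2 : L.cv 2 = 1 := rfl
@[simp] theorem cv_3 : L.cv 3 = L.ga := rfl

theorem pk_eq (u : Fin n → Av F3) : L.pk u = Cert.pk L.kap L.o u := rfl

theorem kap_X (i : ℕ) : L.kap (X i) = z0 L.H ^ L.cv i := by
  rw [kap, eval₂Hom_X']
  rcases i with _ | _ | _ | _ | i
  · rfl
  · exact (pow_zero _).symm
  · exact (pow_one _).symm
  · rfl
  · exact (z0_pow L.H).symm

omit [Fintype G] [DecidableEq G] in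
theorem pw' (off : G → ℕ) : Pw L.H L.kap (fun g => L.z ^ off g) L.cv off :=
  ⟨L.kap_X, fun _ => rfl⟩

theorem pw : Pw L.H L.kap (L.o (n := n)) L.cv L.og := L.pw' _

theorem mem_cells {h x y : ℕ} (hN : L.N ≤ 120) :
    (h, x, y) ∈ L.cells ↔ h ∈ L.gl ∧ L.w h + 13 * x + 40 * y ≤ L.N := by
  simp only [cells, List.mem_filter, List.mem_flatMap, List.mem_map, List.mem_range, Nat.ble_eq,
    Prod.mk.injEq]
  constructor
  · rintro ⟨⟨g, hg, b, -, a, -, rfl, rfl, rfl⟩, h⟩
    exact ⟨hg, h⟩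
  · rintro ⟨h1, h2⟩
    exact ⟨⟨h, h1, y, by omega, x, by omega, rfl, rfl, rfl⟩, h2⟩

omit [Fintype G] [DecidableEq G] in
theorem ln_c (off : G → ℕ) (g : G) {e : Ex} (h : wE 3 e < 242) :
    ln L.cv off g e = L.a * e 0 + (off g + e 2 + L.ga * e 3) := by
  conv_lhs => rw [eq_ex4_of_wE h, ln_ex4, cv_0, cv_1, cv_2, cv_3]
  ring

omit [Fintype G] [DecidableEq G] in
/-- a checked layout is faithful -/
theorem fai' (hL : L.Ok) (ix : G → ℕ)
    (hi : ∀ g g', τ.sd g = s → τ.sd g' = s → ix g = ix g' → g = g')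
    (hs : ∀ g, τ.sd g = s → ix g ∈ L.gl) (hg : ∀ g, τ.sd g = s → τ.dg g = 2 * (L.w (ix g) : ℤ)) :
    Fai τ L.cv (fun g => L.off (ix g)) s (2 * (L.N : ℤ)) := by
  obtain ⟨-, -, -, hN, -, -, k2, k1⟩ := hL
  have k : ∀ u ≤ 2 * (L.N : ℤ), ∀ g e, Mon τ s u g e → e 0 = 0 → (ix g, e 2, e 3) ∈ L.cells ∧
      ln L.cv (fun g => L.off (ix g)) g e = L.cp (ix g, e 2, e 3) := fun u hu g e m e0 => by
    obtain ⟨a, b⟩ := m.exists (tg := fun g => L.w (ix g)) hg (by omega)
    refine ⟨(L.mem_cells hN).2 ⟨hs g m.1, by omega⟩, ?_⟩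
    conv_lhs => rw [a, ln_ex4, e0, cv_1, cv_2, cv_3]
    simp only [cp]
    ring
  refine ⟨fun u hu g e m e0 => ?_, fun u hu g e g' e' m m' e0 e0' hl => ?_⟩
  · obtain ⟨a, b⟩ := k u hu g e m e0
    exact b ▸ k2 _ a
  · obtain ⟨a, b⟩ := k u hu g e m e0
    obtain ⟨a', b'⟩ := k u hu g' e' m' e0'
    obtain ⟨p, q⟩ := m.exists (tg := fun g => L.w (ix g)) hg (by omega)
    obtain ⟨p', q'⟩ := m'.exists (tg := fun g => L.w (ix g)) hg (by omega)
    have := List.inj_on_of_nodup_map k1 a a' (by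
      rw [← b, ← b', hl]
      simp only [cw]
      omega)
    simp only [Prod.mk.injEq] at this
    obtain ⟨t1, t2, t3⟩ := this
    obtain rfl := hi g g' m.1 m'.1 t1
    refine ⟨rfl, ?_⟩
    rw [p, p', e0, e0', t2, t3, show e 1 = e' 1 by omega]

theorem fai {τ : Tw F3 (Fin n)} {s : ℕ} (hL : L.Ok) (hs : FitG τ L.gl s) (hg : FitW τ L) {t : ℕ}
    (ht : t ≤ L.N) : Fai τ L.cv L.og s (2 * (t : ℤ)) :=
  (L.fai' hL Fin.val (fun _ _ _ _ => Fin.ext) (fun g h => (hs g).2 ⟨g.2, h⟩) fun g _ => hg g).mono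
    (by omega)

end Lay

end Vale.Agent.P236K.Cert
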