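import Vale.Agent.P236K.Cert.FProg
import Vale.Agent.P236K.Cert.Lay

/-!
# P236K / Cert / FAp : literals and the action (block F1)
-/

set_option linter.unusedSectionVars false

noncomputable section

namespace Vale.Agent.P236K.Cert

open Vale.Agent.P236K.Alg MvPolynomial

/-- reading the entries of a value which is known modulo a power of `v_1` -/
def DecB : Prop := ∀ (L : Lay) (lam : ℕ → Av F3) (u v n β : ℕ), L.Ok → u ≤ L.N → n + β ≤ L.pi →
  (∀ t, (dl L v u t n).length ≤ 3600 ∧ ∀ i ∈ dl L v u t n,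
    i / 268435456 ∈ L.gl ∧ L.w (i / 268435456) + w4 i = u ∧ i % 128 < n) ∧
  ((∀ h ∈ L.gl, WA 3 (2 * (u : ℤ) - 2 * (L.w h : ℤ)) (lam h)) → v < L.T →
    Rep L.z L.H 3 (L.a * β) v (∑ h ∈ L.gl.toFinset, L.kap (lam h) * L.z ^ L.off h) →
    ∀ (A : Type) [AddCommGroup A] (Ψ : ℕ → Av F3 →+ A),
      (∀ h e c, n ≤ e 0 → Ψ h (monomial e c) = 0) →
      ∑ h ∈ L.gl.toFinset, Ψ h (lam h) =
        ((dl L v u 1 n).map fun i => Ψ (i / 268435456) (monomial (ex i) 1)).sum +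
          2 • ((dl L v u 2 n).map fun i => Ψ (i / 268435456) (monomial (ex i) 1)).sum)

namespace Fa

variable [PL 3 F3] {n : ℕ} {τ : Tw F3 (Fin n)}

theorem sg_eq {i : ℕ} (h : i / 268435456 < n) :
    sg n i = Pi.single (⟨i / 268435456, h⟩ : Fin n) (monomial (ex i) 1 : Av F3) := dif_pos h

theorem sv_nil : sv n [] = 0 := rfl

theorem sv_cons (i : ℕ) (l : List ℕ) : sv n (i :: l) = sg n i + sv n l := List.sum_cons

theorem pk_add' (L : Lay) (u u' : Fin n → Av F3) : L.pk (u + u') = L.pk u + L.pk u' :=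
  pk_add _ _ _ _

theorem pk_zero' (L : Lay) : L.pk (0 : Fin n → Av F3) = 0 := pk_zero _ _

theorem pk_two (L : Lay) (u u' : Fin n → Av F3) : L.pk (u + 2 • u') = L.pk u + 2 * L.pk u' := by
  rw [two_nsmul, pk_add', pk_add', two_mul]

theorem rep_two {L : Lay} {β x y b : ℕ} {r r' : R0 L.H} (h : Rep L.z L.H b (L.a * β) x r)
    (h' : Rep L.z L.H b (L.a * β) y r') (hb : b ≤ 10800) :
    Rep L.z L.H 2 (L.a * β) (nr2 L.T (L.cm β) L.K L.K8 (Nat.add x (Nat.shiftLeft y 1)))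
      (r + 2 * r') := by
  have h1 := Rep.shift (s := 0) (s' := 0) (c := 1) (n := 1) L.hz (j := L.a * β) h' le_rfl rfl
    (by omega)
  exact ((h.add h1 (by omega)).nr2 (by omega)).of_eq (by ring)

theorem sumP_rep (L : Lay) {l : List ℕ} (hl : ∀ i ∈ l, i / 268435456 < n)
    (hn : l.length ≤ 3600) : Rep L.z L.H l.length 0 (sumP L l) (L.pk (sv n l)) := by
  induction l with
  | nil => rw [sv_nil, pk_zero']; exact Rep.zero
  | cons i l ih =>
    rw [List.length_cons] at hn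
    have hi := hl i (List.mem_cons_self ..)
    have h1 := Rep.shift (s := L.sh i + L.off (i / 268435456)) (s' := 0) (c := 0) (n := L.pos i)
      L.hz (j := 0) (Rep.one L.hz) (Nat.zero_le _) rfl (by omega)
    have h2 := h1.add (ih (fun j hj => hl j (List.mem_cons_of_mem _ hj)) (by omega)) (by omega)
    rw [sv_cons, pk_add', List.length_cons, add_comm l.length]
    refine h2.of_eq ?_
    rw [sg_eq hi, L.pk_eq (Pi.single _ _), pk_single, L.kap_ex, Lay.o, ← pow_add, pow_zero, one_mul, mul_one]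
    rfl

theorem sumL_rep (hM : MtStmt) (hA : ActStmt) (P : MP) {gl : List ℕ} (hp : P.L.pi ≤ 64)
    (hN : P.L.N ≤ 120) (hv : NvOK P.L P.nv gl (tv P.L τ)) {y β : ℕ} (hy : y < 268435456)
    {l : List ℕ} (hl : ∀ i ∈ l, i / 268435456 < n ∧ i / 268435456 ∈ gl ∧
      β + i % 128 < P.L.pi ∧ P.L.w (i / 268435456) + w4 i + w4 y ≤ P.L.N)
    (hn : l.length ≤ 3600) :
    Rep P.L.z P.L.H (3 * l.length) (P.L.a * β) (sumL P (y * 64 + β) l)
      (P.L.pk (τ.act 3 (monomial (ex y) 1) (sv n l))) := by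
  induction l with
  | nil => rw [sv_nil, map_zero, pk_zero']; exact Rep.zero
  | cons i l ih =>
    rw [List.length_cons] at hn
    obtain ⟨h1, h2, h3, h4⟩ := hl i (List.mem_cons_self ..)
    have h5 := hM P gl _ hp hN hv _ h2 (i % 268435456) (Nat.mod_lt _ (by norm_num)) y hy β
      (by omega) (by rw [w4_mod]; exact h4)
    rw [show i / 268435456 * 268435456 + i % 268435456 = i by omega,
      hA n τ P.L ⟨_, h1⟩ y (i % 268435456), ex_mod, ← sg_eq h1] at h5
    have h6 := h5.add (ih (fun j hj => hl j (List.mem_cons_of_mem _ hj)) (by omega)) (by omega)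
    rw [sv_cons, map_add, pk_add', List.length_cons, mul_add, mul_one, add_comm (3 * l.length)]
    exact h6

theorem sv_mem {L : Lay} {s t : ℕ} (hG : FitG τ L.gl s) (hW : FitW τ L) {l : List ℕ}
    (hl : ∀ i ∈ l, i / 268435456 ∈ L.gl ∧ L.w (i / 268435456) + w4 i = t) :
    sv n l ∈ τ.WK 3 Uall s (2 * (t : ℤ)) := by
  induction l with
  | nil => exact zero_mem _
  | cons i l ih =>
    obtain ⟨h1, h2⟩ := hl i (List.mem_cons_self ..)
    obtain ⟨hh, hs⟩ := (hG _).1 h1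
    rw [sv_cons, sg_eq hh]
    refine add_mem (single_mem_WK ⟨hs, ?_⟩ 1) (ih fun j hj => hl j (List.mem_cons_of_mem _ hj))
    rw [wE_ex, hW, ← h2]
    push_cast
    ring

theorem w_eq {L L' : Lay} (hW : FitW τ L) (hW' : FitW τ L') {h : ℕ} (hh : h < n) :
    L.w h = L'.w h := by
  have h1 := hW ⟨h, hh⟩
  have h2 := hW' ⟨h, hh⟩
  simp only at h1 h2
  omega

/-- extension by zero -/
def ext (u : Fin n → Av F3) (h : ℕ) : Av F3 := if hh : h < n then u ⟨h, hh⟩ else 0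

/-- the inclusion of a summand -/
def inc (n h : ℕ) : Av F3 →+ (Fin n → Av F3) :=
  if hh : h < n then AddMonoidHom.single (fun _ => Av F3) ⟨h, hh⟩ else 0

theorem inc_ex (i : ℕ) : inc n (i / 268435456) (monomial (ex i) 1) = sg n i := by
  unfold inc sg
  split_ifs <;> rfl

theorem sum_inc {gl : List ℕ} {s : ℕ} {w : ℤ} (hG : FitG τ gl s) {u : Fin n → Av F3}
    (hu : u ∈ τ.WK 3 Uall s w) : ∑ h ∈ gl.toFinset, inc n h (ext u h) = u := by
  funext g
  rw [Finset.sum_apply, Finset.sum_eq_single g.1]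
  · simp [inc, ext]
  · intro h _ hg
    unfold inc
    split_ifs with hh
    · exact Pi.single_eq_of_ne (fun e => hg (congrArg Fin.val e).symm) _
    · rfl
  · intro h
    have : τ.sd g ≠ s := fun e => h (List.mem_toFinset.2 ((hG _).2 ⟨g.2, e⟩))
    simp [inc, ext, (hu.1 g).1 this]

theorem pk_inc (L : Lay) {h : ℕ} (hh : h < n) (a : Av F3) :
    L.pk (inc n h a) = L.kap a * L.z ^ L.off h := by
  rw [inc, dif_pos hh, L.pk_eq, AddMonoidHom.single_apply, pk_single]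
  rfl

theorem inc_vs (h m : ℕ) (a : Av F3) : inc n h (X 0 ^ m * a) = vs m (inc n h a) := by
  unfold inc
  split_ifs with hh
  · rw [AddMonoidHom.single_apply, AddMonoidHom.single_apply, vs, ← smul_eq_mul, Pi.single_smul]
  · simp [vs]

theorem apL_rep (hM : MtStmt) (hA : ActStmt) {F : FT} {N : ℤ} (E : F.Env τ N) {s t y β k : ℕ}
    (hs : s < F.S) (hy : y < 268435456) (ht : t + w4 y ≤ F.T) (hk : k + β ≤ F.pi)
    {l : ℕ → List ℕ} (hl : ∀ c, (l c).length ≤ 3600 ∧ ∀ i ∈ l c,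
      i / 268435456 ∈ (F.L s).gl ∧ (F.L s).w (i / 268435456) + w4 i = t ∧ i % 128 < k) :
    F.RV (s + 1) β (apL (F.M s) β (y * 64 + β) (l 1) (l 2))
      (τ.act 3 (monomial (ex y) 1) (sv n (l 1) + 2 • sv n (l 2))) := by
  obtain ⟨-, -, -, hG, hW⟩ := E.lay s hs.le
  obtain ⟨hL', hp', hT', -, hW'⟩ := E.lay (s + 1) hs
  have h : ∀ c, Rep (F.M s).L.z (F.M s).L.H 10800 ((F.M s).L.a * β)
      (sumL (F.M s) (y * 64 + β) (l c))
      ((F.M s).L.pk (τ.act 3 (monomial (ex y) 1) (sv n (l c)))) := fun c => by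
    refine (sumL_rep hM hA (F.M s) hL'.2.2.1 hL'.2.2.2.1 (E.nv s hs) hy (fun i hi => ?_)
      (hl c).1).mono (by have := (hl c).1; omega) le_rfl
    obtain ⟨h1, h2, h3⟩ := (hl c).2 i hi
    obtain ⟨hh, -⟩ := (hG _).1 h1
    refine ⟨hh, h1, ?_, ?_⟩
    · change _ < (F.L (s + 1)).pi
      omega
    · change (F.L (s + 1)).w _ + _ + _ ≤ (F.L (s + 1)).N
      rw [← w_eq hW hW' hh]
      omega
  rw [FT.RV, map_add, map_nsmul, pk_two]
  exact rep_two (h 1) (h 2) le_rfl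

theorem ls_spec (hD : DecB) {F : FT} {N : ℤ} (E : F.Env τ N) {s t e : ℕ} (hs : s ≤ F.S)
    (ht : t ≤ F.T) (he : eT e = 0 → eK e < F.pi) (c : ℕ) :
    (F.ls s t e c).length ≤ 3600 ∧ ∀ i ∈ F.ls s t e c, i / 268435456 ∈ (F.L s).gl ∧
      (F.L s).w (i / 268435456) + w4 i = t ∧ i % 128 < F.pi := by
  obtain ⟨hL, hp, hT, -, -⟩ := E.lay s hs
  have hk : (Bool.rec F.pi (Nat.succ (eK e)) (Nat.beq (eT e) 0) : ℕ) ≤ F.pi := by
    rcases h : Nat.beq (eT e) 0 with _ | _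
    · exact le_rfl
    · exact he (Nat.eq_of_beq_eq_true h)
  obtain ⟨h1, h2⟩ := (hD (F.L s) (fun _ => 0) t (F.unp s (eD e)) _ 0 hL (by omega)
    (by rw [hp]; exact hk)).1 c
  exact ⟨h1, fun i hi => ⟨(h2 i hi).1, (h2 i hi).2.1, lt_of_lt_of_le (h2 i hi).2.2 hk⟩⟩

end Fa

open Fa in
/-- block F1 -/
theorem apStmt_of [PL 3 F3] (hM : MtStmt) (hA : ActStmt) (hD : DecB) : ApStmt := by
  intro n τ F N E
  refine ⟨fun s hs t ht e he => ?_, fun s hs t y v u hy ht hu hv => ?_⟩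
  · obtain ⟨-, -, -, hG, hW⟩ := E.lay s hs
    have hl := ls_spec hD E hs ht he
    have hm : ∀ c, sv n (F.ls s t e c) ∈ τ.WK 3 Uall s (2 * (t : ℤ)) := fun c =>
      sv_mem hG hW fun i hi => ⟨((hl c).2 i hi).1, ((hl c).2 i hi).2.1⟩
    have hp : ∀ c, Rep (F.L s).z (F.L s).H 3600 ((F.L s).a * 0) (sumP (F.L s) (F.ls s t e c))
        ((F.L s).pk (sv n (F.ls s t e c))) := fun c =>
      (sumP_rep (F.L s) (fun i hi => ((hG _).1 ((hl c).2 i hi).1).1) (hl c).1).mono (hl c).1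
        (Nat.zero_le _)
    refine ⟨add_mem (hm 1) (nsmul_mem (hm 2) 2), ?_, fun hs' => ?_⟩
    · rw [FT.RV, FT.lit, pk_two]
      exact rep_two (hp 1) (hp 2) (by norm_num)
    · have h := apL_rep hM hA E (y := 0) (β := 0) hs' (by norm_num) ht le_rfl hl
      rwa [ex_zero, monomial_zero', C_1] at h
  · obtain ⟨hL, hp, hT, hG, hW⟩ := E.lay s hs.le
    obtain ⟨-, hp', -, -, -⟩ := E.lay (s + 1) hs
    have hb := E.b
    have hm : F.m + F.b = F.pi := Nat.sub_add_cancel hb.le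
    change Rep _ _ _ _ (Bool.rec (apL (F.M s) F.b (y * 64 + F.b) (dl (F.L s) v t 1 F.m)
      (dl (F.L s) v t 2 F.m)) (F.M s).L.T (Nat.ble (F.L s).T v)) _
    rcases le_or_gt (F.L s).T v with hx | hx
    · rw [Nat.ble_eq_true_of_le hx]
      exact Or.inl le_rfl
    rw [ble_false hx]
    obtain ⟨d1, d2⟩ := hD (F.L s) (ext u) t v F.m F.b hL (by omega) (by omega)
    refine Rep.congr (apL_rep hM hA E hs hy ht hm.le (l := fun c => dl (F.L s) v t c F.m) d1) ?_
    set Φ : (Fin n → Av F3) →+ R0 (F.L (s + 1)).H :=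
      (AddMonoidHom.mulLeft ((F.L (s + 1)).z ^ ((F.L (s + 1)).a * F.b))).comp
        ((pkH (F.L (s + 1)).kap (F.L (s + 1)).o).comp (τ.act 3 (monomial (ex y) 1))) with hΦ
    have h := d2 (fun h hh => ?_) hx ?_ _ (fun h => Φ.comp (inc n h)) fun h e c he => ?_
    · change Φ _ = Φ u
      simp only [AddMonoidHom.comp_apply, inc_ex] at h
      rw [← map_sum, sum_inc hG hu] at h
      rw [h, map_add, map_nsmul, sv, sv, map_list_sum, map_list_sum, List.map_map, List.map_map]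
      rfl
    · obtain ⟨hh', -⟩ := (hG _).1 hh
      have := (hu.1 ⟨h, hh'⟩).2
      rwa [hW, ← show ext u h = u ⟨h, hh'⟩ from dif_pos hh'] at this
    · refine (Rep.mono hv (by norm_num) le_rfl).of_eq ?_
      conv_lhs => rw [← sum_inc hG hu, (F.L s).pk_eq, pk_sum]
      exact Finset.sum_congr rfl fun h hh =>
        pk_inc _ ((hG _).1 (List.mem_toFinset.1 hh)).1 _
    · obtain ⟨d, rfl⟩ := le_iff_exists_add.1 (Finsupp.single_le_iff.2 he)
      rw [← one_mul c, ← monomial_mul, ← X_pow_eq_monomial, AddMonoidHom.comp_apply, inc_vs]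
      rw [hΦ, AddMonoidHom.comp_apply, AddMonoidHom.comp_apply, pkH_apply,
        AddMonoidHom.coe_mulLeft, act_vs, vs, pk_smul, map_pow, Lay.kap_X0, ← mul_assoc, ← pow_mul, ← pow_add, ← mul_add,
        add_comm F.b, hm, ← hp', ← Lay.H_eq, Lay.hz, zero_mul]

end Vale.Agent.P236K.Cert
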