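import Vale.Agent.P236K.Cert.FProg
import Vale.Agent.P236K.Cert.Lay

/-!
# P236K / Cert / FProd : soundness of the test of the products
-/

set_option linter.unusedSectionVars false

noncomputable section

namespace Vale.Agent.P236K.Cert

open Vale.Agent.P236K.Alg MvPolynomial

namespace Fp

theorem an_iff {a b : Bool} : an a b = true ↔ a = true ∧ b = true := by
  cases a <;> cases b <;> simp [an]

theorem fS_eq' {α : Type} (n : ℕ) (f : ℕ → α) : fS n f = f n := id (fS_eq n f)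

section eqs

variable (F : FT) (s t x i c y : ℕ) (o o' : Opr) (q : ℕ × ℕ) (l : List (ℕ × ℕ)) (r : List ℕ)

theorem ev_h : F.ev s t x (.h y o) = F.ap (s + o.sd) (t + o.wt) y (F.ev s t x o) :=
  (fS_eq' _ _).trans ((fS_eq' _ _).trans (fS_eq' _ _))

theorem ev_v : F.ev s t x (.v y o) = F.nf (s + o.sd) F.b
    (Nat.shiftLeft (F.ev s t x o) (16 * (F.L (s + o.sd)).sh y)) :=
  (fS_eq' _ _).trans (fS_eq' _ _)

theorem ev_add : F.ev s t x (.add o o') =
    F.nf (s + o.sd) F.b (Nat.add (F.ev s t x o) (F.ev s t x o')) := (fS_eq' _ _).trans (fS_eq' _ _)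

theorem ev_two : F.ev s t x (.two o) = F.nf (s + o.sd) F.b (Nat.shiftLeft (F.ev s t x o) 1) :=
  (fS_eq' _ _).trans (fS_eq' _ _)

theorem rp_eq : F.rp s t i x = Nat.shiftLeft (F.pa s (t - i) x) (16 * (F.L s).a * i) := fS_eq' _ _

theorem axp_eq : F.axp s t i x c y =
    F.nf s F.b (Nat.add y (Nat.mul (F.rp s t i x) (c % 3))) := fS_eq' _ _

theorem subP_cons : F.subP s t (q :: l) (c :: r) y = Bool.rec (motive := fun _ => ℕ)
    (F.subP s t l r (F.axp s t q.1 q.2 (2 * c) y)) (F.subP s t l r y) (Nat.beq c 0) :=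
  congrArg (fun z => Bool.rec (motive := fun _ => ℕ) z (F.subP s t l r y) (Nat.beq c 0))
    ((fS_eq' _ _).trans ((fS_eq' _ _).trans (fS_eq' _ _)))

theorem red_cons : ∃ (c : ℕ) (b : Bool), F.red s t (q :: l) y = Bool.rec (motive := fun _ => ℕ)
    (F.red s t l (F.axp s t q.1 q.2 c y)) (F.red s t l y) b :=
  ⟨_, _, (fS_eq' _ _).trans ((fS_eq' _ _).trans ((fS_eq' _ _).trans
    (congrArg (fun z => Bool.rec (motive := fun _ => ℕ) z (F.red s t l y) _) (fS_eq' _ _))))⟩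

theorem ddB_eq : F.ddB s t i x = an (Nat.blt 0 (eT (F.en s (t - i) x)))
    (an (Nat.ble (eK (F.en s (t - i) x)) i) (Nat.blt (eK (F.en s (t - i) x)) F.pi)) :=
  (fS_eq' _ _).trans (fS_eq' _ _)

theorem one_eq (s' t' : ℕ) : F.one o s t s' t' i x r = Nat.beq (F.red s' t' (F.dead s' t')
    (F.subP s' t' (F.alv s' t') r (F.nf s' F.b (F.ev s t (F.rp s t i x) o)))) 0 :=
  (fS_eq' _ _).trans ((fS_eq' _ _).trans ((fS_eq' _ _).trans (fS_eq' _ _)))

/-- the test of the rows -/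
def rws (f : ℕ → ℕ → List ℕ → Bool) (l : List (ℕ × ℕ)) : List (List ℕ) → Bool :=
  List.rec (motive := fun _ => List (List ℕ) → Bool) (fun _ => true) (fun q _ r P =>
    Bool.rec false (r P.tail) (fS q.1 fun i => fS q.2 fun x => f i x (P.headD []))) l

theorem prod_eq (P : List (List ℕ)) : F.prod o s t P =
    an (an o.ok (an (Nat.ble (s + o.sd) F.S) (Nat.ble (t + o.wt) F.T)))
      (rws (F.one o s t (s + o.sd) (t + o.wt)) (F.alv s t) P) := (fS_eq' _ _).trans (fS_eq' _ _)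

theorem ok_h : (Opr.h y o).ok = an (Nat.blt y 268435456) o.ok := rfl

theorem ok_add : (Opr.add o o').ok =
    an (an o.ok o'.ok) (an (Nat.beq o.sd o'.sd) (Nat.beq o.wt o'.wt)) := rfl

end eqs

variable [PL 3 F3] {n : ℕ} {τ : Tw F3 (Fin n)} {F : FT} {N : ℤ}

theorem RV.nf {s β b x : ℕ} {u : Fin n → Av F3}
    (h : Rep (F.L s).z (F.L s).H b ((F.L s).a * β) x ((F.L s).pk u)) (hb : b ≤ 383) :
    F.RV s β (F.nf s β x) u := Rep.nr1 h hb

theorem act_mem {A : UpperSet Ex} (H : τ.Ok 3 N A) (y : ℕ) {s t : ℕ} {u : Fin n → Av F3}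
    (hu : u ∈ τ.WK 3 Uall s (2 * (t : ℤ))) :
    τ.act 3 (monomial (ex y) 1) u ∈ τ.WK 3 Uall (s + 1) (2 * ((t + w4 y : ℕ) : ℤ)) := by
  have h := H.Lx_all (a := 1) (x := be1 3 F3 0 (monomial (ex y) 1)) ⟨lev_be1 0 _, by
    rw [be1_monomial]
    exact wt_lv.2 (isWeightedHomogeneous_monomial _ _ _ (wE_ex y)), mem_JM_all _⟩ hu
  rw [Tw.Lx_be1] at h
  convert h using 2
  push_cast
  ring

theorem mon_mem (k : ℕ) {s t : ℕ} {u : Fin n → Av F3} (hu : u ∈ τ.WK 3 Uall s (2 * (t : ℤ))) :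
    (monomial (ex k) 1 : Av F3) • u ∈ τ.WK 3 Uall s (2 * ((t + w4 k : ℕ) : ℤ)) := by
  refine ⟨fun g => ⟨fun h => by rw [Pi.smul_apply, (hu.1 g).1 h, smul_zero], ?_⟩,
    fun _ => mem_JA_all _⟩
  have h := (isWeightedHomogeneous_monomial (wz 3) (ex k) (1 : F3) (wE_ex k)).mul (hu.1 g).2
  rwa [show 2 * (w4 k : ℤ) + (2 * (t : ℤ) - τ.dg g) = 2 * ((t + w4 k : ℕ) : ℤ) - τ.dg g by
    push_cast; ring] at h

theorem pk_shift (L : Lay) {β x j m : ℕ} {u u' : Fin n → Av F3}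
    (h : Rep L.z L.H 2 (L.a * β) x (L.pk u)) (hm : m = 16 * j) (e : L.pk u' = L.z ^ j * L.pk u) :
    Rep L.z L.H 2 (L.a * β) (Nat.shiftLeft x m) (L.pk u') := by
  have h1 := Rep.shift (s := j) (s' := 0) (c := 0) (n := m) L.hz (j := L.a * β) h (Nat.zero_le _)
    hm (by norm_num)
  rwa [pow_zero, one_mul, pow_zero, one_mul, ← e] at h1

theorem ev_rep (hA : ApStmt) (E : F.Env τ N) {s t x : ℕ} {u : Fin n → Av F3}
    (hu : u ∈ τ.WK 3 Uall s (2 * (t : ℤ))) (hx : F.RV s F.b x u) (o : Opr) (ho : o.ok = true)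
    (hs : s + o.sd ≤ F.S) (ht : t + o.wt ≤ F.T) :
    o.sem τ u ∈ τ.WK 3 Uall (s + o.sd) (2 * ((t + o.wt : ℕ) : ℤ)) ∧
      F.RV (s + o.sd) F.b (F.ev s t x o) (o.sem τ u) := by
  induction o with
  | id => exact ⟨hu, hx⟩
  | h y o ih =>
    rw [ok_h, an_iff, Nat.blt_eq] at ho
    change s + o.sd + 1 ≤ _ at hs
    change t + (o.wt + w4 y) ≤ _ at ht
    obtain ⟨h3, h4⟩ := ih ho.2 (by omega) (by omega)
    rw [ev_h]
    refine ⟨?_, (hA n τ F N E).2 _ hs (t + o.wt) y _ _ ho.1 (by omega) h3 h4⟩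
    have h5 := act_mem E.ok y h3
    rw [add_assoc t] at h5
    exact h5
  | v k o ih =>
    change t + (o.wt + w4 k) ≤ _ at ht
    obtain ⟨h3, h4⟩ := ih ho hs (by omega)
    have h5 := mon_mem k h3
    rw [add_assoc t] at h5
    rw [ev_v]
    refine ⟨h5, RV.nf (pk_shift _ h4 rfl ?_) (by norm_num)⟩
    exact (pk_smul _ _ _ _).trans (by rw [Lay.kap_ex]; rfl)
  | add o o' ih ih' =>
    rw [ok_add, an_iff, an_iff, an_iff, Nat.beq_eq, Nat.beq_eq] at ho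
    obtain ⟨⟨h1, h1'⟩, e1, e2⟩ := ho
    obtain ⟨h3, h4⟩ := ih h1 hs ht
    obtain ⟨h5, h6⟩ := ih' h1' (e1 ▸ hs) (e2 ▸ ht)
    rw [← e1] at h5 h6
    rw [← e2] at h5
    rw [ev_add]
    exact ⟨add_mem h3 h5, RV.nf ((h4.add h6 (by norm_num)).of_eq (pk_add _ _ _ _).symm)
      (by norm_num)⟩
  | two o ih =>
    obtain ⟨h3, h4⟩ := ih ho hs ht
    have h1 := Rep.shift (s := 0) (s' := 0) (c := 1) (n := 1) (F.L (s + o.sd)).hz h4 le_rfl rfl
      (by norm_num)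
    rw [ev_two]
    refine ⟨add_mem h3 h3, RV.nf (h1.of_eq ?_) (by norm_num)⟩
    rw [pow_one, pow_zero, mul_one, two_mul]
    exact (pk_add _ _ _ _).symm

/-- the vector of a pair -/
def vq (F : FT) (τ : Tw F3 (Fin n)) (s t : ℕ) (q : ℕ × ℕ) : Fin n → Av F3 :=
  vs q.1 (F.al τ s (t - q.1) q.2)

/-- the combination which is subtracted -/
def lc (f : ℕ × ℕ → Fin n → Av F3) : List (ℕ × ℕ) → List ℕ → Fin n → Av F3
  | q :: l, c :: r => (c : F3) • f q + lc f l r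
  | _, _ => 0

theorem lc_eq (f : ℕ × ℕ → Fin n → Av F3) (l : List (ℕ × ℕ)) (c : List ℕ) : lc f l c =
    ∑ j ∈ Finset.range l.length, ((c.getD j 0 : ℕ) : F3) • f (l.getD j (0, 0)) := by
  induction l generalizing c with
  | nil => simp [lc]
  | cons q l ih =>
    rcases c with _ | ⟨c, r⟩
    · simp [lc]
    · rw [lc, ih, List.length_cons, Finset.sum_range_succ', add_comm]
      rfl

variable {s t : ℕ} (hR : ∀ i ≤ t, ∀ x < F.cnt s (t - i), F.RV s F.b (F.pa s (t - i) x)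
  (F.al τ s (t - i) x))

include hR

theorem rp_rep {q : ℕ × ℕ} (hq : q.1 ≤ t ∧ q.2 < F.cnt s (t - q.1)) :
    F.RV s F.b (F.rp s t q.1 q.2) (vq F τ s t q) := by
  rw [rp_eq]
  exact pk_shift _ (hR _ hq.1 _ hq.2) (mul_assoc _ _ _) ((F.L s).pw.pk_v _ _)

theorem axp_rep {q : ℕ × ℕ} (hq : q.1 ≤ t ∧ q.2 < F.cnt s (t - q.1)) (c : ℕ) {y : ℕ}
    {u : Fin n → Av F3} (hy : F.RV s F.b y u) :
    F.RV s F.b (F.axp s t q.1 q.2 c y) (u + (c : F3) • vq F τ s t q) := by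
  have h0 : c % 3 < 3 := Nat.mod_lt _ (by norm_num)
  have h1 := ((rp_rep hR hq).mul_nat (c := c % 3) (by omega)).mono (β' := 4) (by omega) le_rfl
  rw [axp_eq]
  refine RV.nf ((hy.add h1 (by norm_num)).of_eq ?_) (by norm_num)
  rw [cast_mod_three (F.L s).h3, Nat.cast_smul_eq_nsmul, ← nsmul_eq_mul]
  have h2 := map_add (pkH (F.L s).kap (F.L s).o) u (c • vq F τ s t q)
  rw [map_nsmul] at h2
  exact h2.symm

theorem subP_rep {l : List (ℕ × ℕ)} (hl : ∀ q ∈ l, q.1 ≤ t ∧ q.2 < F.cnt s (t - q.1))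
    (c : List ℕ) {y : ℕ} {u : Fin n → Av F3} (hy : F.RV s F.b y u) :
    F.RV s F.b (F.subP s t l c y) (u - lc (vq F τ s t) l c) := by
  induction l generalizing c y u with
  | nil => rw [show lc (vq F τ s t) [] c = 0 by cases c <;> rfl, sub_zero]; exact hy
  | cons q l ih =>
    rcases c with _ | ⟨c, r⟩
    · rw [show lc (vq F τ s t) (q :: l) [] = 0 from rfl, sub_zero]
      exact hy
    · have hl' := fun q' hq' => hl q' (List.mem_cons_of_mem _ hq')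
      rw [subP_cons, lc]
      rcases h : Nat.beq c 0 with _ | _
      · have h1 := ih hl' r (axp_rep hR (hl q List.mem_cons_self) (2 * c) hy)
        rwa [Nat.cast_mul, show ((2 : ℕ) : F3) = -1 from rfl, neg_one_mul, neg_smul,
          ← sub_eq_add_neg, sub_sub] at h1
      · rw [Nat.eq_of_beq_eq_true h, Nat.cast_zero, zero_smul, zero_add]
        exact ih hl' r hy

theorem red_rep {K : AddSubgroup (Fin n → Av F3)} {l : List (ℕ × ℕ)}
    (hl : ∀ q ∈ l, (q.1 ≤ t ∧ q.2 < F.cnt s (t - q.1)) ∧ vq F τ s t q ∈ K) {y : ℕ}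
    {u : Fin n → Av F3} (hy : F.RV s F.b y u) : ∃ w ∈ K, F.RV s F.b (F.red s t l y) (u + w) := by
  induction l generalizing y u with
  | nil => exact ⟨0, zero_mem _, by rw [add_zero]; exact hy⟩
  | cons q l ih =>
    have hl' := fun q' hq' => hl q' (List.mem_cons_of_mem _ hq')
    obtain ⟨c, b, e⟩ := red_cons F s t y q l
    rw [e]
    rcases b with _ | _
    · obtain ⟨w, hw, h1⟩ := ih hl' (axp_rep hR (hl q List.mem_cons_self).1 c hy)
      rw [add_assoc] at h1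
      exact ⟨_, add_mem (ZMod.smul_mem (hl q List.mem_cons_self).2 _) hw, h1⟩
    · exact ih hl' hy

omit hR in
theorem mem_dead {q : ℕ × ℕ} (h : q ∈ F.dead s t) : q.1 ≤ t ∧ q.2 < F.cnt s (t - q.1) ∧
    0 < eT (F.en s (t - q.1) q.2) ∧ eK (F.en s (t - q.1) q.2) ≤ q.1 ∧
      eK (F.en s (t - q.1) q.2) < F.pi := by
  obtain ⟨i, h1, h2⟩ := List.mem_flatMap.1 h
  obtain ⟨x, h3, rfl⟩ := List.mem_map.1 h2
  obtain ⟨h4, h5⟩ := List.mem_filter.1 h3
  rw [List.mem_range] at h1 h4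
  rw [ddB_eq, an_iff, an_iff, Nat.blt_eq, Nat.ble_eq, Nat.blt_eq] at h5
  exact ⟨by omega, h4, h5⟩

omit hR in
theorem rows_sound {f : ℕ → ℕ → List ℕ → Bool} {l : List (ℕ × ℕ)} {P : List (List ℕ)}
    (h : rws f l P = true) :
    ∀ j < l.length, f (l.getD j (0, 0)).1 (l.getD j (0, 0)).2 (P.getD j []) = true := by
  induction l generalizing P with
  | nil => exact fun j hj => absurd hj (Nat.not_lt_zero j)
  | cons q l ih =>
    obtain ⟨h1, h2⟩ := rec_and h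
    intro j hj
    rcases j with _ | j
    · rcases P with _ | ⟨r, P⟩ <;> exact h2
    · have h3 := ih h1 j (Nat.lt_of_succ_lt_succ hj)
      rcases P with _ | ⟨r, P⟩ <;> exact h3

end Fp

open Fp in
/-- block F3 -/
theorem prodStmt [PL 3 F3] (hA : ApStmt) : ProdStmt := by
  intro n τ F N E H hR o s t P h j hj
  rw [prod_eq, an_iff, an_iff, an_iff, Nat.ble_eq, Nat.ble_eq] at h
  obtain ⟨⟨ho, hs, ht⟩, h2⟩ := h
  have h3 := rows_sound h2 j hj
  rw [one_eq, Nat.beq_eq] at h3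
  have hal : ∀ s t, ∀ q ∈ F.alv s t, q.1 ≤ t ∧ q.2 < F.cnt s (t - q.1) := fun s t q hq =>
    have := (Bar.mem_alv (B := F.bar τ) (i := q.1) (x := q.2)).1 hq
    ⟨this.2.1, this.2.2.1⟩
  have hv : ∀ s ≤ F.S, ∀ t ≤ F.T, ∀ q : ℕ × ℕ, q.1 ≤ t ∧ q.2 < F.cnt s (t - q.1) →
      vq F τ s t q ∈ τ.WK 3 Uall s (2 * (t : ℤ)) := fun s hs t ht q hq =>
    vs_WK _ ((H.bas s hs _ (by omega)).hom _ hq.2) (by rw [Nat.cast_sub hq.1]; ring)
  have hq := hal s t _ (List.getD_eq_getElem _ (0, 0) hj ▸ List.getElem_mem hj)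
  have hR1 := fun i (_ : i ≤ t) => hR s (by omega) (t - i) (by omega)
  have hR2 := fun i (_ : i ≤ t + o.wt) => hR _ hs (t + o.wt - i) (by omega)
  obtain ⟨h4, h5⟩ := ev_rep hA E (hv s (by omega) t (by omega) _ hq) (rp_rep hR1 hq) o ho hs ht
  have hm : F.m ≤ F.pi := Nat.sub_le _ _
  obtain ⟨w, hw, h6⟩ := red_rep hR2 (K := τ.WK 3 Uall (s + o.sd) (2 * ((t + o.wt : ℕ) : ℤ)) ⊓
    τ.WT 3 (U1 F.m) (2 * ((t + o.wt : ℕ) : ℤ)) (s + o.sd)) (l := F.dead (s + o.sd) (t + o.wt))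
    (fun q hq => by
      obtain ⟨k1, k2, k3, k4, k5⟩ := mem_dead hq
      refine ⟨⟨k1, k2⟩, hv _ hs _ ht q ⟨k1, k2⟩, H.hit_WT hs (by omega) k2 ?_ k5 k4 ?_ ?_⟩
      · exact Bool.eq_false_iff.2 fun h => by
          have := Nat.eq_of_beq_eq_true h
          omega
      · change F.m + eK _ ≤ _
        omega
      · rw [Nat.cast_sub k1]
        ring)
    (subP_rep hR2 (hal _ _) (P.getD j []) (RV.nf h5 (by norm_num)))
  obtain ⟨hL, hp, hN, hG, hW⟩ := E.lay _ hs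
  rw [h3] at h6
  have h8 := Rep.val_eq h6 (Th_pos _)
  rw [val_zero, mul_zero, lc_eq] at h8
  have h9 := (F.L _).pw.mem_JW' ((F.L _).fai hL hG hW (ht.trans hN)) (add_mem (sub_mem h4
    (sum_mem fun l hl => ZMod.smul_mem (hv _ hs _ ht _ (hal _ _ _ (List.getD_eq_getElem _ (0, 0)
      (Finset.mem_range.1 hl) ▸ List.getElem_mem (Finset.mem_range.1 hl)))) _)) hw.1)
    (j := F.m) (by
      rw [Lay.cv_0, Lay.H_eq, hp, ← mul_add]
      exact congrArg _ (Nat.add_sub_cancel' E.b.le)) h8.symm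
  have h10 := sub_mem (Tw.mem_WT_of_JW h9) hw.2
  rw [add_sub_cancel_right] at h10
  exact h10

end Vale.Agent.P236K.Cert
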