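import Vale.Agent.P236K.Cert.FProg
import Vale.Agent.P236K.Cert.Dec

/-!
# P236K / Cert / Fact : soundness of the test of the barcode
-/

set_option linter.unusedSectionVars false

noncomputable section

namespace Vale.Agent.P236K.Cert

open Vale.Agent.P236K.Alg MvPolynomial

namespace Fc

theorem an_iff {a b : Bool} : an a b = true ↔ a = true ∧ b = true := by
  cases a <;> simp [an]

theorem orr_iff {a b : Bool} : orr a b = true ↔ a = true ∨ b = true := by
  cases a <;> simp [orr]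

theorem rec_true {α : Type} {a b : α} {c : Bool} (h : c = true) : (Bool.rec a b c : α) = b := by
  subst h; rfl

theorem rec_false {α : Type} {a b : α} {c : Bool} (h : c = false) : (Bool.rec a b c : α) = a := by
  subst h; rfl

theorem beq_false {x y : ℕ} (h : x ≠ y) : Nat.beq x y = false := by
  rw [← Bool.not_eq_true, Nat.beq_eq]; exact h

theorem of_rec {a c : Bool} (h : (Bool.rec false a c : Bool) = true) : c = true ∧ a = true := by
  cases c
  · exact absurd h (by simp)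
  · exact ⟨rfl, h⟩

theorem nth_zero (a : ℕ) (l : List ℕ) : nth (a :: l) 0 = a := rfl
theorem nth_succ (a : ℕ) (l : List ℕ) (x : ℕ) : nth (a :: l) (x + 1) = nth l x := rfl
theorem lng_cons (a : ℕ) (l : List ℕ) : lng (a :: l) = lng l + 1 := rfl

theorem nth_eq (l : List ℕ) (x : ℕ) : nth l x = l.getD x 0 := by
  induction l generalizing x with
  | nil => rfl
  | cons a l ih =>
    cases x with
    | zero => rfl
    | succ x => rw [nth_succ, ih, List.getD_cons_succ]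

theorem lng_eq (l : List ℕ) : lng l = l.length := by
  induction l with
  | nil => rfl
  | cons a l ih => rw [lng_cons, ih, List.length_cons]

theorem allI_sound {f : ℕ → ℕ → Bool} {l : List ℕ} {c : ℕ} (h : allI f l c = true) :
    ∀ x < lng l, f (c + x) (nth l x) = true := by
  induction l generalizing c with
  | nil => exact fun x hx => absurd hx (Nat.not_lt_zero x)
  | cons a l ih =>
    obtain ⟨h1, h2⟩ := of_rec h
    intro x hx
    cases x with
    | zero => exact h1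
    | succ x =>
      rw [nth_succ, ← add_assoc, add_right_comm]
      exact ih h2 x (by rw [lng_cons] at hx; omega)

theorem incE_sound {a : ℕ} {l : List ℕ} {c : ℕ} (h : incE a l c = true) : c ≤ a ∧
    (∀ x < lng l, c ≤ eL (nth l x) ∧ eL (nth l x) < a) ∧
      ∀ x' < lng l, ∀ x < x', eL (nth l x) < eL (nth l x') := by
  induction l generalizing c with
  | nil => exact ⟨Nat.le_of_ble_eq_true h, fun x hx => absurd hx (Nat.not_lt_zero x),
      fun x hx => absurd hx (Nat.not_lt_zero x)⟩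
  | cons e l ih =>
    obtain ⟨h1, h2⟩ := of_rec h
    obtain ⟨h3, h4, h5⟩ := ih (c := eL e + 1) h2
    have h6 : c ≤ eL e := Nat.le_of_ble_eq_true h1
    refine ⟨by omega, fun x hx => ?_, fun x' hx' x hx => ?_⟩
    · cases x with
      | zero => rw [nth_zero]; omega
      | succ x =>
        have := h4 x (by rw [lng_cons] at hx; omega)
        rw [nth_succ]; omega
    · obtain ⟨y, rfl⟩ : ∃ y, x' = y + 1 := ⟨x' - 1, by omega⟩
      rw [lng_cons] at hx'
      cases x with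
      | zero =>
        have := h4 y (by omega)
        rw [nth_succ, nth_zero]; omega
      | succ x => exact h5 y (by omega) x (by omega)

theorem mskE_sound {l : List ℕ} {p : ℕ} (h : (mskE l).testBit p = true) :
    ∃ x < lng l, p = 16 * eL (nth l x) := by
  induction l with
  | nil => exact absurd h (by simp [mskE])
  | cons e l ih =>
    change ((1 <<< (16 * eL e)) ||| mskE l).testBit p = true at h
    rw [Nat.testBit_or, Bool.or_eq_true, Nat.one_shiftLeft, Nat.testBit_two_pow,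
      decide_eq_true_eq] at h
    rcases h with h | h
    · exact ⟨0, Nat.succ_pos _, h.symm⟩
    · obtain ⟨x, h1, h2⟩ := ih h
      exact ⟨x + 1, Nat.succ_lt_succ h1, h2⟩

theorem covE_sound {m : ℕ} {l : List (ℕ × ℕ)} (h : covE m l = true) :
    ∀ q ∈ l, m.testBit q.1 = true := by
  induction l with
  | nil => exact fun q hq => absurd hq (by simp)
  | cons p l ih =>
    obtain ⟨h1, h2⟩ := of_rec h
    intro q hq
    rcases List.mem_cons.1 hq with rfl | hq
    · have h3 : m >>> q.1 &&& 1 = 1 := Nat.eq_of_beq_eq_true h1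
      rw [Nat.testBit, Nat.and_comm, h3]
      rfl
    · exact ih h2 q hq

theorem ldB_sound {T x n : ℕ} (h : ldB T x n = true) :
    x < T ∧ x % 65536 ^ n = 0 ∧ lane x n % 3 ≠ 0 := by
  obtain ⟨h1, h2⟩ := an_iff.1 h
  obtain ⟨h3, h4⟩ := an_iff.1 h2
  have h5 : x % 1 <<< (16 * n) = 0 := Nat.eq_of_beq_eq_true h3
  have h6 : 0 < (x >>> (16 * n) &&& (2 ^ 16 - 1)) % 3 := Nat.blt_eq ▸ h4
  rw [Nat.one_shiftLeft, pow_mul] at h5
  rw [Nat.and_two_pow_sub_one_eq_mod, Nat.shiftRight_eq_div_pow] at h6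
  exact ⟨Nat.blt_eq ▸ h1, h5, h6.ne'⟩

theorem lane_shr (D n p : ℕ) : lane (Nat.shiftRight D (16 * n)) p = lane D (p + n) := by
  change lane (D >>> (16 * n)) p = _
  rw [Nat.shiftRight_eq_div_pow, lane, lane, Nat.div_div_eq_div_mul, ← pow_add, ← mul_add,
    add_comm n p]

/-- division by a power of the variable -/
theorem rep_shr {H β D n j : ℕ} {r : R0 H} (h : Rep (z0 H) H β 0 D (z0 H ^ n * r)) (hD : D < Th H)
    (hj : j + n = H) :
    Rep (z0 H) H β n (Nat.land (Nat.shiftRight D (16 * n)) (msk j)) r := by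
  refine Or.inr ⟨fun p hp => ?_, ext_co fun p hp => ?_⟩
  · rw [lane_msk]
    split_ifs with h1
    · rw [lane_shr]
      exact h.lane_le hD _ (by omega)
    · exact Nat.zero_le _
  · rw [h.co_eq hD (by omega), co_mul_pow hp]
    split_ifs with h1
    · rw [co_val (by omega), lane_msk, if_pos (by omega), lane_shr, Nat.sub_add_cancel h1]
    · rw [← h.co_eq hD (by omega), co_mul_pow hp, if_neg h1]

theorem lead_unshift {H n j : ℕ} {r : R0 H} (h : Lead H (z0 H ^ j * r) (j + n)) (hn : j + n < H) :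
    Lead H r n := by
  refine ⟨?_, fun q hq => ?_⟩
  · have := h.1
    rwa [co_mul_pow hn, if_pos (by omega), Nat.add_sub_cancel_left] at this
  · have := h.2 (j + q) (by omega)
    rwa [co_mul_pow (by omega), if_pos (by omega), Nat.add_sub_cancel_left] at this

variable [PL 3 F3] {n : ℕ} {τ : Tw F3 (Fin n)}

theorem quo_spec {s t k : ℕ} {u : Fin n → Av F3}
    (h : ∃ y ∈ τ.WK 3 Uall s (2 * (t : ℤ)), u = vs k y) :
    quo τ s t k u ∈ τ.WK 3 Uall s (2 * (t : ℤ)) ∧ u = vs k (quo τ s t k u) := by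
  rw [quo, dif_pos h]
  exact h.choose_spec

theorem pk_vs (L : Lay) (k : ℕ) (u : Fin n → Av F3) :
    L.pk (vs k u) = z0 L.H ^ (L.a * k) * L.pk u := L.pw.pk_v k u

variable {F : FT} {N : ℤ}

theorem fwd_sound {s t x e : ℕ} (h : F.fwd s t x e = true) : eK e ≤ t ∧
    eP e < F.cnt (s + 1) (t - eK e) ∧ eT (F.en (s + 1) (t - eK e) (eP e)) ≠ 0 ∧
    eK (F.en (s + 1) (t - eK e) (eP e)) = eK e ∧ eP (F.en (s + 1) (t - eK e) (eP e)) = x ∧
    (eT (F.en (s + 1) (t - eK e) (eP e)) = 1 → ldB (F.L (s + 1)).T (F.dX s t e)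
      ((F.L (s + 1)).a * eK e + eL (F.en (s + 1) (t - eK e) (eP e))) = true) ∧
    (eT (F.en (s + 1) (t - eK e) (eP e)) ≠ 1 → F.nf (s + 1) 0 (Nat.add (F.dX s t e)
      (Nat.shiftLeft (F.pl (s + 1) (t - eK e) (F.en (s + 1) (t - eK e) (eP e)))
        (16 * (F.L (s + 1)).a * eK e + 1))) = 0) := by
  obtain ⟨h1, h2⟩ := an_iff.1 h
  simp only [an_iff, Nat.ble_eq, Nat.blt_eq, Nat.beq_eq] at h1
  refine ⟨h1.1.1, h1.1.2, h1.2.1.ne', h1.2.2.1, h1.2.2.2, fun h3 => ?_, fun h3 => ?_⟩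
  · exact (rec_true (Nat.beq_eq ▸ h3)).symm.trans h2
  · exact Nat.eq_of_beq_eq_true ((rec_false (beq_false h3)).symm.trans h2)

theorem bwd_sound {s t x e : ℕ} (h : F.bwd s t x e = true) : 0 < s ∧ t + eK e ≤ F.T ∧
    eP e < F.cnt (s - 1) (t + eK e) ∧ eT (F.en (s - 1) (t + eK e) (eP e)) = 0 ∧
    eK (F.en (s - 1) (t + eK e) (eP e)) = eK e ∧ eP (F.en (s - 1) (t + eK e) (eP e)) = x := by
  obtain ⟨h1, h2⟩ := an_iff.1 h
  simp only [an_iff, Nat.ble_eq, Nat.blt_eq, Nat.beq_eq] at h1 h2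
  exact ⟨h1.1.1, h1.1.2, h1.2, h2.1, h2.2.1, h2.2.2⟩

theorem ent_zero {s t x e : ℕ} (h : F.ent s t x e = true) (h0 : eT e = 0) : eK e < F.pi ∧
    ldB (F.L s).T (F.pl s t e) (eL e) = true ∧ (s < F.S → F.fwd s t x e = true) := by
  rw [FT.ent, rec_true (Nat.beq_eq ▸ h0)] at h
  simp only [an_iff, orr_iff, Nat.ble_eq, Nat.blt_eq] at h
  exact ⟨h.1.1, h.1.2, fun h1 => h.2.resolve_left (by omega)⟩

theorem ent_one {s t x e : ℕ} (h : F.ent s t x e = true) (h1 : eT e = 1) :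
    eK e ≤ F.b ∧ F.bwd s t x e = true := by
  rw [FT.ent, rec_false (beq_false (by omega)), rec_true (Nat.beq_eq ▸ h1)] at h
  simpa only [an_iff, Nat.ble_eq] using h

theorem ent_two {s t x e : ℕ} (h : F.ent s t x e = true) (h0 : eT e ≠ 0) (h1 : eT e ≠ 1) :
    ldB (F.L s).T (F.pl s t e) (eL e) = true ∧ (eK e < F.pi → F.bwd s t x e = true) ∧
      (s < F.S → 0 < eK e → F.dX s t e = 0) := by
  rw [FT.ent, rec_false (beq_false h0), rec_false (beq_false h1)] at h
  simp only [an_iff, orr_iff, Nat.ble_eq, Nat.beq_eq] at h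
  exact ⟨h.1, fun h2 => h.2.1.resolve_left (by omega),
    fun h2 h3 => h.2.2.resolve_left (by omega)⟩

theorem al_lit {s t x : ℕ} (h : eT (F.en s t x) ≠ 1) :
    F.al τ s t x = F.lit n s t (F.en s t x) := if_neg h

theorem pa_lit {s t x : ℕ} (h : eT (F.en s t x) ≠ 1) :
    F.pa s t x = F.pl s t (F.en s t x) := rec_false (beq_false h)

section main

variable (hA : ApStmt) (E : F.Env τ N) (C : ∀ s ≤ F.S, ∀ t ≤ F.T, F.chk s t = true)

include C in
theorem ent_ok {s t x : ℕ} (hs : s ≤ F.S) (ht : t ≤ F.T) (hx : x < F.cnt s t) :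
    F.ent s t x (F.en s t x) = true := by
  have h := allI_sound (an_iff.1 (C s hs t ht)).2 x hx
  rwa [zero_add] at h

include E in
theorem lt_H {s k p : ℕ} (hs : s ≤ F.S) (hk : k < F.pi) (hp : p < (F.L s).a) :
    (F.L s).a * k + p < (F.L s).H := by
  have := Nat.mul_le_mul_left (F.L s).a (show k + 1 ≤ F.pi from hk)
  rw [Lay.H_eq, (E.lay s hs).2.1]
  rw [mul_add, mul_one] at this
  omega

include E in
theorem mem_J {s t : ℕ} (hs : s ≤ F.S) (ht : t ≤ F.T) {u : Fin n → Av F3}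
    (hu : u ∈ τ.WK 3 Uall s (2 * (t : ℤ))) (h : F.RV s 0 0 u) : u ∈ JW F3 (Fin n) (U1 F.pi) := by
  obtain ⟨l1, l2, l3, l4, l5⟩ := E.lay s hs
  refine (F.L s).pw.mem_JW' ((F.L s).fai l1 l4 l5 (ht.trans l3)) hu (i := (F.L s).a * 0)
    (by rw [mul_zero, zero_add, Lay.cv_0, Lay.H_eq, l2]) ?_
  have h1 := Rep.val_eq h (Th_pos _)
  rw [val_zero, mul_zero] at h1
  exact h1.symm

include hA E C

theorem lit_ok {s t x : ℕ} (hs : s ≤ F.S) (ht : t ≤ F.T) (hx : x < F.cnt s t) :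
    F.lit n s t (F.en s t x) ∈ τ.WK 3 Uall s (2 * (t : ℤ)) ∧
    F.RV s 0 (F.pl s t (F.en s t x)) (F.lit n s t (F.en s t x)) ∧
    (s < F.S → F.RV (s + 1) 0 (F.dX s t (F.en s t x)) (τ.dW 3 (F.lit n s t (F.en s t x)))) :=
  (hA n τ F N E).1 s hs t ht _ fun h => (ent_zero (ent_ok C hs ht hx) h).1

/-- a target defined by division -/
theorem quo_ok {s t x : ℕ} (hs : s ≤ F.S) (ht : t ≤ F.T) (hx : x < F.cnt s t)
    (h : eT (F.en s t x) = 1) : F.al τ s t x ∈ τ.WK 3 Uall s (2 * (t : ℤ)) ∧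
    τ.dW 3 (F.lit n (s - 1) (t + eK (F.en s t x)) (F.en (s - 1) (t + eK (F.en s t x))
      (eP (F.en s t x)))) = vs (eK (F.en s t x)) (F.al τ s t x) ∧
    Lead (F.L s).H ((F.L s).pk (F.al τ s t x)) (eL (F.en s t x)) ∧
    F.RV s F.b (F.pa s t x) (F.al τ s t x) := by
  obtain ⟨h1, h2⟩ := ent_one (ent_ok C hs ht hx) h
  obtain ⟨b1, b2, b3, b4, b5, b6⟩ := bwd_sound h2
  obtain ⟨s, rfl⟩ : ∃ r, s = r + 1 := ⟨s - 1, by omega⟩
  have hp := ((incE_sound (an_iff.1 (an_iff.1 (C _ hs t ht)).1).1).2.1 x hx).2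
  have e1 : F.pa (s + 1) t x = F.dv (s + 1) (eK (F.en (s + 1) t x)) (F.dX s
      (t + eK (F.en (s + 1) t x)) (F.en s (t + eK (F.en (s + 1) t x)) (eP (F.en (s + 1) t x)))) :=
    rec_true (Nat.beq_eq ▸ h)
  have e2 : F.al τ (s + 1) t x = quo τ (s + 1) t (eK (F.en (s + 1) t x)) (τ.dW 3 (F.lit n s
      (t + eK (F.en (s + 1) t x)) (F.en s (t + eK (F.en (s + 1) t x)) (eP (F.en (s + 1) t x))))) :=
    if_pos h
  rw [Nat.add_sub_cancel] at b3 b4 b5 b6 ⊢
  change eL (F.en (s + 1) t x) < _ at hp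
  obtain ⟨a1, -, a3⟩ := lit_ok hA E C (Nat.le_of_succ_le hs) b2 b3
  have h3 := (fwd_sound ((ent_zero (ent_ok C (Nat.le_of_succ_le hs) b2 b3) b4).2.2 hs)).2.2.2.2.2.1
  rw [b5, Nat.add_sub_cancel, b6] at h3
  obtain ⟨c1, c2, c3⟩ := ldB_sound (h3 h)
  generalize F.en s (t + eK (F.en (s + 1) t x)) (eP (F.en (s + 1) t x)) = e' at *
  generalize F.en (s + 1) t x = e at *
  have hk : eK e < F.pi := h1.trans_lt E.b
  have h4 := lt_H E hs hk hp
  have h5 : Lead _ _ _ := Rep.lead (a3 hs) c1 (by rwa [mul_zero, add_zero]) c3 c2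
  obtain ⟨l1, l2, l3, l4, l5⟩ := E.lay _ hs
  have h6 := E.ok.dW_mem inv_all a1
  have h7 := (F.L (s + 1)).pw.mem_JW ((F.L (s + 1)).fai l1 l4 l5 (b2.trans l3)) h6 (j := eK e)
    (by rw [Lay.cv_0]; omega) fun q hq => h5.2 q (by rw [Lay.cv_0] at hq; omega)
  obtain ⟨q1, q2⟩ := quo_spec (exists_vs (w' := 2 * (t : ℤ)) h6 h7 (by push_cast; ring))
  rw [← e2] at q1 q2
  refine ⟨q1, q2, ?_, ?_⟩
  · rw [q2, pk_vs] at h5
    exact lead_unshift h5 h4
  · have h8 := a3 hs
    rw [FT.RV, q2, pk_vs, mul_zero] at h8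
    rw [e1, FT.dv, rec_false (ble_false c1)]
    have h9 := rep_shr (j := (F.L (s + 1)).a * ((F.L (s + 1)).pi - eK e)) h8 c1 (by
      rw [← mul_add, Nat.sub_add_cancel (by omega), Lay.H_eq])
    rw [← mul_assoc] at h9
    exact h9.mono le_rfl (Nat.mul_le_mul_left _ h1)

theorem al_ok {s t x : ℕ} (hs : s ≤ F.S) (ht : t ≤ F.T) (hx : x < F.cnt s t) :
    F.al τ s t x ∈ τ.WK 3 Uall s (2 * (t : ℤ)) ∧
    Lead (F.L s).H ((F.L s).pk (F.al τ s t x)) (eL (F.en s t x)) ∧
    F.RV s F.b (F.pa s t x) (F.al τ s t x) := by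
  by_cases h : eT (F.en s t x) = 1
  · obtain ⟨h1, -, h2, h3⟩ := quo_ok hA E C hs ht hx h
    exact ⟨h1, h2, h3⟩
  · obtain ⟨a1, a2, -⟩ := lit_ok hA E C hs ht hx
    have hp := ((incE_sound (an_iff.1 (an_iff.1 (C _ hs t ht)).1).1).2.1 x hx).2
    have h1 : ldB (F.L s).T (F.pl s t (F.en s t x)) (eL (F.en s t x)) = true := by
      by_cases h0 : eT (F.en s t x) = 0
      · exact (ent_zero (ent_ok C hs ht hx) h0).2.1
      · exact (ent_two (ent_ok C hs ht hx) h0 h).1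
    obtain ⟨c1, c2, c3⟩ := ldB_sound h1
    rw [al_lit h, pa_lit h]
    refine ⟨a1, Rep.lead a2 c1 ?_ c3 c2, Rep.mono a2 le_rfl (Nat.mul_le_mul_left _ (Nat.zero_le _))⟩
    rw [add_comm]
    exact lt_H E hs (Nat.zero_lt_of_lt E.b) hp

theorem at_ok {s t : ℕ} (hs : s ≤ F.S) (ht : t ≤ F.T) : (F.bar τ).At τ s t := by
  obtain ⟨l1, l2, l3, l4, l5⟩ := E.lay s hs
  obtain ⟨c1, c2⟩ := an_iff.1 (an_iff.1 (C s hs t ht)).1
  obtain ⟨-, i1, i2⟩ := incE_sound c1
  refine (F.L s).pw.at ((F.L s).fai l1 l4 l5 (ht.trans l3)) (lx := fun x => eL (F.en s t x))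
    (Nat.le_mul_of_pos_right _ l1.2.1) (fun p hp => ?_) (fun x hx x' hx' e => ?_)
    (fun x hx => (i1 x hx).2) (fun x hx => (al_ok hA E C hs ht hx).1)
    fun x hx => (al_ok hA E C hs ht hx).2.1
  · obtain ⟨q, h1, h2⟩ := (F.L s).vm_of_isLn0 l1.2.2.2.1 l4 l5 (ht.trans l3) hp
    obtain ⟨x, h3, h4⟩ := mskE_sound (covE_sound c2 q h1)
    exact ⟨x, h3, by change eL (nth _ x) = p; omega⟩
  · change eL (nth _ x) = eL (nth _ x') at e
    rcases lt_trichotomy x x' with h | h | h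
    · exact absurd e (i2 x' hx' x h).ne
    · exact h
    · exact absurd e (i2 x hx x' h).ne'

theorem df_ok {s t : ℕ} (hs : s < F.S) (ht : t ≤ F.T) : (F.bar τ).Df τ F.pi s t := by
  refine ⟨fun x hx h => ?_, fun x hx h hl => ?_⟩
  · have h0 : eT (F.en s t x) = 0 := Nat.eq_of_beq_eq_true h
    obtain ⟨e1, -, e3⟩ := ent_zero (ent_ok C hs.le ht hx) h0
    obtain ⟨f1, f2, f3, f4, f5, -, f7⟩ := fwd_sound (e3 hs)
    obtain ⟨a1, -, a3⟩ := lit_ok hA E C hs.le ht hx
    change τ.dW 3 (F.al τ s t x) - vs (eK (F.en s t x))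
      (F.al τ (s + 1) (t - eK (F.en s t x)) (eP (F.en s t x))) ∈ _
    rw [al_lit (by omega)]
    have ht' : t - eK (F.en s t x) ≤ F.T := by omega
    by_cases h1 : eT (F.en (s + 1) (t - eK (F.en s t x)) (eP (F.en s t x))) = 1
    · have h2 := (quo_ok hA E C (s := s + 1) hs ht' f2 h1).2.1
      rw [f4, f5, Nat.add_sub_cancel, Nat.sub_add_cancel f1] at h2
      rw [h2, sub_self]
      exact zero_mem _
    · obtain ⟨b1, b2, -⟩ := lit_ok hA E C hs ht' f2
      rw [al_lit h1]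
      refine mem_J E hs ht (sub_mem (E.ok.dW_mem inv_all a1) (vs_WK _ b1 (by
        rw [Nat.cast_sub f1]; ring))) ?_
      have h2 := Rep.shift (F.L (s + 1)).hz (s := (F.L (s + 1)).a * eK (F.en s t x)) (s' := 0)
        (c := 1) (n := 16 * (F.L (s + 1)).a * eK (F.en s t x) + 1) b2 (Nat.zero_le _)
        (by rw [mul_assoc]) (by norm_num)
      have h3 := (Rep.add (a3 hs) h2 (by norm_num)).nr1 (by norm_num)
      have h4 := f7 h1
      rw [FT.nf] at h4
      rw [h4] at h3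
      refine h3.of_eq ?_
      rw [Lay.pk_eq, Lay.pk_eq, Lay.pk_eq, pk_sub, ← Lay.pk_eq _ (vs _ _), pk_vs, Lay.pk_eq]
      have h5 := (F.L (s + 1)).h3
      change _ + _ * z0 _ ^ _ * _ = _
      linear_combination (z0 (F.L (s + 1)).H ^ ((F.L (s + 1)).a * eK (F.en s t x)) *
        pk (F.L (s + 1)).kap (F.L (s + 1)).o (F.lit n (s + 1) (t - eK (F.en s t x))
          (F.en (s + 1) (t - eK (F.en s t x)) (eP (F.en s t x))))) * h5
  · have h0 : eT (F.en s t x) ≠ 0 := fun e => by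
      have : Nat.beq (eT (F.en s t x)) 0 = false := h
      rw [e] at this
      exact absurd this (by decide)
    change τ.dW 3 (F.al τ s t x) ∈ _
    by_cases h1 : eT (F.en s t x) = 1
    · obtain ⟨b1, b2, b3, -⟩ := bwd_sound (ent_one (ent_ok C hs.le ht hx) h1).2
      have h2 := (quo_ok hA E C hs.le ht hx h1).2.1
      have h3 := (lit_ok hA E C (by omega) b2 b3).1
      have h4 : τ.dW 3 (τ.dW 3 _) ∈ JW F3 (Fin n) (U1 (eK (F.en s t x) + F.pi)) :=
        ((E.ok.mono (fun e he => absurd he (not_mem_Unone e)) le_rfl).hyp1 h3F le_rfl (by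
          have := E.le; omega)).dW_dW h3
      rw [h2, dW_vs] at h4
      exact JW_of_vs h4
    · obtain ⟨a1, -, a3⟩ := lit_ok hA E C hs.le ht hx
      have h2 := a3 hs
      rw [(ent_two (ent_ok C hs.le ht hx) h0 h1).2.2 hs hl] at h2
      rw [al_lit h1]
      exact mem_J E hs ht (E.ok.dW_mem inv_all a1) h2

end main

end Fc

open Fc in
/-- block F2 -/
theorem goodStmt [PL 3 F3] (hA : ApStmt) : GoodStmt := by
  intro n τ F N E C
  refine ⟨⟨E.ok.mono (fun e he => absurd he (not_mem_Unone e)) le_rfl, Nat.zero_lt_of_lt E.b,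
    fun g => ?_, E.le, fun s hs t ht => at_ok hA E C hs ht, fun s hs t ht => ⟨fun x hx h => ?_⟩,
    fun s hs t ht x hx h hl => ?_, fun s hs t ht => df_ok hA E C hs ht⟩,
    fun s hs t ht x hx => (al_ok hA E C hs ht hx).2.2⟩
  · rw [(E.lay 0 (Nat.zero_le _)).2.2.2.2 g]
    positivity
  · obtain ⟨e1, -, e3⟩ := ent_zero (ent_ok C hs.le ht hx) (Nat.eq_of_beq_eq_true h)
    obtain ⟨f1, f2, f3, f4, f5, -⟩ := fwd_sound (e3 hs)
    exact ⟨f1, e1, f2, beq_false f3, f4, f5⟩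
  · have h0 : eT (F.en s t x) ≠ 0 := fun e => by
      have : Nat.beq (eT (F.en s t x)) 0 = false := h
      rw [e] at this
      exact absurd this (by decide)
    have h2 : F.bwd s t x (F.en s t x) = true := by
      by_cases h1 : eT (F.en s t x) = 1
      · exact (ent_one (ent_ok C hs ht hx) h1).2
      · exact (ent_two (ent_ok C hs ht hx) h0 h1).2.1 hl
    obtain ⟨b1, b2, b3, b4, b5, b6⟩ := bwd_sound h2
    exact ⟨b1, b2, b3, Nat.beq_eq ▸ b4, b5, b6⟩

theorem Fc.all_rec {α : Type} (f : α → Bool) {l : List α}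
    (h : (List.rec true (fun q _ r => Bool.rec false r (f q)) l : Bool) = true) :
    ∀ q ∈ l, f q = true := by
  induction l with
  | nil => exact fun q hq => absurd hq (by simp)
  | cons p l ih =>
    obtain ⟨h1, h2⟩ := Fc.of_rec h
    intro q hq
    rcases List.mem_cons.1 hq with rfl | hq
    · exact h1
    · exact ih h2 q hq

theorem FT.prods_sound {F : FT} {o : Opr} {l : List (ℕ × ℕ × List (List ℕ))}
    (h : F.prods o l = true) : ∀ q ∈ l, F.prod o q.1 q.2.1 q.2.2 = true := fun q hq => by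
  have h1 := Fc.all_rec (fun q : ℕ × ℕ × List (List ℕ) =>
    fS q.1 fun s => fS q.2.1 fun t => F.prod o s t q.2.2) h q hq
  rwa [fS_eq, fS_eq] at h1

end Vale.Agent.P236K.Cert
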