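import Vale.Agent.P236K.Cert.Prog

/-!
# P236K / Cert / Fast : faster versions of the programs (tables are turned into closures)
-/

noncomputable section

namespace Vale.Agent.P236K.Cert

open Vale.Agent.P236K.Alg

/-- a boxed function -/
inductive B1 : Type
  | mk (f : ℕ → ℕ) : B1

/-- a boxed expansion -/
inductive B2 : Type
  | mk (f : (ℕ → B1) → ℕ → ℕ) : B2

/-- a pair of functions -/
inductive B4 : Type
  | mk (f g : ℕ → ℕ) : B4

/-- the context of a group of entries -/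
inductive CX : Type
  | mk (e : ℕ) (c : ℕ → B1) (r : B4) : CX

/-- a boxed scan -/
inductive B3 : Type
  | mk (f : ℕ → CX → B4) : B3

/-- the sum over the terms -/
def cT (β : ℕ) (l : TL) : B2 :=
  TL.rec (B2.mk fun _ _ => nat_lit 0)
    (fun d => fS (Nat.succ d) fun d1 => fS (Nat.mod (Nat.add β d) 64) fun b => B2.mk fun g K =>
      Nat.rec (nat_lit 0) (fun m _ => Nat.add ((g b).1 m) (nat_lit 0)) (Nat.add K d1))
    (fun d sh => fS (Nat.succ d) fun d1 => fS (Nat.mod (Nat.add β d) 64) fun b => B2.mk fun g K =>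
      Nat.rec (nat_lit 0) (fun m _ => Nat.shiftLeft ((g b).1 m) sh) (Nat.add K d1))
    (fun d _ r => B2.rec (fun c => fS (Nat.succ d) fun d1 => fS (Nat.mod (Nat.add β d) 64) fun b =>
      B2.mk fun g K => Nat.rec (nat_lit 0) (fun m _ => Nat.add ((g b).1 m) (c g K))
        (Nat.add K d1)) r)
    (fun d sh _ r => B2.rec (fun c => fS (Nat.succ d) fun d1 =>
      fS (Nat.mod (Nat.add β d) 64) fun b => B2.mk fun g K => Nat.add
        (Nat.rec (nat_lit 0) (fun m _ => Nat.shiftLeft ((g b).1 m) sh) (Nat.add K d1)) (c g K)) r) l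

/-- with the small normal form -/
def cN1 (T M K7 : ℕ) (c : (ℕ → B1) → ℕ → ℕ) : B2 := B2.mk fun g K =>
  Bool.rec (Nat.sub (Nat.land (c g K) M) (Nat.mul (Nat.land (Nat.shiftRight
    (Nat.mul (Nat.land (c g K) M) (nat_lit 171)) (nat_lit 9)) K7) (nat_lit 3))) (c g K)
    (Nat.ble T (c g K))

/-- the table of a factor -/
def tabC (L : Lay) (D : ℕ → Pol.P) (f β : ℕ) : B2 :=
  TB.rec (fun d => cT β (TL.a1 d))
    (fun l => B2.rec (fun c => fS L.T fun T => fS (L.cm β) fun M => fS L.K fun K7 => cN1 T M K7 c)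
      (cT β l))
    (fun l => B2.rec (fun c => B2.mk fun g K => nr2 L.T (L.cm β) L.K L.K8 (c g K)) (cT β l))
    (B2.mk fun _ _ => L.T) (tab L D f β)

/-- the values of the nodes -/
def mZ (P : MP) (_ β : ℕ) : B1 :=
  fS P.L.T fun T => fS (P.L.cm β) fun M => B1.mk fun K => Nat.rec (nat_lit 0)
    (fun k _ => Bool.rec (Nat.land (P.nv k) M) (P.nv k) (Nat.ble T (P.nv k)))
    (Nat.succ (Nat.div K (nat_lit 64)))

/-- one factor of the right unit -/
def mS (P : MP) (_ : ℕ) (ih : ℕ → ℕ → B1) (r β : ℕ) : B1 :=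
  fS (P.fm r) fun f => fS (Nat.sub r (dd f)) fun r' =>
    B2.rec (fun c => B1.mk (c (ih r'))) (tabC P.L etaD f β)

/-- the evaluator of `t ^ y η (v ^ e) h` -/
def mc (P : MP) (β i : ℕ) : B1 :=
  fS (Nat.mod i 128) fun e1 => fS (Nat.sub (Nat.mod i 268435456) e1) fun e => Bool.rec
    (B1.mk fun _ => P.L.T)
    (fS (low P.ms (Nat.add β e1)) fun b0 => fS (Nat.mod b0 64) fun b =>
      fS (Nat.succ (Nat.add (Nat.mul (Nat.div i 268435456) 17179869184) b0)) fun d1 =>
      fS (Nat.mul (Nat.mul 16 P.L.a) e1) fun sh => fS (len e) fun n => B1.mk fun yb =>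
        Nat.rec (nat_lit 0) (fun K _ => Nat.shiftLeft
          ((Nat.rec (motive := fun _ => ℕ → ℕ → B1) (mZ P) (mS P) n e b).1 K) sh)
          (Nat.sub (Nat.add yb d1) β)) (okL P.fm e)

/-- an entry with a nonzero coefficient `c + 1` -/
def hit (nx : ℕ → CX → B4) (i0 c w : ℕ) (x : CX) : B4 :=
  Nat.rec (fS (Nat.add i0 x.1) fun i => B4.rec (fun a1 a2 =>
      B4.mk (fun yb => Nat.add ((x.2 i).1 yb) (a1 yb)) a2) (nx w x))
    (fun c' _ => Nat.rec (fS (Nat.add i0 x.1) fun i => B4.rec (fun a1 a2 =>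
      B4.mk a1 fun yb => Nat.add ((x.2 i).1 yb) (a2 yb)) (nx w x)) (fun _ _ => nx w x) c') c

/-- the scan of the positions of a list -/
def vcL (l : List (ℕ × ℕ)) : B3 :=
  List.rec (B3.mk fun _ x => x.3) (fun q _ r => B3.rec (fun nx => fS q.1 fun p => fS q.2 fun i0 =>
    B3.mk fun w x => Nat.rec (nx w x) (fun c _ => hit nx i0 c w x)
      (Nat.land (Nat.shiftRight w p) (nat_lit 65535))) r) l

/-- the scan of the positions of weight `m` -/
def vc (L : Lay) (m : ℕ) : B3 := vcL (L.vm m)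

/-- one group of entries -/
def dcS (L : Lay) (c : ℕ → B1) (v u e1 : ℕ) (ih : B4) : B4 :=
  Bool.rec ih (fS (Nat.sub u e1) fun m => (vc L m).1
    (Nat.shiftRight v (Nat.mul (Nat.mul 16 L.a) e1)) (CX.mk e1 c ih)) (Nat.ble e1 u)

/-- the evaluator of `t ^ y η (φ (t ^ c g))` for the node key `k` -/
def ncF (P : Par) (β k : ℕ) : B1 :=
  Bool.rec (Bool.rec
    (fS (Nat.add (P.L1.w (Nat.div k 268435456)) (w4 k)) fun u => fS (Nat.sub P.M.L.pi β) fun n =>
      B4.rec (fun a1 a2 => B1.mk fun K => Nat.rec (nat_lit 0) (fun yb _ =>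
          nr2 P.M.L.T (P.M.L.cm β) P.M.L.K P.M.L.K8
            (Nat.add (a1 yb) (Nat.shiftLeft (a2 yb) (nat_lit 1))))
          (Nat.succ (Nat.mod K (nat_lit 17179869184))))
        (Nat.rec (B4.mk (fun _ => nat_lit 0) fun _ => nat_lit 0)
          (dcS P.L1 (mc P.M β) (P.nv1 k) u) n))
    (B1.mk fun _ => P.M.L.T) (Nat.ble P.L1.T (P.nv1 k)))
    (B1.mk fun _ => nat_lit 0) (Nat.beq (P.nv1 k) 0)

/-- the same for a state -/
def nZ (P : Par) (g β : ℕ) : B1 :=
  fS (Nat.succ (Nat.mul g 268435456)) fun g1 => B1.mk fun K => Nat.rec (nat_lit 0)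
    (fun k _ => (ncF P β k).1 K) (Nat.add (Nat.div K (nat_lit 17179869184)) g1)

/-- the end of the expansion of the coproduct -/
def eZ (P : Par) (g _r β : ℕ) : B1 :=
  fS P.M.L.T fun T => fS (P.M.L.cm β) fun M => fS (low P.bs β) fun b0 => Bool.rec
    (fS (Nat.mod b0 64) fun b => fS (Nat.succ b0) fun d1 => B1.mk fun K => Nat.rec (nat_lit 0)
      (fun m _ => Bool.rec (Nat.land ((nZ P g b).1 m) M) ((nZ P g b).1 m)
        (Nat.ble T ((nZ P g b).1 m))) (Nat.sub (Nat.add K d1) β))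
    (B1.mk fun K => Bool.rec (Nat.land ((nZ P g β).1 K) M) ((nZ P g β).1 K)
      (Nat.ble T ((nZ P g β).1 K))) (Nat.beq b0 β)

/-- one factor of the coproduct -/
def eS (P : Par) (_ : ℕ) (ih : ℕ → ℕ → B1) (r β : ℕ) : B1 :=
  fS (P.fe r) fun f => fS (Nat.sub r (dd f)) fun r' =>
    B2.rec (fun c => B1.mk (c (ih r'))) (tabC P.M.L delD f β)

/-- the test of a row -/
def rowF (P : Par) (g b : ℕ) : Bool :=
  Bool.rec false (fS (len b) fun n => Nat.beq
    ((Nat.rec (motive := fun _ => ℕ → ℕ → B1) (eZ P g) (eS P) n b (nat_lit 0)).1 (nat_lit 0)) 0)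
    (okL P.fe b)

/-- the test of a list of rows -/
def rowsF (P : Par) (l : List ℕ) : Bool :=
  List.rec true (fun k _ r => fS (Nat.div k 268435456) fun g => fS (Nat.mod k 268435456) fun b =>
    Bool.rec false r (rowF P g b)) l

end Vale.Agent.P236K.Cert
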