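import Vale.Agent.P236K.Cert.Fast
import Vale.Agent.P236K.Cert.Chain

/-!
# P236K / Cert / FastEq : the fast programs compute the same values
-/

noncomputable section

namespace Vale.Agent.P236K.Cert

open Vale.Agent.P236K.Alg

namespace Fq

theorem fS' {α : Type} (n : ℕ) (f : ℕ → α) : fS n f = f n := (fS_eq n f).trans rfl

theorem frc {α : Type} {n k : ℕ} (h : n = k + 1) (z : α) (f : ℕ → α) :
    (Nat.rec z (fun m _ => f m) n : α) = f k := by
  subst h
  rfl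

theorem cT_eq {g : ℕ → B1} {ih : ℕ → ℕ} (hg : ∀ m, (g (m % 64)).1 m = ih m) (K : ℕ) (l : TL) :
    (cT (K % 64) l).1 g K = sumT ih K l := by
  have h : ∀ d, (g ((K % 64 + d) % 64)).1 (K + d) = ih (K + d) := fun d => by
    rw [Nat.mod_add_mod, hg]
  induction l with
  | nil => rfl
  | a1 d => exact congrArg (· + 0) (h d)
  | s1 d sh => exact congrArg (Nat.shiftLeft · sh) (h d)
  | a d r ir => exact congrArg₂ Nat.add (h d) ir
  | s d sh r ir => exact congrArg₂ Nat.add (congrArg (Nat.shiftLeft · sh) (h d)) ir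

theorem tabC_eq {g : ℕ → B1} {ih : ℕ → ℕ} (hg : ∀ m, (g (m % 64)).1 m = ih m) (L : Lay)
    (D : ℕ → Pol.P) (f : ℕ) (tl : List ℕ) (K : ℕ) :
    (tabC L D f (K % 64)).1 g K = EfS L D f tl ih K := by
  rw [EfS, fS', tabC, show Nat.mod K 64 = K % 64 from rfl]
  generalize tab L D f (K % 64) = t
  cases t with
  | pass d => exact cT_eq hg K (TL.a1 d)
  | small l =>
    exact Eq.trans rfl (congrArg (nr1 L.T (L.cm (K % 64)) L.K) (cT_eq hg K l))
  | large l =>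
    exact Eq.trans rfl (congrArg (nr2 L.T (L.cm (K % 64)) L.K L.K8) (cT_eq hg K l))
  | bad => rfl

theorem chain {L : Lay} {D : ℕ → Pol.P} {base fac : ℕ → ℕ} {Z : ℕ → ℕ → B1}
    {S : ℕ → (ℕ → ℕ → B1) → ℕ → ℕ → B1} (hZ : ∀ r K, (Z r (K % 64)).1 K = base K)
    (hS : ∀ n ih r β, S n ih r β = B1.mk ((tabC L D (fac r) β).1 (ih (r - dd (fac r))))) (n : ℕ) :
    ∀ r K, ((Nat.rec (motive := fun _ => ℕ → ℕ → B1) Z S n) r (K % 64)).1 K =
      Ef L D base (Nat.rec (motive := fun _ => ℕ → List ℕ) flZ (flS fac) n r) K := by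
  induction n with
  | zero => exact hZ
  | succ n ih =>
    intro r K
    change (S n _ r (K % 64)).1 K = Ef L D base (flS fac n _ r) K
    rw [hS, flS, fS', fS']
    exact tabC_eq (ih _) L D _ [] K

theorem mZ_eq (P : MP) (r K : ℕ) : (mZ P r (K % 64)).1 K = nvK P.L P.nv K := by
  rw [mZ, fS', fS', Rw.nvK_def]
  rfl

theorem mS_eq (P : MP) (n : ℕ) (ih : ℕ → ℕ → B1) (r β : ℕ) : mS P n ih r β =
    B1.mk ((tabC P.L etaD (P.fm r) β).1 (ih (r - dd (P.fm r)))) := by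
  rw [mS, fS', fS']
  rfl

theorem eS_eq (P : Par) (n : ℕ) (ih : ℕ → ℕ → B1) (r β : ℕ) : eS P n ih r β =
    B1.mk ((tabC P.M.L delD (P.fe r) β).1 (ih (r - dd (P.fe r)))) := by
  rw [eS, fS', fS']
  rfl

theorem flc_def (fac : ℕ → ℕ) (r : ℕ) :
    flc fac r = Nat.rec (motive := fun _ => ℕ → List ℕ) flZ (flS fac) (len r) r := fS' _ _

theorem ar1 (a yb b0 : ℕ) : Nat.sub (Nat.add yb (Nat.succ (Nat.add a b0))) (yb % 64) =
    a + yb / 64 * 64 + b0 + 1 := by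
  change yb + (a + b0 + 1) - yb % 64 = _
  omega

theorem mod_eq (a b : ℕ) : Nat.mod a b = a % b := rfl

theorem mc_aux (P : MP) (a b0 sh n e yb : ℕ) (ok : Bool) (ha : a % 64 = 0) :
    (Bool.rec (B1.mk fun _ => P.L.T) (B1.mk fun yb' => Nat.rec (nat_lit 0) (fun K _ => Nat.shiftLeft
      ((Nat.rec (motive := fun _ => ℕ → ℕ → B1) (mZ P) (mS P) n e (Nat.mod b0 64)).1 K) sh)
      (Nat.sub (Nat.add yb' (Nat.succ (Nat.add a b0))) (yb % 64))) ok : B1).1 yb =
    Bool.rec P.L.T (Nat.shiftLeft (Ef P.L etaD (nvK P.L P.nv)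
      (Nat.rec (motive := fun _ => ℕ → List ℕ) flZ (flS P.fm) n e)
      (a + Nat.div yb 64 * 64 + b0)) sh) ok := by
  cases ok
  · rfl
  · refine Eq.trans (frc (ar1 a yb b0) (nat_lit 0) fun K => Nat.shiftLeft
      ((Nat.rec (motive := fun _ => ℕ → ℕ → B1) (mZ P) (mS P) n e (Nat.mod b0 64)).1 K) sh) ?_
    rw [show Nat.mod b0 64 = (a + yb / 64 * 64 + b0) % 64 by rw [mod_eq]; omega,
      chain (Z := mZ P) (mZ_eq P) (mS_eq P)]
    rfl

theorem mc_eq (P : MP) (i yb : ℕ) : (mc P (yb % 64) i).1 yb = Mt P i yb := by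
  rw [Mt, fS', fS', fS', mc, fS', fS', fS', fS', fS', fS', fS', flc_def, mod_eq yb,
    Nat.mul_eq (x := Nat.div i 268435456)]
  exact mc_aux P _ _ _ _ _ yb _ (by omega)

/-- sum over a list -/
def sC (c : ℕ → B1) (yb : ℕ) (l : List ℕ) : ℕ :=
  List.rec 0 (fun i _ r => Nat.add ((c i).1 yb) r) l

/-- the entries of one group -/
def grp (w t e1 : ℕ) (ih : List ℕ) (l : List (ℕ × ℕ)) : List ℕ :=
  List.rec ih (fun x _ r => Bool.rec r (fS (Nat.add x.2 e1) fun i => i :: r)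
    (Nat.beq (Nat.land (Nat.shiftRight w x.1) 65535) t)) l

theorem vcL_eq (c : ℕ → B1) (w e1 : ℕ) {r : B4} {l1 l2 : List ℕ} (h1 : ∀ yb, r.1 yb = sC c yb l1)
    (h2 : ∀ yb, r.2 yb = sC c yb l2) (l : List (ℕ × ℕ)) :
    (∀ yb, ((vcL l).1 w (CX.mk e1 c r)).1 yb = sC c yb (grp w 1 e1 l1 l)) ∧
      ∀ yb, ((vcL l).1 w (CX.mk e1 c r)).2 yb = sC c yb (grp w 2 e1 l2 l) := by
  induction l with
  | nil => exact ⟨h1, h2⟩
  | cons q l ih =>
    have e : (vcL (q :: l)).1 w (CX.mk e1 c r) = Nat.rec ((vcL l).1 w (CX.mk e1 c r))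
        (fun k _ => hit (vcL l).1 q.2 k w (CX.mk e1 c r))
        (Nat.land (Nat.shiftRight w q.1) 65535) := rfl
    have e' : ∀ t ih, grp w t e1 ih (q :: l) = Bool.rec (grp w t e1 ih l)
        (Nat.add q.2 e1 :: grp w t e1 ih l)
        (Nat.beq (Nat.land (Nat.shiftRight w q.1) 65535) t) := fun _ _ => rfl
    rw [e, e', e']
    generalize Nat.land (Nat.shiftRight w q.1) 65535 = k
    rcases k with _ | _ | _ | k
    · exact ih
    · exact ⟨fun yb => congrArg (Nat.add _) (ih.1 yb), ih.2⟩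
    · exact ⟨ih.1, fun yb => congrArg (Nat.add _) (ih.2 yb)⟩
    · exact ih

theorem dcS_eq (L : Lay) (c : ℕ → B1) (v u n : ℕ) :
    (∀ yb, (Nat.rec (B4.mk (fun _ => nat_lit 0) fun _ => nat_lit 0) (dcS L c v u) n : B4).1 yb =
      sC c yb (dl L v u 1 n)) ∧
    ∀ yb, (Nat.rec (B4.mk (fun _ => nat_lit 0) fun _ => nat_lit 0) (dcS L c v u) n : B4).2 yb =
      sC c yb (dl L v u 2 n) := by
  induction n with
  | zero => exact ⟨fun _ => rfl, fun _ => rfl⟩
  | succ n ih =>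
    change (∀ yb, (dcS L c v u n _).1 yb = sC c yb (dlS L v u 1 n (dl L v u 1 n))) ∧
      ∀ yb, (dcS L c v u n _).2 yb = sC c yb (dlS L v u 2 n (dl L v u 2 n))
    rw [dcS, dlS, dlS, fS', fS', fS']
    rcases Nat.ble n u with _ | _
    · exact ih
    · exact vcL_eq c _ n ih.1 ih.2 _

theorem sC_eq (P : MP) {β yb : ℕ} (h : yb % 64 = β) (l : List ℕ) :
    sC (mc P β) yb l = sumL P yb l := by
  subst h
  induction l with
  | nil => rfl
  | cons i l ih => exact congrArg₂ Nat.add (mc_eq P i yb) ih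

theorem grp_zero (t n : ℕ) (l : List (ℕ × ℕ)) : grp 0 (t + 1) n [] l = [] := by
  induction l with
  | nil => rfl
  | cons q l il =>
    change Bool.rec (grp 0 (t + 1) n [] l) _ (Nat.beq (0 >>> q.1 &&& 65535) (t + 1)) = []
    rw [Nat.zero_shiftRight, Nat.zero_and]
    exact il

theorem dl_zero (L : Lay) (u t n : ℕ) : dl L 0 u (t + 1) n = [] := by
  induction n with
  | zero => rfl
  | succ n ih =>
    change dlS L 0 u (t + 1) n (dl L 0 u (t + 1) n) = []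
    rw [ih, dlS, fS']
    rcases Nat.ble n u with _ | _
    · rfl
    · change grp (0 >>> _) (t + 1) n [] _ = []
      rw [Nat.zero_shiftRight, grp_zero]

theorem nr2_zero (L : Lay) (M : ℕ) : nr2 L.T M L.K L.K8 0 = 0 := by
  rw [nr2, ble_false (show 0 < L.T from Th_pos _)]
  simp [nrm1, fld, Nat.land_eq]

theorem ncF_aux (P : Par) (k K : ℕ) : (ncF P (K % 64) k).1 K = Bool.rec
    (nr2 P.M.L.T (P.M.L.cm (K % 64)) P.M.L.K P.M.L.K8
      (sumL P.M (K % 17179869184) (dlc P k 1 (P.M.L.pi - K % 64)) +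
        Nat.shiftLeft (sumL P.M (K % 17179869184) (dlc P k 2 (P.M.L.pi - K % 64))) 1))
    P.M.L.T (Nat.ble P.L1.T (P.nv1 k)) := by
  rw [ncF, fS', fS', Rw.dlc_def, Rw.dlc_def]
  rcases h : Nat.beq (P.nv1 k) 0 with _ | _
  · rcases Nat.ble P.L1.T (P.nv1 k) with _ | _
    · have e : K % 17179869184 % 64 = K % 64 := by omega
      rw [← sC_eq _ e, ← sC_eq _ e, ← (dcS_eq _ _ _ _ _).1, ← (dcS_eq _ _ _ _ _).2]
      rfl
    · rfl
  · rw [Nat.eq_of_beq_eq_true h, ble_false (show 0 < P.L1.T from Th_pos _), dl_zero _ _ 0,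
      dl_zero _ _ 1]
    exact (nr2_zero _ _).symm

theorem nZ_aux (F : ℕ → B1) (a K : ℕ) : (B1.mk fun K => Nat.rec (nat_lit 0)
    (fun k _ => (F k).1 K) (Nat.add (Nat.div K (nat_lit 17179869184)) (Nat.succ a))).1 K =
    (F (a + K / 17179869184)).1 K := by
  rw [add_comm]
  rfl

theorem nZ_eq (P : Par) (g K : ℕ) : (nZ P g (K % 64)).1 K = Nf P g K := by
  rw [nZ, fS', Nat.mul_eq, Rw.Nf_def, ← ncF_aux]
  exact nZ_aux _ _ K

theorem ar4 (K b0 : ℕ) : Nat.sub (Nat.add K (Nat.succ b0)) (K % 64) = K - K % 64 + b0 + 1 := by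
  change K + (b0 + 1) - K % 64 = _
  omega

theorem eZ_eq (P : Par) (g r K : ℕ) : (eZ P g r (K % 64)).1 K = Nb P g K := by
  rw [Rw.Nb_def, eZ, fS', fS', fS', fS', fS']
  generalize low P.bs (K % 64) = b0
  rcases h : Nat.beq b0 (K % 64) with _ | _
  · refine (frc (ar4 _ _) _ _).trans ?_
    rw [show Nat.mod b0 64 = (K - K % 64 + b0) % 64 by change b0 % 64 = _; omega, nZ_eq]
    rfl
  · rw [Nat.eq_of_beq_eq_true h, show K - K % 64 + K % 64 = K by omega, ← nZ_eq]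
    rfl

end Fq

open Fq

theorem rowF_eq (P : Par) (g b : ℕ) : rowF P g b = rowOK P g b := by
  rw [rowF, rowOK, fS', flc_def, ← chain (Z := eZ P g) (eZ_eq P g) (eS_eq P)]

theorem rowsF_eq (P : Par) (l : List ℕ) : rowsF P l = rowsOK P l := by
  simp only [rowsF, rowsOK, rowF_eq]

theorem RowsAll.ofF {P : Par} {l : List ℕ} (h : rowsF P l = true) : RowsAll P l :=
  RowsAll.of (rowsF_eq P l ▸ h)

theorem RowsAll.apdF {P : Par} {l r : List ℕ} (h : rowsF P l = true) (h' : RowsAll P r) :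
    RowsAll P (Cert.apd l r) := RowsAll.apd (rowsF_eq P l ▸ h) h'

end Vale.Agent.P236K.Cert
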