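import Vale.Agent.P236K.Cert.Prog

/-!
# P236K / Cert / Key : keys, factor lists, normal forms
-/

set_option linter.unusedSectionVars false
set_option maxRecDepth 100000

noncomputable section

namespace Vale.Agent.P236K.Cert

open Vale.Agent.P236K.Alg MvPolynomial

/-! ### keys -/

theorem wl_zero (ws : List ℕ) : wl ws 0 = 0 := by
  induction ws with
  | nil => rfl
  | cons w ws ih => simp [wl, ih]

theorem nc {ws : List ℕ} {k d : ℕ} (hw : ∀ w ∈ ws, 1 ≤ w) (hd : d < 128 ^ ws.length)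
    (h : wl ws k + wl ws d < 128) :
    wl ws (k + d) = wl ws k + wl ws d ∧ (k + d) / 128 ^ ws.length = k / 128 ^ ws.length ∧
      ∀ (Q : Type) [CommRing Q] (xs : List Q), xs.length = ws.length →
        Pol.mon xs (k + d) = Pol.mon xs k * Pol.mon xs d := by
  induction ws generalizing k d with
  | nil =>
    obtain rfl : d = 0 := by simpa using hd
    refine ⟨rfl, rfl, fun Q _ xs _ => ?_⟩
    rw [add_zero, Pol.mon_zero, mul_one]
  | cons w ws ih =>
    have h1 : 1 ≤ w := hw w (List.mem_cons_self ..)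
    simp only [wl] at h
    have a1 : k % 128 ≤ w * (k % 128) := Nat.le_mul_of_pos_left _ h1
    have a2 : d % 128 ≤ w * (d % 128) := Nat.le_mul_of_pos_left _ h1
    have e1 : (k + d) % 128 = k % 128 + d % 128 := by omega
    have e2 : (k + d) / 128 = k / 128 + d / 128 := by omega
    have hd' : d / 128 < 128 ^ ws.length := by
      rw [List.length_cons, pow_succ] at hd
      exact (Nat.div_lt_iff_lt_mul (by norm_num)).2 hd
    obtain ⟨i1, i2, i3⟩ := ih (k := k / 128) (d := d / 128)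
      (fun w hw' => hw w (List.mem_cons_of_mem _ hw')) hd' (by omega)
    refine ⟨?_, ?_, fun Q _ xs hx => ?_⟩
    · simp only [wl, e1, e2, i1]; ring
    · rw [List.length_cons, pow_succ', ← Nat.div_div_eq_div_mul, ← Nat.div_div_eq_div_mul, e2, i2]
    · cases xs with
      | nil => simp at hx
      | cons x xs =>
        simp only [Pol.mon, e1, e2, i3 Q xs (by simpa using hx), pow_add]; ring

theorem nc_mul {ws : List ℕ} {d m : ℕ} (hw : ∀ w ∈ ws, 1 ≤ w) (hd : d < 128 ^ ws.length)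
    (h : wl ws d * m < 128) :
    wl ws (d * m) = wl ws d * m ∧ d * m < 128 ^ ws.length ∧
      ∀ (Q : Type) [CommRing Q] (xs : List Q), xs.length = ws.length →
        Pol.mon xs (d * m) = Pol.mon xs d ^ m := by
  induction m with
  | zero =>
    refine ⟨by simp [wl_zero], by simp, fun Q _ xs _ => ?_⟩
    rw [mul_zero, Pol.mon_zero, pow_zero]
  | succ m ih =>
    rw [mul_add, mul_one] at h
    obtain ⟨i1, i2, i3⟩ := ih (by omega)
    obtain ⟨j1, j2, j3⟩ := nc (k := d * m) hw hd (by omega)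
    rw [mul_add, mul_one]
    refine ⟨by rw [j1, i1]; ring, ?_, fun Q _ xs hx => by rw [j3 Q xs hx, i3 Q xs hx, pow_succ]⟩
    rw [Nat.div_eq_of_lt i2] at j2
    exact (Nat.div_eq_zero_iff_lt (by positivity)).1 j2

theorem w4_def (k : ℕ) : w4 k = k % 128 + 4 * (k / 128 % 128) + 13 * (k / 16384 % 128) +
    40 * (k / 2097152 % 128) := by
  change (k % 128 + 4 * (k / 128 % 128)) + (13 * (k / 16384 % 128) + 40 * (k / 2097152 % 128)) = _
  ring

theorem w4_eq (k : ℕ) : w4 k = wl [1, 4, 13, 40] k := by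
  simp only [w4_def, wl, Nat.div_div_eq_div_mul]
  norm_num
  ring

theorem wl_append (ws vs : List ℕ) (k : ℕ) :
    wl (ws ++ vs) k = wl ws k + wl vs (k / 128 ^ ws.length) := by
  induction ws generalizing k with
  | nil => simp [wl]
  | cons w ws ih =>
    simp only [List.cons_append, wl, ih, List.length_cons, pow_succ', Nat.div_div_eq_div_mul]
    ring

theorem wl8 (k : ℕ) : wl [1, 4, 13, 40, 1, 4, 13, 40] k = w4 k + w4 (k / 268435456) := by
  rw [w4_eq, w4_eq]
  exact wl_append [1, 4, 13, 40] [1, 4, 13, 40] k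

theorem mon_append {Q : Type} [CommRing Q] (xs ys : List Q) (k : ℕ) :
    Pol.mon (xs ++ ys) k = Pol.mon xs k * Pol.mon ys (k / 128 ^ xs.length) := by
  induction xs generalizing k with
  | nil => simp [Pol.mon]
  | cons x xs ih =>
    simp only [List.cons_append, Pol.mon, ih, List.length_cons, pow_succ', Nat.div_div_eq_div_mul]
    ring

theorem mon4 {Q : Type} [CommRing Q] (a b c d : Q) (y : ℕ) : Pol.mon [a, b, c, d] y =
    a ^ (y % 128) * b ^ (y / 128 % 128) * c ^ (y / 16384 % 128) * d ^ (y / 2097152 % 128) := by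
  simp only [Pol.mon, Nat.div_div_eq_div_mul]
  norm_num
  ring

theorem mon_ex {R : Type} [CommRing R] (y : ℕ) :
    Pol.mon [X 0, X 1, X 2, X 3] y = (monomial (ex y) 1 : Av R) := by
  simp only [mon4, ex, X_pow_eq_monomial, monomial_mul, mul_one]

theorem map_mon_ex {R Q : Type} [CommRing R] [CommRing Q] (θ : Av R →+* Q) (y : ℕ) :
    Pol.mon [θ (X 0), θ (X 1), θ (X 2), θ (X 3)] y = θ (monomial (ex y) 1) := by
  rw [← mon_ex, Pol.map_mon]; rfl

theorem wE_ex (y : ℕ) : wE 3 (ex y) = 2 * (w4 y : ℤ) := by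
  simp only [ex, map_add, wE, Finsupp.weight_single, wz, nsmul_eq_mul, w4_def]
  push_cast
  ring

theorem ex_0 (y : ℕ) : ex y 0 = y % 128 := by simp [ex]
theorem ex_1 (y : ℕ) : ex y 1 = y / 128 % 128 := by simp [ex]
theorem ex_2 (y : ℕ) : ex y 2 = y / 16384 % 128 := by simp [ex]
theorem ex_3 (y : ℕ) : ex y 3 = y / 2097152 % 128 := by simp [ex]

theorem ex_ge (y : ℕ) {i : ℕ} (hi : 4 ≤ i) : ex y i = 0 := by
  simp only [ex, Finsupp.add_apply]
  rw [Finsupp.single_eq_of_ne, Finsupp.single_eq_of_ne, Finsupp.single_eq_of_ne,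
    Finsupp.single_eq_of_ne] <;> omega

theorem ex_zero : ex 0 = 0 := by simp [ex]

theorem enc_ex (y : ℕ) : enc (ex y) = y % 268435456 := by
  rw [enc, ex_0, ex_1, ex_2, ex_3]; omega

theorem ex_inj {y y' : ℕ} (hy : y < 268435456) (hy' : y' < 268435456) (h : ex y = ex y') :
    y = y' := by
  have := congrArg enc h
  rw [enc_ex, enc_ex] at this
  omega

theorem ex_congr {y y' : ℕ} (h : y % 268435456 = y' % 268435456) : ex y = ex y' := by
  have h0 : y % 128 = y' % 128 := by omega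
  have h1 : y / 128 % 128 = y' / 128 % 128 := by omega
  have h2 : y / 16384 % 128 = y' / 16384 % 128 := by omega
  have h3 : y / 2097152 % 128 = y' / 2097152 % 128 := by omega
  rw [ex, ex, h0, h1, h2, h3]

theorem w4_congr {y y' : ℕ} (h : y % 268435456 = y' % 268435456) : w4 y = w4 y' := by
  rw [w4_def, w4_def]; omega

theorem ex_mod (y : ℕ) : ex (y % 268435456) = ex y := ex_congr (Nat.mod_mod _ _)

theorem w4_mod (y : ℕ) : w4 (y % 268435456) = w4 y := w4_congr (Nat.mod_mod _ _)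

theorem ex_hi (h y : ℕ) : ex (h * 268435456 + y) = ex y := ex_congr (by omega)

theorem w4_hi (h y : ℕ) : w4 (h * 268435456 + y) = w4 y := w4_congr (by omega)

theorem wz3_pos (i : ℕ) : 0 ≤ wz 3 i := by unfold wz; positivity

theorem wE_ge (b : Ex) (i : ℕ) : (b i : ℤ) * wz 3 i ≤ wE 3 b := by
  rw [wE, Finsupp.weight_apply, Finsupp.sum]
  simp only [nsmul_eq_mul]
  by_cases hi : i ∈ b.support
  · exact Finset.single_le_sum (f := fun i => (b i : ℤ) * wz 3 i)
      (fun j _ => mul_nonneg (Nat.cast_nonneg _) (wz3_pos j)) hi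
  · rw [Finsupp.notMem_support_iff.1 hi, Nat.cast_zero, zero_mul]
    exact Finset.sum_nonneg fun j _ => mul_nonneg (Nat.cast_nonneg _) (wz3_pos j)

/-- every exponent of small weight has a key -/
theorem ex_enc {b : Ex} (h : wE 3 b ≤ 240) : ex (enc b) = b ∧ enc b < 268435456 := by
  have h0 := wE_ge b 0
  have h1 := wE_ge b 1
  have h2 := wE_ge b 2
  have h3 := wE_ge b 3
  simp only [wz] at h0 h1 h2 h3
  norm_num at h0 h1 h2 h3
  refine ⟨?_, by unfold enc; omega⟩
  ext i
  rcases lt_or_ge i 4 with hi | hi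
  · interval_cases i
    · rw [ex_0, enc]; omega
    · rw [ex_1, enc]; omega
    · rw [ex_2, enc]; omega
    · rw [ex_3, enc]; omega
  · rw [ex_ge _ hi]
    have h4 := wE_ge b i
    have h5 : 3 ^ 5 ≤ 3 ^ (i + 1) := Nat.pow_le_pow_right (by norm_num) (by omega)
    have h6 : (242 : ℤ) ≤ wz 3 i := by unfold wz; omega
    by_contra hb
    have : (1 : ℤ) ≤ b i := by omega
    nlinarith

theorem w4_enc {b : Ex} (h : wE 3 b ≤ 240) : 2 * (w4 (enc b) : ℤ) = wE 3 b := by
  rw [← wE_ex, (ex_enc h).1]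

/-! ### factor lists -/

theorem sumF_nil (g : ℕ → ℕ) : sumF g [] = 0 := rfl

theorem sumF_cons (g : ℕ → ℕ) (f : ℕ) (l : List ℕ) : sumF g (f :: l) = g f + sumF g l := rfl

theorem dd_eq (f : ℕ) : dd f = 128 ^ (f % 4) * 3 ^ (f / 4) := mul_comm _ _

theorem wf_eq (f : ℕ) : wf f = wv (f % 4) * 3 ^ (f / 4) := mul_comm _ _

theorem w1 : ∀ w ∈ [1, 4, 13, 40], 1 ≤ w := by decide

theorem w18 : ∀ w ∈ [1, 4, 13, 40, 1, 4, 13, 40], 1 ≤ w := by decide

theorem dd_spec {f : ℕ} (h : wf f < 128) : wl [1, 4, 13, 40] (dd f) = wf f ∧ dd f < 128 ^ 4 ∧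
    ∀ (Q : Type) [CommRing Q] (F : ℕ → Q), Pol.mon [F 0, F 1, F 2, F 3] (dd f) = Ff F f := by
  have hi : f % 4 < 4 := Nat.mod_lt _ (by norm_num)
  have e : wl [1, 4, 13, 40] (128 ^ (f % 4)) = wv (f % 4) := by
    generalize f % 4 = i at hi
    interval_cases i <;> rfl
  obtain ⟨j1, j2, j3⟩ := nc_mul (ws := [1, 4, 13, 40]) (d := 128 ^ (f % 4)) (m := 3 ^ (f / 4)) w1
    (Nat.pow_lt_pow_right (by norm_num) hi) (by rw [e, ← wf_eq]; exact h)
  rw [dd_eq]
  refine ⟨by rw [j1, e, wf_eq], j2, fun Q _ F => ?_⟩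
  rw [j3 Q _ rfl, Pol.mon_pow _ (by simpa using hi), Ff]
  generalize f % 4 = i at hi
  interval_cases i <;> rfl

theorem sumF_spec {l : List ℕ} (h : sumF wf l < 128) :
    wl [1, 4, 13, 40] (sumF dd l) = sumF wf l ∧ ∀ (Q : Type) [CommRing Q] (F : ℕ → Q),
      Pol.mon [F 0, F 1, F 2, F 3] (sumF dd l) = (l.map (Ff F)).prod := by
  induction l with
  | nil => exact ⟨rfl, fun Q _ F => Pol.mon_zero _⟩
  | cons f l ih =>
    rw [sumF_cons] at h
    obtain ⟨i1, i2⟩ := ih (by omega)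
    obtain ⟨d1, d2, d3⟩ := dd_spec (f := f) (by omega)
    obtain ⟨j1, -, j3⟩ := nc (k := sumF dd l) (d := dd f) w1 d2 (by omega)
    rw [sumF_cons, sumF_cons, add_comm (dd f)]
    refine ⟨by rw [j1, i1, d1, add_comm], fun Q _ F => ?_⟩
    rw [j3 Q _ rfl, i2, d3, List.map_cons, List.prod_cons, mul_comm]

theorem rec_and {a b : Bool} (h : (Bool.rec false a b : Bool) = true) : a = true ∧ b = true := by
  cases a <;> cases b <;> simp_all

theorem okL_sound {fac : ℕ → ℕ} {r : ℕ} (h : okL fac r = true) (hr : w4 r ≤ 127) :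
    sumF wf (flc fac r) = w4 r ∧ ∀ (Q : Type) [CommRing Q] (F : ℕ → Q),
      Pol.mon [F 0, F 1, F 2, F 3] r = ((flc fac r).map (Ff F)).prod := by
  obtain ⟨h1, h2⟩ := rec_and h
  have e1 := Nat.eq_of_beq_eq_true h1
  have e2 := Nat.eq_of_beq_eq_true h2
  refine ⟨e1, fun Q _ F => ?_⟩
  have := (sumF_spec (l := flc fac r) (by omega)).2 Q F
  rwa [e2] at this

/-- the test for `GoodD` -/
def goodB (D : ℕ → Pol.P) (ws : List ℕ) (i : ℕ) : Bool :=
  (D i).all fun x => Nat.blt (x.1 / 268435456) (128 ^ ws.length) &&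
    Nat.ble (wl ws (x.1 / 268435456)) (wv i) && (Nat.beq x.2 1 || Nat.beq x.2 2)

theorem goodD_of {D : ℕ → Pol.P} {ws : List ℕ} (h : ∀ i < 4, goodB D ws i = true) :
    GoodD D ws := by
  intro i hi x hx
  have := List.all_eq_true.1 (h i hi) x hx
  simpa only [Bool.and_eq_true, Bool.or_eq_true, Nat.blt_eq, Nat.ble_eq, Nat.beq_eq,
    and_assoc] using this

theorem goodD_eta : GoodD etaD [1, 4, 13, 40] :=
  goodD_of fun i hi => by interval_cases i <;> decide +kernel

theorem goodD_del : GoodD delD [1, 4, 13, 40, 1, 4, 13, 40] :=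
  goodD_of fun i hi => by interval_cases i <;> decide +kernel

/-! ### normal forms -/

section Rep

variable {R : Type} [CommRing R] {z : R} {H b j n x : ℕ} {r : R}

theorem ble_false {T x : ℕ} (h : x < T) : Nat.ble T x = false := by
  rw [← Bool.not_eq_true, Nat.ble_eq]; omega

theorem Rep.land_cut (hz : z ^ H = 0) (h : Rep z H b j x r) (hx : x < Th H) (hn : H ≤ j + n) :
    (∀ p < H, lane (Nat.land x (msk n)) p ≤ b) ∧
      z ^ j * val z H (Nat.land x (msk n)) = z ^ j * r := by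
  refine ⟨fun p hp => ?_, ?_⟩
  · rw [lane_msk]
    split_ifs
    · exact h.lane_le hx p hp
    · exact Nat.zero_le _
  · rw [← h.val_eq hx, val, val, Finset.mul_sum, Finset.mul_sum]
    refine Finset.sum_congr rfl fun p _ => ?_
    rw [lane_msk]
    split_ifs with hp
    · rfl
    · obtain ⟨k, hk⟩ := Nat.exists_eq_add_of_le (show H ≤ j + p by omega)
      rw [mul_left_comm, mul_left_comm (z ^ j), ← pow_add, hk, pow_add, hz]
      simp

theorem rep_nrm1 (h3 : (3 : R) = 0) {y : ℕ} (h : ∀ p < H, lane y p ≤ 383)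
    (h' : ∀ p, H ≤ p → lane y p = 0) (e : z ^ j * val z H y = z ^ j * r) :
    Rep z H 2 j (nrm1 (127 * ones H) y) r := by
  rw [nrm1_eq h h']
  refine Or.inr ⟨fun p hp => ?_, by rw [val_ofL_mod h3, e]⟩
  rw [lane_ofL fun q _ => by omega, if_pos hp]
  omega

theorem lane_shr8 (y p : ℕ) :
    Nat.land (lane (Nat.shiftRight y 8) p) 127 = lane y p / 256 % 128 := by
  change (lane (y >>> 8) p) &&& (2 ^ 7 - 1) = _
  rw [Nat.and_two_pow_sub_one_eq_mod, Nat.shiftRight_eq_div_pow, lane_eq, lane_eq,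
    Nat.div_div_eq_div_mul, mul_comm, ← Nat.div_div_eq_div_mul]
  omega

theorem lane_fld (H y p : ℕ) : lane (fld (127 * ones H) (255 * ones H) y) p =
    if p < H then lane y p % 256 + lane y p / 256 % 128 else 0 := by
  have h1 : ∀ q, lane (Nat.land y (255 * ones H)) q = if q < H then lane y q % 256 else 0 := by
    intro q
    rw [lane_land, lane_ones (by norm_num)]
    split_ifs
    · exact Nat.and_two_pow_sub_one_eq_mod _ 8
    · exact Nat.and_zero _
  have h2 : ∀ q, lane (Nat.land (Nat.shiftRight y 8) (127 * ones H)) q =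
      if q < H then lane y q / 256 % 128 else 0 := by
    intro q
    rw [lane_land, lane_ones (by norm_num)]
    split_ifs
    · exact lane_shr8 y q
    · exact Nat.and_zero _
  change lane (_ + _) p = _
  rw [lane_add fun q _ => by rw [h1, h2]; split_ifs <;> omega, h1, h2]
  split_ifs <;> rfl

theorem Rep.cut' (hz : z ^ H = 0) (h : Rep z H b j x r) (hn : H ≤ j + n) :
    Rep z H b j (cut (Th H) (msk n) x) r := by
  unfold cut
  rcases le_or_gt (Th H) x with hx | hx
  · rw [Nat.ble_eq_true_of_le hx]; exact Or.inl hx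
  · rw [ble_false hx]; exact Or.inr (h.land_cut hz hx hn)

theorem Rep.nr1' (hz : z ^ H = 0) (h3 : (3 : R) = 0) (h : Rep z H b j x r) (hn : H ≤ j + n)
    (hn' : n ≤ H) (hb : b ≤ 383) : Rep z H 2 j (nr1 (Th H) (msk n) (127 * ones H) x) r := by
  unfold nr1
  rcases le_or_gt (Th H) x with hx | hx
  · rw [Nat.ble_eq_true_of_le hx]; exact Or.inl hx
  · rw [ble_false hx]
    obtain ⟨h1, h2⟩ := h.land_cut hz hx hn
    exact rep_nrm1 h3 (fun p hp => (h1 p hp).trans hb)
      (fun p hp => by rw [lane_msk, if_neg (by omega)]) h2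

theorem Rep.nr2' (hz : z ^ H = 0) (h3 : (3 : R) = 0) (h : Rep z H b j x r) (hn : H ≤ j + n)
    (hb : b ≤ 32767) :
    Rep z H 2 j (nr2 (Th H) (msk n) (127 * ones H) (255 * ones H) x) r := by
  unfold nr2
  rcases le_or_gt (Th H) x with hx | hx
  · rw [Nat.ble_eq_true_of_le hx]; exact Or.inl hx
  · rw [ble_false hx]
    obtain ⟨h1, h2⟩ := h.land_cut hz hx hn
    refine rep_nrm1 h3 (fun p hp => ?_) (fun p hp => ?_) ?_
    · rw [lane_fld, if_pos hp]; omega
    · rw [lane_fld, if_neg (by omega)]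
    · rw [← h2]
      congr 1
      refine val_congr fun p hp => ?_
      have := h1 p hp
      have h255 : (256 : R) = 1 := by linear_combination 85 * h3
      rw [lane_fld, if_pos hp, Nat.mod_eq_of_lt (show lane (Nat.land x (msk n)) p / 256 < 128 by
        omega)]
      conv_rhs => rw [← Nat.mod_add_div (lane (Nat.land x (msk n)) p) 256]
      push_cast
      rw [h255, one_mul]

end Rep

theorem Lay.hz (L : Lay) : L.z ^ L.H = 0 := z0_pow _

theorem Lay.h3 (L : Lay) : (3 : R0 L.H) = 0 := three_R0 _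

theorem Lay.H_eq (L : Lay) : L.H = L.a * L.pi := rfl

theorem Lay.H_le (L : Lay) (β : ℕ) : L.H ≤ L.a * β + L.a * (L.pi - β) := by
  rw [L.H_eq, ← mul_add]
  exact Nat.mul_le_mul_left _ (by omega)

theorem Lay.kap_X0 (L : Lay) : L.kap (X 0) = L.z ^ L.a := by simp [Lay.kap]
theorem Lay.kap_X1 (L : Lay) : L.kap (X 1) = 1 := by simp [Lay.kap]
theorem Lay.kap_X2 (L : Lay) : L.kap (X 2) = L.z := by simp [Lay.kap]
theorem Lay.kap_X3 (L : Lay) : L.kap (X 3) = L.z ^ L.ga := by simp [Lay.kap]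
theorem Lay.kap_C (L : Lay) (c : F3) : L.kap (C c) = algebraMap F3 _ c := by simp [Lay.kap]

theorem Lay.kap_ex (L : Lay) (y : ℕ) : L.kap (monomial (ex y) 1) =
    L.z ^ (L.a * (y % 128) + y / 16384 % 128 + L.ga * (y / 2097152 % 128)) := by
  rw [← map_mon_ex, mon4, L.kap_X0, L.kap_X1, L.kap_X2, L.kap_X3]
  ring

section RepL

variable {L : Lay} {b β x : ℕ} {r : R0 L.H}

theorem Rep.cut (h : Rep L.z L.H b (L.a * β) x r) :
    Rep L.z L.H b (L.a * β) (cut L.T (L.cm β) x) r := h.cut' L.hz (L.H_le β)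

theorem Rep.nr1 (h : Rep L.z L.H b (L.a * β) x r) (hb : b ≤ 383) :
    Rep L.z L.H 2 (L.a * β) (nr1 L.T (L.cm β) L.K x) r :=
  h.nr1' L.hz L.h3 (L.H_le β) (Nat.mul_le_mul_left _ (Nat.sub_le _ _)) hb

theorem Rep.nr2 (h : Rep L.z L.H b (L.a * β) x r) (hb : b ≤ 32767) :
    Rep L.z L.H 2 (L.a * β) (nr2 L.T (L.cm β) L.K L.K8 x) r :=
  h.nr2' L.hz L.h3 (L.H_le β) hb

theorem Rep.top (j : ℕ) : Rep L.z L.H b j L.T r := Or.inl le_rfl

theorem Rep.lit3 (j x : ℕ) :
    Rep L.z L.H 3 j (Nat.land x L.K3) (val L.z L.H (Nat.land x L.K3)) := Rep.lit (by norm_num) x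

end RepL

/-! ### small facts -/

theorem low_le (f : ℕ → ℕ) (t : ℕ) : low f t ≤ t := by
  unfold low
  rcases h : Nat.ble (f t) t with _ | _
  · exact le_rfl
  · exact Nat.le_of_ble_eq_true h

theorem rowsOK_sound {P : Par} {l : List ℕ} (h : rowsOK P l = true) :
    ∀ k ∈ l, rowOK P (k / 268435456) (k % 268435456) = true := by
  induction l with
  | nil => simp
  | cons k l ih =>
    obtain ⟨h1, h2⟩ := rec_and (a := rowsOK P l) h
    intro k' hk'
    rcases List.mem_cons.1 hk' with rfl | hk'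
    · exact h2
    · exact ih h1 k' hk'

/-- the numbers of a list are distinct and not bits of `m` -/
def disB (l : List ℕ) : ℕ → Bool :=
  List.rec (fun _ => true) (fun k _ r m => Bool.rec false
    (fS (Nat.lor m (Nat.shiftLeft 1 k)) r) (Nat.beq (Nat.mod (Nat.shiftRight m k) 2) 0)) l

theorem disB_sound {l : List ℕ} {m : ℕ} (h : disB l m = true) :
    l.Nodup ∧ ∀ k ∈ l, m.testBit k = false := by
  induction l generalizing m with
  | nil => simp
  | cons k l ih =>
    obtain ⟨h1, h2⟩ := rec_and (a := disB l (m ||| 1 <<< k)) h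
    obtain ⟨i1, i2⟩ := ih h1
    have e : (m >>> k) % 2 = 0 := Nat.eq_of_beq_eq_true h2
    have hk : ∀ k' ∈ l, m.testBit k' = false ∧ k ≠ k' := fun k' hk' => by
      have := i2 k' hk'
      rw [Nat.testBit_or, Nat.one_shiftLeft, Nat.testBit_two_pow] at this
      simpa using this
    refine ⟨List.nodup_cons.2 ⟨fun hm => (hk k hm).2 rfl, i1⟩, fun k' hk' => ?_⟩
    rcases List.mem_cons.1 hk' with rfl | hk'
    · rw [Nat.testBit_eq_decide_div_mod_eq, ← Nat.shiftRight_eq_div_pow, e]; rfl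
    · exact (hk k' hk').1

/-- the test of a layout -/
def Lay.okB (L : Lay) : Bool :=
  Nat.blt 0 L.a && Nat.blt 0 L.pi && Nat.ble L.pi 64 && Nat.ble L.N 120 && disB L.gl 0 &&
    Nat.ble (L.pi * L.cells.length) 3600 && (L.cells.all fun x => Nat.blt (L.cp x) L.a) &&
    disB (L.cells.map fun x => 4 * L.cp x + L.cw x % 4) 0

theorem Lay.ok_of {L : Lay} (h : L.okB = true) : L.Ok := by
  simp only [Lay.okB, Bool.and_eq_true, Nat.blt_eq, Nat.ble_eq, List.all_eq_true] at h
  obtain ⟨⟨⟨⟨⟨⟨⟨h1, h2⟩, h3⟩, h4⟩, h5⟩, h6⟩, h7⟩, h8⟩ := h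
  exact ⟨h1, h2, h3, h4, (disB_sound h5).1, h6, h7, (disB_sound h8).1⟩

end Vale.Agent.P236K.Cert
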