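import Mathlib.RingTheory.AdjoinRoot
import Mathlib.Data.ZMod.Basic
import Mathlib.Data.Nat.Bitwise
import Mathlib.Algebra.Field.ZMod
import Mathlib.Tactic

/-!
# P236K / Cert / Lane : vectors over a ring of characteristic three packed in 16 bit lanes

A natural number `x` stands for `∑ p < H, lane x p * z ^ p` in a ring with `3 = 0`, `z ^ H = 0`.
Numbers `≥ Th H` stand for an unknown value.
-/

namespace Vale.Agent.P236K.Cert

open Finset

/-- the lane number `p` -/
def lane (x p : ℕ) : ℕ := x / 2 ^ (16 * p) % 65536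

/-- the threshold for unknown values -/
def Th (H : ℕ) : ℕ := 2 ^ (32 * H)

/-- the mask of the first `H` lanes -/
def msk (H : ℕ) : ℕ := 2 ^ (16 * H) - 1

/-- a one in each of the first `H` lanes -/
def ones (H : ℕ) : ℕ := (2 ^ (16 * H) - 1) / 65535

/-- the number with given lanes -/
def ofL (f : ℕ → ℕ) (H : ℕ) : ℕ := ∑ p ∈ range H, f p * 65536 ^ p

theorem lane_eq (x p : ℕ) : lane x p = x / 65536 ^ p % 65536 := by
  unfold lane; rw [pow_mul]; norm_num

theorem lane_lt (x p : ℕ) : lane x p < 65536 := Nat.mod_lt _ (by norm_num)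

theorem lane_z (x : ℕ) : lane x 0 = x % 65536 := by simp [lane]

theorem lane_s (x p : ℕ) : lane x (p + 1) = lane (x / 65536) p := by
  rw [lane_eq, lane_eq, Nat.div_div_eq_div_mul, pow_succ']

@[simp] theorem lane_zero (p : ℕ) : lane 0 p = 0 := by simp [lane]

theorem lane_add {x y p : ℕ} (h : ∀ q ≤ p, lane x q + lane y q < 65536) :
    lane (x + y) p = lane x p + lane y p := by
  induction p generalizing x y with
  | zero =>
    have := h 0 le_rfl
    simp only [lane_z] at this ⊢
    omega
  | succ p ih =>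
    have h0 := h 0 (Nat.zero_le _)
    simp only [lane_z] at h0
    have e : (x + y) / 65536 = x / 65536 + y / 65536 := by omega
    rw [lane_s, lane_s, lane_s, e]
    refine ih fun q hq => ?_
    rw [← lane_s, ← lane_s]
    exact h _ (by omega)

theorem lane_mul {x c p : ℕ} (h : ∀ q ≤ p, lane x q * c < 65536) :
    lane (x * c) p = lane x p * c := by
  induction p generalizing x with
  | zero =>
    have := h 0 le_rfl
    simp only [lane_z] at this ⊢
    conv_lhs => rw [← Nat.div_add_mod x 65536, add_mul, mul_assoc, Nat.mul_add_mod]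
    exact Nat.mod_eq_of_lt this
  | succ p ih =>
    have h0 := h 0 (Nat.zero_le _)
    simp only [lane_z] at h0
    have e : (x * c) / 65536 = x / 65536 * c := by
      conv_lhs => rw [← Nat.div_add_mod x 65536, add_mul, mul_assoc,
        Nat.mul_add_div (by norm_num), Nat.div_eq_of_lt h0, add_zero]
    rw [lane_s, lane_s, e]
    refine ih fun q hq => ?_
    rw [← lane_s]
    exact h _ (by omega)

theorem lane_up_z (x : ℕ) : lane (x * 65536) 0 = 0 := by simp [lane_z]

theorem lane_up_s (x p : ℕ) : lane (x * 65536) (p + 1) = lane x p := by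
  rw [lane_s, Nat.mul_div_cancel _ (by norm_num)]

theorem lane_up (x s p : ℕ) :
    lane (x * 65536 ^ s) p = if p < s then 0 else lane x (p - s) := by
  induction s generalizing p with
  | zero => simp
  | succ s ih =>
    rw [pow_succ, ← mul_assoc]
    cases p with
    | zero => simp [lane_up_z]
    | succ p => rw [lane_up_s, ih]; simp

theorem lane_land (x y p : ℕ) : lane (Nat.land x y) p = Nat.land (lane x p) (lane y p) := by
  unfold lane
  change (x &&& y) / 2 ^ (16 * p) % 2 ^ 16
    = (x / 2 ^ (16 * p) % 2 ^ 16) &&& (y / 2 ^ (16 * p) % 2 ^ 16)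
  rw [Nat.and_div_two_pow, Nat.and_mod_two_pow]

theorem lane_ext {x y : ℕ} (h : ∀ p, lane x p = lane y p) : x = y := by
  induction x using Nat.strong_induction_on generalizing y with
  | _ x ih =>
    induction y using Nat.strong_induction_on with
    | _ y _ =>
      have h0 := h 0
      simp only [lane_z] at h0
      rcases Nat.eq_zero_or_pos x with rfl | hx
      · by_contra hy
        have hy' : 0 < y := Nat.pos_of_ne_zero fun e => hy e.symm
        have h1 : 65536 ^ Nat.log 65536 y ≤ y := Nat.pow_log_le_self _ hy'.ne'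
        have h2 : y < 65536 ^ (Nat.log 65536 y + 1) := Nat.lt_pow_succ_log_self (by norm_num) y
        have h3 := h (Nat.log 65536 y)
        rw [lane_zero, lane_eq] at h3
        have h4 : y / 65536 ^ Nat.log 65536 y < 65536 := by
          rw [Nat.div_lt_iff_lt_mul (by positivity), ← pow_succ']; exact h2
        have h5 : 0 < y / 65536 ^ Nat.log 65536 y := Nat.div_pos h1 (by positivity)
        rw [Nat.mod_eq_of_lt h4] at h3
        omega
      · have e : x / 65536 = y / 65536 :=
          ih _ (Nat.div_lt_self hx (by norm_num)) fun p => by rw [← lane_s, ← lane_s, h]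
        omega

theorem ofL_succ (f : ℕ → ℕ) (H : ℕ) :
    ofL f (H + 1) = f 0 + ofL (fun p => f (p + 1)) H * 65536 := by
  unfold ofL
  rw [sum_range_succ', sum_mul, add_comm]
  simp [pow_succ, mul_assoc]

theorem lane_ofL {f : ℕ → ℕ} {H : ℕ} (hf : ∀ p < H, f p < 65536) (p : ℕ) :
    lane (ofL f H) p = if p < H then f p else 0 := by
  induction H generalizing f p with
  | zero => simp [ofL]
  | succ H ih =>
    have h0 := hf 0 (Nat.succ_pos _)
    rw [ofL_succ]
    cases p with
    | zero => rw [lane_z, if_pos (Nat.succ_pos _)]; omega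
    | succ p =>
      have e : (f 0 + ofL (fun p => f (p + 1)) H * 65536) / 65536
          = ofL (fun p => f (p + 1)) H := by omega
      rw [lane_s, e, ih fun q hq => hf _ (by omega)]
      simp

theorem ofL_const (H : ℕ) : ofL (fun _ => 65535) H + 1 = 2 ^ (16 * H) := by
  induction H with
  | zero => simp [ofL]
  | succ H ih =>
    rw [ofL_succ, mul_add, pow_add, ← ih]; omega

theorem msk_eq (H : ℕ) : msk H = ofL (fun _ => 65535) H := by
  unfold msk; rw [← ofL_const]; simp

theorem ofL_smul (c H : ℕ) : ofL (fun _ => c) H = c * ofL (fun _ => 1) H := by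
  unfold ofL; rw [mul_sum]; simp

theorem ones_eq (H : ℕ) : ones H = ofL (fun _ => 1) H := by
  have := msk_eq H
  unfold msk at this
  unfold ones
  rw [this, ofL_smul, Nat.mul_div_cancel_left _ (by norm_num)]

theorem lane_ones {c : ℕ} (hc : c < 65536) (H p : ℕ) :
    lane (c * ones H) p = if p < H then c else 0 := by
  rw [ones_eq, ← ofL_smul, lane_ofL fun _ _ => hc]

theorem lane_msk (x H p : ℕ) :
    lane (Nat.land x (msk H)) p = if p < H then lane x p else 0 := by
  rw [lane_land, msk_eq, lane_ofL fun _ _ => by norm_num]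
  split_ifs
  · change lane x p &&& (2 ^ 16 - 1) = _
    rw [Nat.and_two_pow_sub_one_eq_mod]
    exact Nat.mod_eq_of_lt (lane_lt x p)
  · exact Nat.and_zero _

theorem land_msk_lt (x H : ℕ) : Nat.land x (msk H) < 2 ^ (16 * H) := by
  change x &&& (2 ^ (16 * H) - 1) < _
  rw [Nat.and_two_pow_sub_one_eq_mod]
  exact Nat.mod_lt _ (by positivity)

theorem lane_land_le {c : ℕ} (hc : c < 65536) (x H p : ℕ) :
    lane (Nat.land x (c * ones H)) p ≤ c := by
  rw [lane_land, lane_ones hc]
  split_ifs
  · exact Nat.and_le_right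
  · exact (Nat.and_le_right).trans (Nat.zero_le _)

theorem lane_shr (y p : ℕ) : Nat.land (lane (Nat.shiftRight y 9) p) 127 = lane y p / 512 := by
  change (lane (y >>> 9) p) &&& (2 ^ 7 - 1) = _
  rw [Nat.and_two_pow_sub_one_eq_mod, Nat.shiftRight_eq_div_pow, lane_eq, lane_eq,
    Nat.div_div_eq_div_mul, mul_comm, ← Nat.div_div_eq_div_mul]
  omega

/-- reduction of all lanes modulo three; `K = 127 * ones H` -/
def nrm1 (K y : ℕ) : ℕ :=
  Nat.sub y (Nat.mul (Nat.land (Nat.shiftRight (Nat.mul y 171) 9) K) 3)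

/-- normal form; `T = Th H`, `M = msk H`, `K = 127 * ones H` -/
def nrm (T M K x : ℕ) : ℕ := cond (Nat.ble T x) x (nrm1 K (Nat.land x M))

theorem nrm1_eq {H y : ℕ} (h : ∀ p < H, lane y p ≤ 383) (h' : ∀ p, H ≤ p → lane y p = 0) :
    nrm1 (127 * ones H) y = ofL (fun p => lane y p % 3) H := by
  have hb : ∀ p, lane y p ≤ 383 := fun p => by
    rcases lt_or_ge p H with hp | hp
    · exact h p hp
    · rw [h' p hp]; omega
  have hq : ∀ p, lane (Nat.land (Nat.shiftRight (y * 171) 9) (127 * ones H)) p = lane y p / 3 := by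
    intro p
    rw [lane_land, lane_ones (by norm_num)]
    split_ifs with hp
    · rw [lane_shr, lane_mul fun q _ => by have := hb q; omega]
      have := hb p
      omega
    · rw [h' p (by omega)]; exact Nat.and_zero _
  have hr : ∀ p, lane (ofL (fun p => lane y p % 3) H) p = lane y p % 3 := by
    intro p
    rw [lane_ofL fun q _ => by omega]
    split_ifs with hp
    · rfl
    · rw [h' p (by omega)]
  have h3 : ∀ p, lane (Nat.land (Nat.shiftRight (y * 171) 9) (127 * ones H) * 3) p
      = lane y p / 3 * 3 := by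
    intro p
    rw [lane_mul fun q _ => by rw [hq]; have := hb q; omega, hq]
  have e : y = ofL (fun p => lane y p % 3) H
      + Nat.land (Nat.shiftRight (y * 171) 9) (127 * ones H) * 3 := by
    refine lane_ext fun p => ?_
    rw [lane_add fun q _ => by rw [hr, h3]; have := hb q; omega, hr, h3]
    omega
  change y - Nat.land (Nat.shiftRight (y * 171) 9) (127 * ones H) * 3 = _
  omega

theorem ofL_lt {f : ℕ → ℕ} {H : ℕ} (hf : ∀ p < H, f p < 65536) : ofL f H < 2 ^ (16 * H) := by
  rw [← ofL_const]
  refine Nat.lt_succ_of_le (sum_le_sum fun p hp => Nat.mul_le_mul_right _ ?_)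
  have := hf p (mem_range.1 hp)
  change f p ≤ 65535
  omega

theorem le_Th (H : ℕ) : 2 ^ (16 * H) ≤ Th H := Nat.pow_le_pow_right (by norm_num) (by omega)

section Val

variable {R : Type*} [CommRing R]

/-- the value of a number -/
def val (z : R) (H x : ℕ) : R := ∑ p ∈ range H, (lane x p : R) * z ^ p

/-- `x` is unknown or has small lanes and represents `r` after multiplication by `z ^ j` -/
def Rep (z : R) (H β j x : ℕ) (r : R) : Prop :=
  Th H ≤ x ∨ ((∀ p < H, lane x p ≤ β) ∧ z ^ j * val z H x = z ^ j * r)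

variable {z : R} {H β β' j j' x y : ℕ} {r r' : R}

@[simp] theorem val_zero : val z H 0 = 0 := by simp [val]

theorem val_congr (h : ∀ p < H, (lane x p : R) = lane y p) : val z H x = val z H y :=
  sum_congr rfl fun p hp => by rw [h p (mem_range.1 hp)]

theorem val_add (h : ∀ p < H, lane x p + lane y p < 65536) :
    val z H (x + y) = val z H x + val z H y := by
  unfold val
  rw [← sum_add_distrib]
  refine sum_congr rfl fun p hp => ?_
  rw [lane_add fun q hq => h q (by have := mem_range.1 hp; omega)]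
  push_cast; ring

theorem val_mul {c : ℕ} (h : ∀ p < H, lane x p * c < 65536) :
    val z H (x * c) = c * val z H x := by
  unfold val
  rw [mul_sum]
  refine sum_congr rfl fun p hp => ?_
  rw [lane_mul fun q hq => h q (by have := mem_range.1 hp; omega)]
  push_cast; ring

theorem val_up1 (hz : z ^ H = 0) (x : ℕ) : val z H (x * 65536) = z * val z H x := by
  cases H with
  | zero => simp [val]
  | succ H =>
    unfold val
    rw [sum_range_succ', sum_range_succ, lane_up_z, mul_add, mul_sum]
    have : z * ((lane x H : R) * z ^ H) = 0 := by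
      rw [mul_left_comm, ← pow_succ', hz, mul_zero]
    rw [this]
    simp only [Nat.cast_zero, zero_mul, add_zero, lane_up_s]
    exact sum_congr rfl fun p _ => by ring

theorem val_up (hz : z ^ H = 0) (x s : ℕ) : val z H (x * 65536 ^ s) = z ^ s * val z H x := by
  induction s with
  | zero => simp
  | succ s ih => rw [pow_succ, ← mul_assoc, val_up1 hz, ih]; ring

theorem val_msk (x : ℕ) : val z H (Nat.land x (msk H)) = val z H x :=
  val_congr fun p hp => by rw [lane_msk, if_pos hp]

theorem val_one (hz : z ^ H = 0) : val z H 1 = 1 := by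
  cases H with
  | zero => simp only [pow_zero] at hz; simp [val, hz]
  | succ H =>
    unfold val
    rw [sum_range_succ']
    have : ∀ p, lane 1 (p + 1) = 0 := fun p => by rw [lane_s]; simp
    simp [this, lane_z]

theorem Rep.poison (h : Th H ≤ x) : Rep z H β j x r := Or.inl h

theorem Rep.of_val (h : ∀ p < H, lane x p ≤ β) : Rep z H β j x (val z H x) := Or.inr ⟨h, rfl⟩

theorem Rep.zero : Rep z H β j 0 0 := Or.inr ⟨fun _ _ => by simp, by simp⟩

theorem Rep.zero_of_le (hz : z ^ H = 0) (h : H ≤ j) : Rep z H β j 0 r := by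
  refine Or.inr ⟨fun _ _ => by simp, ?_⟩
  obtain ⟨k, rfl⟩ := Nat.exists_eq_add_of_le h
  rw [pow_add, hz]; simp

theorem Rep.one (hz : z ^ H = 0) : Rep z H 1 j 1 1 := by
  refine Or.inr ⟨fun p _ => ?_, by rw [val_one hz]⟩
  cases p with
  | zero => simp [lane_z]
  | succ p => rw [lane_s]; simp

theorem Rep.mono (h : Rep z H β j x r) (hβ : β ≤ β') (hj : j ≤ j') : Rep z H β' j' x r := by
  rcases h with h | ⟨h, e⟩
  · exact Or.inl h
  · refine Or.inr ⟨fun p hp => (h p hp).trans hβ, ?_⟩
    obtain ⟨k, rfl⟩ := Nat.exists_eq_add_of_le hj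
    rw [pow_add, mul_comm (z ^ j), mul_assoc, mul_assoc, e]

theorem Rep.congr (h : Rep z H β j x r) (e : z ^ j * r = z ^ j * r') : Rep z H β j x r' :=
  h.imp_right fun h => ⟨h.1, h.2.trans e⟩

theorem Rep.of_eq (h : Rep z H β j x r) (e : r = r') : Rep z H β j x r' := e ▸ h

theorem Rep.add (h : Rep z H β j x r) (h' : Rep z H β' j y r') (hb : β + β' < 65536) :
    Rep z H (β + β') j (Nat.add x y) (r + r') := by
  change Rep z H (β + β') j (x + y) (r + r')
  rcases h with h | ⟨h, e⟩
  · exact Or.inl (by omega)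
  rcases h' with h' | ⟨h', e'⟩
  · exact Or.inl (by omega)
  have hs : ∀ p < H, lane x p + lane y p < 65536 := fun p hp => by
    have := h p hp; have := h' p hp; omega
  refine Or.inr ⟨fun p hp => ?_, by rw [val_add hs, mul_add, mul_add, e, e']⟩
  rw [lane_add fun q hq => hs q (by omega)]
  exact add_le_add (h p hp) (h' p hp)

theorem Rep.mul_nat {c : ℕ} (h : Rep z H β j x r) (hb : β * c < 65536) :
    Rep z H (β * c) j (Nat.mul x c) (c * r) := by
  change Rep z H (β * c) j (x * c) (c * r)
  rcases Nat.eq_zero_or_pos c with rfl | hc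
  · simpa using Rep.zero
  rcases h with h | ⟨h, e⟩
  · exact Or.inl (h.trans (Nat.le_mul_of_pos_right _ hc))
  have hs : ∀ p < H, lane x p * c < 65536 := fun p hp =>
    lt_of_le_of_lt (Nat.mul_le_mul_right _ (h p hp)) hb
  refine Or.inr ⟨fun p hp => ?_, by rw [val_mul hs, mul_left_comm, e, mul_left_comm]⟩
  rw [lane_mul fun q hq => hs q (by omega)]
  exact Nat.mul_le_mul_right _ (h p hp)

theorem Rep.up (hz : z ^ H = 0) {s s' : ℕ} (h : Rep z H β (j + s') x r) (hs : s' ≤ s) :
    Rep z H β j (x * 65536 ^ s) (z ^ s * r) := by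
  rcases h with h | ⟨h, e⟩
  · exact Or.inl (h.trans (Nat.le_mul_of_pos_right _ (by positivity)))
  refine Or.inr ⟨fun p hp => ?_, ?_⟩
  · rw [lane_up]
    split_ifs
    · exact Nat.zero_le _
    · exact h _ (by omega)
  · obtain ⟨k, rfl⟩ := Nat.exists_eq_add_of_le hs
    rw [val_up hz]
    calc z ^ j * (z ^ (s' + k) * val z H x) = z ^ k * (z ^ (j + s') * val z H x) := by ring
      _ = z ^ j * (z ^ (s' + k) * r) := by rw [e]; ring

/-- shift by `s` lanes and `c` bits -/
theorem Rep.shift (hz : z ^ H = 0) {s s' c n : ℕ} (h : Rep z H β (j + s') x r) (hs : s' ≤ s)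
    (hn : n = 16 * s + c) (hb : 2 ^ c * β < 65536) :
    Rep z H (2 ^ c * β) j (Nat.shiftLeft x n) (2 ^ c * z ^ s * r) := by
  have e : Nat.shiftLeft x n = Nat.mul x (2 ^ c) * 65536 ^ s := by
    change x <<< n = x * 2 ^ c * 65536 ^ s
    rw [Nat.shiftLeft_eq, hn, pow_add, pow_mul]
    norm_num
    ring
  rw [e, mul_comm (2 ^ c) β]
  refine ((h.mul_nat (by rw [mul_comm]; exact hb)).up hz hs).of_eq ?_
  push_cast; ring

theorem Rep.land_msk (h : Rep z H β j x r) (hx : x < Th H) :
    Rep z H β j (Nat.land x (msk H)) r := by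
  rcases h with h | ⟨h, e⟩
  · omega
  exact Or.inr ⟨fun p hp => by rw [lane_msk, if_pos hp]; exact h p hp, by rw [val_msk, e]⟩

/-- a literal masked to lanes `≤ c` represents its own value -/
theorem Rep.lit {c : ℕ} (hc : c < 65536) (x : ℕ) :
    Rep z H c j (Nat.land x (c * ones H)) (val z H (Nat.land x (c * ones H))) :=
  Rep.of_val fun p _ => lane_land_le hc x H p

theorem nrm_of_le {T M K : ℕ} (h : T ≤ x) : nrm T M K x = x := by
  unfold nrm; rw [Nat.ble_eq_true_of_le h]; rfl

theorem nrm_of_lt (hx : x < Th H) (h : ∀ p < H, lane x p ≤ 383) :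
    nrm (Th H) (msk H) (127 * ones H) x = ofL (fun p => lane x p % 3) H := by
  have : Nat.ble (Th H) x = false := by
    rw [← Bool.not_eq_true, Nat.ble_eq]; omega
  unfold nrm
  rw [this, cond_false, nrm1_eq (fun p hp => by rw [lane_msk, if_pos hp]; exact h p hp)
    fun p hp => by rw [lane_msk, if_neg (by omega)]]
  exact sum_congr rfl fun p hp => by simp only [lane_msk, if_pos (mem_range.1 hp)]

theorem cast_mod_three (h3 : (3 : R) = 0) (n : ℕ) : ((n % 3 : ℕ) : R) = n := by
  conv_rhs => rw [← Nat.div_add_mod n 3]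
  push_cast
  rw [h3]; simp

theorem val_ofL_mod (h3 : (3 : R) = 0) (x : ℕ) :
    val z H (ofL (fun p => lane x p % 3) H) = val z H x :=
  val_congr fun p hp => by rw [lane_ofL fun q _ => by omega, if_pos hp, cast_mod_three h3]

theorem Rep.nrm (h3 : (3 : R) = 0) {T M K : ℕ} (hT : T = Th H) (hM : M = msk H)
    (hK : K = 127 * ones H) (h : Rep z H β j x r) (hb : β ≤ 383) :
    Rep z H 2 j (nrm T M K x) r := by
  subst hT hM hK
  rcases le_or_gt (Th H) x with hx | hx
  · rw [nrm_of_le hx]; exact Or.inl hx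
  rcases h with h | ⟨h, e⟩
  · omega
  rw [nrm_of_lt hx fun p hp => (h p hp).trans hb]
  refine Or.inr ⟨fun p hp => ?_, by rw [val_ofL_mod h3, e]⟩
  rw [lane_ofL fun q _ => by omega, if_pos hp]
  omega

theorem Th_pos (H : ℕ) : 0 < Th H := by unfold Th; positivity

/-- a known number has the value it represents -/
theorem Rep.val_eq (h : Rep z H β j x r) (hx : x < Th H) : z ^ j * val z H x = z ^ j * r := by
  rcases h with h | ⟨-, e⟩
  · omega
  · exact e

theorem Rep.lane_le (h : Rep z H β j x r) (hx : x < Th H) : ∀ p < H, lane x p ≤ β := by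
  rcases h with h | ⟨h, -⟩
  · omega
  · exact h

theorem Rep.eq_zero_j (h3 : (3 : R) = 0) {T M K : ℕ} (hT : T = Th H) (hM : M = msk H)
    (hK : K = 127 * ones H) (h : Rep z H β j x r) (hb : β ≤ 383)
    (e : Cert.nrm T M K x = 0) : z ^ j * r = 0 := by
  have := h.nrm h3 hT hM hK hb
  rw [e] at this
  rw [← this.val_eq (Th_pos H), val_zero, mul_zero]

theorem Rep.eq_zero (h3 : (3 : R) = 0) {T M K : ℕ} (hT : T = Th H) (hM : M = msk H)
    (hK : K = 127 * ones H) (h : Rep z H β 0 x r) (hb : β ≤ 383)
    (e : Cert.nrm T M K x = 0) : r = 0 := by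
  simpa using h.eq_zero_j h3 hT hM hK hb e

/-- comparison of a computed number with a known literal -/
theorem Rep.eq_val (h3 : (3 : R) = 0) {T M K : ℕ} (hT : T = Th H) (hM : M = msk H)
    (hK : K = 127 * ones H) (h : Rep z H β j x r) (hb : β ≤ 383)
    (e : Cert.nrm T M K x = y) (hy : y < Th H) : z ^ j * r = z ^ j * val z H y := by
  have := h.nrm h3 hT hM hK hb
  rw [e] at this
  exact (this.val_eq hy).symm

/-- after normalisation a known number is short -/
theorem nrm_lt (hx : x < Th H) (h : ∀ p < H, lane x p ≤ 383) :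
    Cert.nrm (Th H) (msk H) (127 * ones H) x < 2 ^ (16 * H) := by
  rw [nrm_of_lt hx h]
  exact ofL_lt fun p _ => by omega

theorem val_ofL {f : ℕ → ℕ} (hf : ∀ p < H, f p < 65536) :
    val z H (ofL f H) = ∑ p ∈ range H, (f p : R) * z ^ p :=
  sum_congr rfl fun p hp => by rw [lane_ofL hf, if_pos (mem_range.1 hp)]

theorem val_succ (x : ℕ) :
    val z (H + 1) x = (lane x 0 : R) + z * val z H (x / 65536) := by
  unfold val
  rw [sum_range_succ', add_comm, mul_sum]
  simp only [lane_s, pow_zero, mul_one]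
  exact congrArg _ (sum_congr rfl fun p _ => by ring)

theorem ofL_lane (y H : ℕ) : y = ofL (lane y) H + y / 65536 ^ H * 65536 ^ H := by
  induction H generalizing y with
  | zero => simp [ofL]
  | succ H ih =>
    rw [ofL_succ, lane_z]
    simp only [lane_s]
    have e := ih (y / 65536)
    rw [Nat.div_div_eq_div_mul, ← pow_succ'] at e
    rw [pow_succ 65536 H, ← mul_assoc, add_assoc, ← add_mul, ← pow_succ, ← e]
    omega

theorem Rep.high (w : ℕ) : Rep z H 0 j (w * 65536 ^ H) 0 := by
  have hl : ∀ p < H, lane (w * 65536 ^ H) p = 0 := fun p hp => by rw [lane_up, if_pos hp]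
  refine Or.inr ⟨fun p hp => (hl p hp).le, ?_⟩
  rw [val_congr (y := 0) fun p hp => by rw [hl p hp, lane_zero], val_zero]

theorem Rep.mul_ofL (hz : z ^ H = 0) (h : Rep z H β j x r) (f : ℕ → ℕ) (n : ℕ)
    (hb : β * ∑ q ∈ range n, f q < 65536) :
    Rep z H (β * ∑ q ∈ range n, f q) j (x * ofL f n) (r * ∑ q ∈ range n, (f q : R) * z ^ q) := by
  induction n with
  | zero => simpa [ofL] using Rep.zero
  | succ n ih =>
    rw [sum_range_succ, mul_add] at hb
    have h1 := ih (by omega)
    have h2 := ((h.mul_nat (c := f n) (by omega)).mono le_rfl (Nat.le_add_right j 0)).up hz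
      (Nat.zero_le n)
    have h3 := h1.add h2 hb
    have e : x * ofL f (n + 1) = Nat.add (x * ofL f n) (Nat.mul x (f n) * 65536 ^ n) := by
      change _ = x * ofL f n + x * f n * 65536 ^ n
      unfold ofL
      rw [sum_range_succ]; ring
    rw [e, sum_range_succ, mul_add]
    exact h3.of_eq (by rw [sum_range_succ]; ring)

/-- product by substitution; `σ` bounds the sum of the lanes of `y` -/
theorem Rep.mul (hz : z ^ H = 0) {σ : ℕ} (h : Rep z H β j x r) (h' : Rep z H β' j y r')
    (hσ : y < Th H → ∑ q ∈ range H, lane y q ≤ σ) (hb : β * σ < 65536) :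
    Rep z H (β * σ) j (Nat.mul x y) (r * r') := by
  change Rep z H (β * σ) j (x * y) (r * r')
  rcases le_or_gt (Th H) y with hy | hy
  · rcases Nat.eq_zero_or_pos x with rfl | hx
    · have e := h.val_eq (Th_pos H)
      rw [zero_mul]
      refine Rep.zero.congr ?_
      rw [← mul_assoc, ← e]; simp
    · exact Or.inl (hy.trans (Nat.le_mul_of_pos_left _ hx))
  have hs := Nat.mul_le_mul_left β (hσ hy)
  have h1 := (h.mul_ofL hz (lane y) H (by omega)).add (Rep.high (x * (y / 65536 ^ H)))
    (by omega)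
  have e : x * y = Nat.add (x * ofL (lane y) H) (x * (y / 65536 ^ H) * 65536 ^ H) := by
    change _ = x * ofL (lane y) H + x * (y / 65536 ^ H) * 65536 ^ H
    conv_lhs => rw [ofL_lane y H]
    ring
  rw [e]
  refine (h1.mono (by omega) le_rfl).congr ?_
  have e' := h'.val_eq hy
  unfold val at e'
  rw [add_zero, mul_left_comm, e', mul_left_comm]

/-- the product with the crude bound -/
theorem Rep.mul' (hz : z ^ H = 0) (h : Rep z H β j x r) (h' : Rep z H β' j y r')
    (hb : β * (H * β') < 65536) : Rep z H (β * (H * β')) j (Nat.mul x y) (r * r') := by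
  refine h.mul hz h' (fun hy => ?_) hb
  calc ∑ q ∈ range H, lane y q ≤ ∑ _q ∈ range H, β' :=
        sum_le_sum fun q hq => h'.lane_le hy q (mem_range.1 hq)
    _ = H * β' := by simp

/-- the sum of the lanes is read off modulo `65535` -/
theorem sum_lane_mod (y H : ℕ) : ofL (lane y) H % 65535 = (∑ q ∈ range H, lane y q) % 65535 := by
  unfold ofL
  refine (ZMod.natCast_eq_natCast_iff' _ _ _).1 ?_
  push_cast
  refine sum_congr rfl fun q _ => ?_
  rw [show (65536 : ZMod 65535) = 1 from by decide +kernel, one_pow, mul_one]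

/-- a computable bound for the sum of the lanes -/
theorem sum_lane_le {c : ℕ} (hy : y < 2 ^ (16 * H)) (hc : ∀ p < H, lane y p ≤ c)
    (hH : H * c < 65535) : ∑ q ∈ range H, lane y q = Nat.mod y 65535 := by
  have e := ofL_lane y H
  rw [Nat.div_eq_of_lt (by rw [pow_mul] at hy; exact hy), zero_mul, add_zero] at e
  have hs : ∑ q ∈ range H, lane y q ≤ H * c := by
    calc ∑ q ∈ range H, lane y q ≤ ∑ _q ∈ range H, c :=
          sum_le_sum fun q hq => hc q (mem_range.1 hq)
      _ = H * c := by simp
  change _ = y % 65535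
  conv_rhs => rw [e, sum_lane_mod]
  exact (Nat.mod_eq_of_lt (by omega)).symm

end Val

section Ring0

open Polynomial

/-- the truncated polynomial ring -/
abbrev R0 (H : ℕ) : Type := AdjoinRoot ((X : (ZMod 3)[X]) ^ H)

/-- the variable -/
noncomputable def z0 (H : ℕ) : R0 H := AdjoinRoot.root _

theorem z0_pow (H : ℕ) : z0 H ^ H = 0 := by
  have := AdjoinRoot.eval₂_root ((X : (ZMod 3)[X]) ^ H)
  simpa [z0] using this

theorem three_R0 (H : ℕ) : (3 : R0 H) = 0 := by
  have : (3 : R0 H) = algebraMap (ZMod 3) (R0 H) 3 := (map_ofNat _ 3).symm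
  rw [this, show (3 : ZMod 3) = 0 from rfl, map_zero]

/-- the coefficient of `z ^ p` -/
noncomputable def co (H p : ℕ) : R0 H →ₗ[ZMod 3] ZMod 3 :=
  (lcoeff (ZMod 3) p).comp (AdjoinRoot.modByMonicHom (monic_X_pow H))

theorem co_pow {H p : ℕ} (hp : p < H) (q : ℕ) :
    co H p (z0 H ^ q) = if q = p then 1 else 0 := by
  rcases lt_or_ge q H with hq | hq
  · have : z0 H ^ q = AdjoinRoot.mk _ (X ^ q) := by simp [z0]
    rw [this, co, LinearMap.comp_apply, AdjoinRoot.modByMonicHom_mk,
      (modByMonic_eq_self_iff (monic_X_pow H)).2 (by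
        rw [degree_X_pow, degree_X_pow]; exact_mod_cast hq), lcoeff_apply, coeff_X_pow]
    simp [eq_comm]
  · obtain ⟨k, rfl⟩ := Nat.exists_eq_add_of_le hq
    rw [pow_add, z0_pow, zero_mul, map_zero, if_neg (by omega)]

theorem co_sum {H p : ℕ} (hp : p < H) (c : ℕ → ZMod 3) :
    co H p (∑ q ∈ range H, c q • z0 H ^ q) = c p := by
  rw [map_sum, sum_eq_single p]
  · rw [map_smul, co_pow hp]; simp
  · intro q _ hq; rw [map_smul, co_pow hp, if_neg hq, smul_zero]
  · intro h; exact absurd (mem_range.2 hp) h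

theorem indep {H : ℕ} {c : ℕ → ZMod 3} (h : ∑ q ∈ range H, c q • z0 H ^ q = 0) :
    ∀ p < H, c p = 0 := fun p hp => by rw [← co_sum hp c, h, map_zero]

theorem co_val {H p : ℕ} (hp : p < H) (x : ℕ) :
    co H p (val (z0 H) H x) = (lane x p : ZMod 3) := by
  rw [← co_sum hp fun q => (lane x q : ZMod 3)]
  congr 1
  exact sum_congr rfl fun q _ => by rw [Algebra.smul_def, map_natCast]

theorem co_shift {H p : ℕ} (hp : p < H) (j : ℕ) (c : ℕ → ZMod 3) :
    co H p (z0 H ^ j * ∑ q ∈ range H, c q • z0 H ^ q) = if j ≤ p then c (p - j) else 0 := by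
  rw [mul_sum, map_sum]
  simp only [mul_smul_comm, ← pow_add, map_smul, co_pow hp]
  split_ifs with h
  · rw [sum_eq_single (p - j)]
    · rw [if_pos (by omega)]; simp
    · intro q _ hq; rw [if_neg (by omega), smul_zero]
    · intro h'; exact absurd (mem_range.2 (by omega)) h'
  · exact sum_eq_zero fun q _ => by rw [if_neg (by omega), smul_zero]

theorem eq_sum_co {H : ℕ} (r : R0 H) : r = ∑ q ∈ range H, co H q r • z0 H ^ q := by
  induction r using AdjoinRoot.induction_on with
  | ih f =>
    induction f using Polynomial.induction_on' with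
    | add f g hf hg =>
      rw [map_add]
      conv_lhs => rw [hf, hg]
      simp only [map_add, add_smul, sum_add_distrib]
    | monomial n a =>
      have e : AdjoinRoot.mk ((X : (ZMod 3)[X]) ^ H) (monomial n a) = a • z0 H ^ n := by
        rw [← C_mul_X_pow_eq_monomial, map_mul, map_pow, AdjoinRoot.mk_C, AdjoinRoot.mk_X,
          Algebra.smul_def]
        rfl
      rw [e]
      rcases lt_or_ge n H with hn | hn
      · rw [sum_eq_single n]
        · rw [map_smul, co_pow hn]; simp
        · intro q hq hn'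
          rw [map_smul, co_pow (mem_range.1 hq), if_neg (Ne.symm hn')]; simp
        · intro h; exact absurd (mem_range.2 hn) h
      · obtain ⟨k, rfl⟩ := Nat.exists_eq_add_of_le hn
        simp [pow_add, z0_pow]

theorem ext_co {H : ℕ} {r r' : R0 H} (h : ∀ p < H, co H p r = co H p r') : r = r' := by
  rw [eq_sum_co r, eq_sum_co r']
  exact sum_congr rfl fun q hq => by rw [h q (mem_range.1 hq)]

theorem nontrivial_R0 {H : ℕ} (h : 0 < H) : Nontrivial (R0 H) := by
  refine ⟨⟨z0 H ^ 0, 0, fun e => ?_⟩⟩
  have := co_pow h 0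
  rw [e, map_zero, if_pos rfl] at this
  exact zero_ne_one this

/-- reading a lane of a known number -/
theorem Rep.co_eq {H β j x p : ℕ} {r : R0 H} (h : Rep (z0 H) H β j x r) (hx : x < Th H)
    (hp : p + j < H) : co H p r = (lane x p : ZMod 3) := by
  have e := congrArg (co H (p + j)) (h.val_eq hx)
  rw [eq_sum_co (val (z0 H) H x), eq_sum_co r, co_shift hp, co_shift hp, if_pos (by omega),
    if_pos (by omega), Nat.add_sub_cancel, co_val (by omega)] at e
  exact e.symm

end Ring0

end Vale.Agent.P236K.Cert
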