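import Vale.Agent.P236K.Cert.Mrg

/-!
# P236K / Cert / LevF : `levOK` with bounded recursion depth
-/

noncomputable section

namespace Vale.Agent.P236K.Cert

/-- the identity -/
def idA {α : Type} (a : α) : α := a

/-- strictly increasing, above `x` -/
def incrF (l : List ℕ) : ℕ → Bool :=
  List.rec (fun _ => true) (fun k _ r x => idA (Bool.rec false (r (Nat.succ k)) (Nat.ble x k))) l

/-- the weights -/
def wkL (L : Lay) (l : List ℕ) : List ℕ := List.rec [] (fun k _ r => wk L k :: r) l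

/-- the number of occurrences -/
def cntF (u : ℕ) (l : List ℕ) : ℕ → ℕ :=
  List.rec (motive := fun _ => ℕ → ℕ) (fun c => c) (fun w _ r c =>
    idA (Bool.rec (r c) (fS (Nat.succ c) r) (Nat.beq w u))) l

/-- the test of the rows -/
def allF (Q1 Q2 : NP) (gl rows : List ℕ) : Bool :=
  List.rec true (fun k _ r => idA (Bool.rec false (Bool.rec false (Bool.rec false r (Q1.isC k))
    (Nat.ble (wk Q1.L k) Q2.L.N)) (fS (Nat.div k 268435456) fun g => memL g gl))) rows

/-- the same as `levOK` -/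
def levF (Q1 Q2 : NP) (gl rows : List ℕ) : Bool :=
  Bool.rec false (Bool.rec false
    (Nat.rec true (fun u r => idA (Bool.rec false r
      (Nat.ble (Q2.tw u).size (cntF u (wkL Q1.L rows) 0)))) (Nat.succ Q2.L.N))
    (allF Q1 Q2 gl rows)) (incrF rows 0)

theorem cntF_eq (L : Lay) (u : ℕ) (l : List ℕ) : cntF u (wkL L l) =
    List.rec (motive := fun _ => ℕ → ℕ) (fun c => c) (fun k _ r c =>
      Bool.rec (r c) (fS (Nat.succ c) r) (Nat.beq (wk L k) u)) l := by
  induction l with
  | nil => rfl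
  | cons k l ih =>
    funext c
    exact congrArg (fun r : ℕ → ℕ => (Bool.rec (r c) (fS (Nat.succ c) r)
      (Nat.beq (wk L k) u) : ℕ)) ih

theorem levF_eq (Q1 Q2 : NP) (gl rows : List ℕ) : levF Q1 Q2 gl rows = levOK Q1 Q2 gl rows := by
  simp only [levF, cntF_eq]
  rfl

theorem Stp.ofF {Q1 Q2 : NP} {gl rows : List ℕ} {fm ms fe bs : ℕ → ℕ}
    (h : RowsAll (par Q1 Q2 fm ms fe bs) rows) (h' : levF Q1 Q2 gl rows = true) :
    Stp Q1 Q2 gl := Stp.of h (levF_eq Q1 Q2 gl rows ▸ h')

end Vale.Agent.P236K.Cert
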