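import Vale.Agent.P236K.Cert.Chain

/-!
# P236K / Cert / Mrg : merging of lists of rows, decompression of values
-/

noncomputable section

namespace Vale.Agent.P236K.Cert

/-- the merge of two lists, for kernel evaluation -/
def mrg (l : List ℕ) : List ℕ → List ℕ :=
  List.rec (fun r => r) (fun a _ ih r => List.rec (a :: ih [])
    (fun b r' ih' => Bool.rec (b :: ih') (a :: ih (b :: r')) (Nat.ble a b)) r) l

theorem mem_mrg {k : ℕ} {l r : List ℕ} (h : k ∈ mrg l r) : k ∈ l ∨ k ∈ r := by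
  induction l generalizing r with
  | nil => exact Or.inr h
  | cons a l ih =>
    induction r with
    | nil =>
      rcases List.mem_cons.1 (show k ∈ a :: mrg l [] from h) with h1 | h1
      · exact Or.inl (h1 ▸ List.mem_cons_self)
      · exact (ih h1).imp (List.mem_cons_of_mem _) id
    | cons b r ih' =>
      have e : mrg (a :: l) (b :: r) = Bool.rec (b :: mrg (a :: l) r) (a :: mrg l (b :: r))
        (Nat.ble a b) := rfl
      rw [e] at h
      rcases hb : Nat.ble a b with _ | _ <;> rw [hb] at h <;> rcases List.mem_cons.1 h with h1 | h1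
      · exact Or.inr (h1 ▸ List.mem_cons_self)
      · exact (ih' h1).imp id (List.mem_cons_of_mem _)
      · exact Or.inl (h1 ▸ List.mem_cons_self)
      · exact (ih h1).imp (List.mem_cons_of_mem _) id

theorem RowsAll.mrg {P : Par} {l r : List ℕ} (h : RowsAll P l) (h' : RowsAll P r) :
    RowsAll P (mrg l r) := fun k hk => (mem_mrg hk).elim (h k) (h' k)

theorem RowsAll.app {P : Par} {l r : List ℕ} (h : RowsAll P l) (h' : RowsAll P r) :
    RowsAll P (Cert.apd l r) := fun k hk =>
  (List.mem_append.1 (apd_eq l r ▸ hk)).elim (h k) (h' k)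

/-- the number with `n` digits `1` in base `2 ^ b` -/
def rep1 (b n : ℕ) : ℕ :=
  Nat.div (Nat.pred (Nat.pow 2 (Nat.mul b n))) (Nat.pred (Nat.pow 2 b))

/-- first multiplier -/
def u7a (n : ℕ) : ℕ := rep1 686 n
/-- first mask -/
def u7b (n : ℕ) : ℕ := Nat.mul (Nat.pred (Nat.pow 2 98)) (rep1 784 n)
/-- second multiplier -/
def u7c : ℕ := rep1 98 7
/-- second mask -/
def u7d (n : ℕ) : ℕ := Nat.mul 16383 (rep1 112 (Nat.mul 7 n))

/-- from two bits per lane to sixteen bits per lane (the two low bits of a lane are correct),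
for at most `49 n` lanes, `n ≤ 7`, or `n = 8` and at most `390` lanes -/
def unp7 (n x : ℕ) : ℕ :=
  Nat.mul (Nat.land (Nat.mul (Nat.land (Nat.mul x (u7a n)) (u7b n)) u7c) (u7d n))
    (nat_lit 19343993777516776559493121)

/-- an element of a list of trees -/
def nthB (l : List BT) : ℕ → BT :=
  List.rec (fun _ => BT.l) (fun a _ r n => Nat.rec a (fun m _ => r m) n) l

/-- the lowest nonzero ternary digit -/
def dLo (e : ℕ) : ℕ :=
  Bool.rec 0 (Bool.rec 1 (Bool.rec 2 (Bool.rec 3 4 (Nat.beq (Nat.mod e 81) 0))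
    (Nat.beq (Nat.mod e 27) 0)) (Nat.beq (Nat.mod e 9) 0)) (Nat.beq (Nat.mod e 3) 0)

/-- the highest nonzero ternary digit -/
def dHi (e : ℕ) : ℕ :=
  Bool.rec 0 (Bool.rec 1 (Bool.rec 2 (Bool.rec 3 4 (Nat.ble 81 e)) (Nat.ble 27 e)) (Nat.ble 9 e))
    (Nat.ble 3 e)

/-- the factor of the lowest variable, the digit is chosen by `dg` -/
def fLo (dg : ℕ → ℕ) (r : ℕ) : ℕ :=
  Bool.rec (Nat.mul 4 (dg (Nat.mod r 128)))
    (Bool.rec (Nat.succ (Nat.mul 4 (dg (Nat.mod (Nat.div r 128) 128))))
      (Bool.rec (Nat.add (Nat.mul 4 (dg (Nat.mod (Nat.div r 16384) 128))) 2)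
        (Nat.add (Nat.mul 4 (dg (Nat.div r 2097152))) 3) (Nat.beq (Nat.mod r 2097152) 0))
      (Nat.beq (Nat.mod r 16384) 0)) (Nat.beq (Nat.mod r 128) 0)

/-- order of the factors of the coproduct -/
def fe1 : ℕ → ℕ := fLo dLo
/-- order of the factors of the right unit -/
def fm3 : ℕ → ℕ := fLo dHi
/-- full precision -/
def zr (_ : ℕ) : ℕ := 0

end Vale.Agent.P236K.Cert
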