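import Vale.Agent.P236K.Cert.PFin
import Vale.Agent.P236K.Cert.D96
import Vale.Agent.P236K.P96.BC
import Vale.Agent.P236K.P96.R0
import Vale.Agent.P236K.P96.R1
import Vale.Agent.P236K.P96.R2
import Vale.Agent.P236K.P96.R3
import Vale.Agent.P236K.P96.R4
import Vale.Agent.P236K.P96.R5
import Vale.Agent.P236K.P96.R6
import Vale.Agent.P236K.P96.R7
import Vale.Agent.P236K.P96.R8
import Vale.Agent.P236K.P96.R9
import Vale.Agent.P236K.P96.R10
import Vale.Agent.P236K.P96.R11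
import Vale.Agent.P236K.P96.R12
import Vale.Agent.P236K.P96.R13
import Vale.Agent.P236K.P96.R14
import Vale.Agent.P236K.P96.R15
import Vale.Agent.P236K.P96.R16
import Vale.Agent.P236K.P96.R17
import Vale.Agent.P236K.P96.R18
import Vale.Agent.P236K.P96.R19
import Vale.Agent.P236K.P96.R20
import Vale.Agent.P236K.P96.R21
import Vale.Agent.P236K.P96.R22
import Vale.Agent.P236K.P96.R23
import Vale.Agent.P236K.P96.R24
import Vale.Agent.P236K.P96.R25

/-!
# P236K / Cert / P96L : the tables `D96` satisfy `Lev0`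
-/

noncomputable section

namespace Vale.Agent.P236K.Cert.Pl.P96

open Vale.Agent.P236K.Alg

theorem fin96 : D96.fin = true := by decide +kernel

theorem run_of {B B' : Box} {sp L L' M M' : L2} {G Y Y' K G1 Y1 Y1' K1 : L3} {n : ℕ} {D : List DL}
    (h : run B sp L L' G Y Y' n K D = true) (e0 : B' = B) (e1 : M = L) (e2 : M' = L') (e3 : G1 = G)
    (e4 : Y1 = Y) (e5 : Y1' = Y') (e6 : K1 = K) :
    ∃ sp n D, run B' sp M M' G1 Y1 Y1' n K1 D = true := by
  subst e0 e1 e2 e3 e4 e5 e6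
  exact ⟨sp, n, D, h⟩

theorem chk96 : D96.Chk YY := ⟨chk, fin96, fun s hs => match s, hs with
  | 0, _ => run_of ok0 rfl rfl rfl rfl rfl rfl rfl
  | 1, _ => run_of ok1 rfl rfl rfl rfl rfl rfl rfl
  | 2, _ => run_of ok2 rfl rfl rfl rfl rfl rfl rfl
  | 3, _ => run_of ok3 rfl rfl rfl rfl rfl rfl rfl
  | 4, _ => run_of ok4 rfl rfl rfl rfl rfl rfl rfl
  | 5, _ => run_of ok5 rfl rfl rfl rfl rfl rfl rfl
  | 6, _ => run_of ok6 rfl rfl rfl rfl rfl rfl rfl
  | 7, _ => run_of ok7 rfl rfl rfl rfl rfl rfl rfl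
  | 8, _ => run_of ok8 rfl rfl rfl rfl rfl rfl rfl
  | 9, _ => run_of ok9 rfl rfl rfl rfl rfl rfl rfl
  | 10, _ => run_of ok10 rfl rfl rfl rfl rfl rfl rfl
  | 11, _ => run_of ok11 rfl rfl rfl rfl rfl rfl rfl
  | 12, _ => run_of ok12 rfl rfl rfl rfl rfl rfl rfl
  | 13, _ => run_of ok13 rfl rfl rfl rfl rfl rfl rfl
  | 14, _ => run_of ok14 rfl rfl rfl rfl rfl rfl rfl
  | 15, _ => run_of ok15 rfl rfl rfl rfl rfl rfl rfl
  | 16, _ => run_of ok16 rfl rfl rfl rfl rfl rfl rfl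
  | 17, _ => run_of ok17 rfl rfl rfl rfl rfl rfl rfl
  | 18, _ => run_of ok18 rfl rfl rfl rfl rfl rfl rfl
  | 19, _ => run_of ok19 rfl rfl rfl rfl rfl rfl rfl
  | 20, _ => run_of ok20 rfl rfl rfl rfl rfl rfl rfl
  | 21, _ => run_of ok21 rfl rfl rfl rfl rfl rfl rfl
  | 22, _ => run_of ok22 rfl rfl rfl rfl rfl rfl rfl
  | 23, _ => run_of ok23 rfl rfl rfl rfl rfl rfl rfl
  | 24, _ => run_of ok24 rfl rfl rfl rfl rfl rfl rfl
  | 25, _ => run_of ok25 rfl rfl rfl rfl rfl rfl rfl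
  | s + 26, h => absurd (show s + 26 ≤ 25 from h) (by omega)⟩

/-- the conditions modulo `I` up to the weight `193` and the degree `25` -/
theorem lev0 [PL 3 F3] : Lev0 D96.tau D96.Cn (193 : ℕ) D96.S := chk96.lev0

end Vale.Agent.P236K.Cert.Pl.P96
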