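import Vale.Agent.P236K.Cert.ExaL

/-!
# P236K / Cert / Tri0 : `Lev0` from injectivity on `Cn`, a count, and `sq`
-/

set_option linter.unusedSectionVars false

noncomputable section

namespace Vale.Agent.P236K.Cert

open Vale.Agent.P236K.Alg MvPolynomial Lf

variable {G : Type} [Fintype G] [DecidableEq G] [PL 3 F3] {τ : Tw F3 G} {Cn : G → Ex → Prop}
  {N : ℤ} {S : ℕ}

/-- the conditions modulo `I` in the form which is checked -/
structure Pre0 (τ : Tw F3 G) (Cn : G → Ex → Prop) (N : ℤ) (S : ℕ) : Prop where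
  sd0 : τ.sd τ.g0 = 0
  dg0 : τ.dg τ.g0 = 0
  top : ∀ g, τ.sd g ≤ S + 1
  sd_lam : ∀ g h b, τ.sd h ≠ τ.sd g + 1 → τ.lam g h b = 0
  wt_lam : ∀ g h b, WA 3 (wE 3 b + τ.dg g - τ.dg h) (τ.lam g h b)
  lam0 : ∀ h, τ.lam τ.g0 h 0 = 0
  const : ∀ g h b, τ.lam g h b = C (cc F3 (τ.lam g h b))
  bot : ∀ g b, τ.sd g = 0 → wN τ g b ≤ N → ¬ Cn g b → g = τ.g0 ∧ b = 0
  inj0 : ∀ s ≤ S, ∀ u ≤ N, ∀ z, τ.Hom 3 s u z → Sup Cn z → τ.d0 3 z = 0 → z = 0
  cnt : ∀ s < S, ∀ u ≤ N, ∃ A B : Finset (G × Ex), A.card ≤ B.card ∧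
    (∀ h c, τ.sd h = s + 1 → wN τ h c = u → ¬ Cn h c → (h, c) ∈ A) ∧
    ∀ r ∈ B, τ.sd r.1 = s ∧ wN τ r.1 r.2 = u ∧ Cn r.1 r.2
  sq : ∀ s < S, ∀ u ≤ N, ∀ z, τ.Hom 3 s u z → Sup Cn z →
    ∀ l, ∑ h, fn (fun b => cc F3 (τ.lam h l b)) (τ.d0 3 z h) = 0

namespace T0

theorem hom_coeff {s : ℕ} {u : ℤ} {y : G → Av F3} (hy : τ.Hom 3 s u y) {g : G} {b : Ex}
    (h : coeff b (y g) ≠ 0) : τ.sd g = s ∧ wN τ g b = u := by
  refine ⟨by_contra fun h1 => h (by rw [(hy g).1 h1, coeff_zero]), ?_⟩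
  have h2 : wE 3 b = u - τ.dg g := (hy g).2 h
  rw [wN]
  omega

theorem hom_of {s : ℕ} {u : ℤ} {y : G → Av F3}
    (h : ∀ g b, coeff b (y g) ≠ 0 → τ.sd g = s ∧ wN τ g b = u) : τ.Hom 3 s u y := fun g =>
  ⟨fun hg => MvPolynomial.ext _ _ fun b => by_contra fun h1 => hg (h g b h1).1, fun b hb => by
    have h2 := (h g b hb).2
    rw [wN] at h2
    change wE 3 b = _
    omega⟩

/-- the value of the functionals -/
def ph (τ : Tw F3 G) (y : G → Av F3) (l : G) : F3 := ∑ h, fn (fun b => cc F3 (τ.lam h l b)) (y h)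

theorem ph_sub (x y : G → Av F3) (l : G) : ph τ (x - y) l = ph τ x l - ph τ y l := by
  simp only [ph, Pi.sub_apply, map_sub, Finset.sum_sub_distrib]

theorem ph_zero (l : G) : ph τ 0 l = 0 := by
  simp only [ph, Pi.zero_apply, map_zero, Finset.sum_const_zero]

theorem cc_tau (g l : G) (b : Ex) :
    cc F3 (τ.tau 3 g l b) = ph τ (τ.d0 3 (Lf.red (nd g b))) l := by
  rw [tau_eq, Ph_apply, map_sum, ← red_Dl', ph]
  exact Finset.sum_congr rfl fun h _ => map_fn _ _ _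

/-- the square of the differential vanishes if the functionals kill the image -/
theorem dd_of {s : ℕ} {u : ℤ}
    (hq : ∀ v ≤ u, ∀ z, τ.Hom 3 s v z → ∀ l, ph τ (τ.d0 3 z) l = 0) {z : G → Av F3}
    (hz : τ.Hom 3 s u z) : τ.d0 3 (τ.d0 3 z) = 0 := by
  have h1 : Lf.red (Dl τ.lam (Dl τ.lam (inc z))) = τ.d0 3 (τ.d0 3 z) := by
    rw [red_Dl', red_Dl', red_inc]
  rw [← h1]
  funext l
  rw [Lf.red, Dl_Dl, map_sum]
  refine Finset.sum_eq_zero fun g _ => ?_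
  by_cases hg : τ.sd g = s
  · have h2 := ((inc_mem hz) g).2.op_eq_zero (l := fun b => C (cc F3 (τ.tau 3 g l b)))
      fun b hb => by
        rw [cc_tau, hq (wN τ g b) (by rw [wN]; omega) _ (hg ▸ red_hom (nd_mem g b)), map_zero]
    have h4 := red_op (p := 3) h3 (fun b => C (cc F3 (τ.tau 3 g l b))) (inc z g)
    simp only [cc_C] at h4
    rw [red_op h3, ← h4, h2, map_zero]
  · rw [((inc_mem hz) g).1 hg, map_zero, map_zero]

theorem hom_d0' (H : Pre0 τ Cn N S) {s : ℕ} {u : ℤ} {z : G → Av F3} (hz : τ.Hom 3 s u z) :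
    τ.Hom 3 (s + 1) u (τ.d0 3 z) := by
  have P : Pre τ (fun _ _ => False) τ.lam :=
    ⟨H.sd_lam, H.wt_lam, H.lam0, fun _ _ _ h => h.elim, fun _ _ _ => rfl⟩
  have h1 := red_hom (P.Dl_mem (inc_mem hz))
  rwa [red_Dl', red_inc] at h1

/-- the element with the given coordinates -/
def el (B : Finset (G × Ex)) (a : B → F3) : G → Av F3 :=
  ∑ r : B, (Pi.single r.1.1 (monomial r.1.2 (a r)) : G → Av F3)

theorem el_mem {B : Finset (G × Ex)} {a : B → F3} {g : G} {b : Ex}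
    (h : coeff b (el B a g) ≠ 0) : (g, b) ∈ B := by
  rw [el, coeff_nodes] at h
  obtain ⟨r, -, hr⟩ := Finset.exists_ne_zero_of_sum_ne_zero h
  by_contra h1
  exact hr (if_neg fun h2 : r.1 = (g, b) => h1 (h2 ▸ r.2))

theorem el_coeff {B : Finset (G × Ex)} (a : B → F3) (r : B) : coeff r.1.2 (el B a r.1.1) = a r := by
  rw [el, coeff_nodes, Finset.sum_eq_single r (fun r' _ hr' => if_neg fun h2 => hr' (Subtype.ext h2))
    (fun hr' => absurd (Finset.mem_univ r) hr'), if_pos rfl]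

/-- the matrix of the differential -/
def mat (τ : Tw F3 G) (A B : Finset (G × Ex)) : (B → F3) →ₗ[F3] (A → F3) where
  toFun a m := ∑ r : B, a r * cc F3 (coeff m.1.2 (DD τ r.1.1 r.1.2 m.1.1))
  map_add' x y := by
    funext m
    simp only [Pi.add_apply, add_mul, Finset.sum_add_distrib]
  map_smul' c x := by
    funext m
    simp only [Pi.smul_apply, smul_eq_mul, RingHom.id_apply, Finset.mul_sum, mul_assoc]

theorem mat_apply {A B : Finset (G × Ex)} (a : B → F3) (m : A) :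
    mat τ A B a m = coeff m.1.2 (τ.d0 3 (el B a) m.1.1) := by
  rw [el, d0_sum, coeff_sum]
  exact Finset.sum_congr rfl fun r _ => (d0_single τ _ _ _ _ _).symm

/-- injectivity and the count give the spanning property -/
theorem span_of (H : Pre0 τ Cn N S) {s : ℕ} (hs : s < S) {u : ℤ} (hu : u ≤ N)
    (hi : ∀ z, τ.Hom 3 s u z → Sup Cn z → Sup Cn (τ.d0 3 z) → z = 0) {y : G → Av F3}
    (hy : τ.Hom 3 (s + 1) u y) : ∃ z, τ.Hom 3 s u z ∧ Sup Cn z ∧ Sup Cn (y - τ.d0 3 z) := by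
  obtain ⟨A, B, hc, hA, hB⟩ := H.cnt s hs u hu
  have e1 : ∀ a, τ.Hom 3 s u (el B a) := fun a => hom_of fun g b h =>
    ⟨(hB _ (el_mem h)).1, (hB _ (el_mem h)).2.1⟩
  have e2 : ∀ a, Sup Cn (el B a) := fun a g b h => by_contra fun h1 => h (hB _ (el_mem h1)).2.2
  have e3 : ∀ x, τ.Hom 3 (s + 1) u x → (∀ m ∈ A, coeff m.2 (x m.1) = 0) → Sup Cn x :=
    fun x hx h g b hb => by_contra fun h1 =>
      h1 (h (g, b) (hA g b (hom_coeff hx h1).1 (hom_coeff hx h1).2 hb))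
  have inj : Function.Injective (mat τ A B) := by
    refine (injective_iff_map_eq_zero _).2 fun a ha => funext fun r => ?_
    rw [← el_coeff a r, hi _ (e1 a) (e2 a) (e3 _ (hom_d0' H (e1 a)) fun m hm => by
      rw [← mat_apply a ⟨m, hm⟩, ha, Pi.zero_apply])]
    rfl
  have h1 := LinearMap.finrank_le_finrank_of_injective inj
  have sur := (LinearMap.injective_iff_surjective_of_finrank_eq_finrank (f := mat τ A B)
    (le_antisymm h1 (by simpa using hc))).1 inj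
  obtain ⟨a, ha⟩ := sur fun m => coeff m.1.2 (y m.1.1)
  refine ⟨el B a, e1 a, e2 a, e3 _ (hom_sub hy (hom_d0' H (e1 a))) fun m hm => ?_⟩
  rw [Pi.sub_apply, coeff_sub, ← mat_apply a ⟨m, hm⟩, ha, sub_self]

theorem inj_of (H : Pre0 τ Cn N S) {s : ℕ} (hs : s < S) {u : ℤ} (hu : u ≤ N)
    (hd : ∀ z, τ.Hom 3 s u z → τ.d0 3 (τ.d0 3 z) = 0) (z : G → Av F3) (hz : τ.Hom 3 s u z)
    (h1 : Sup Cn z) (h2 : Sup Cn (τ.d0 3 z)) : z = 0 :=
  H.inj0 s hs.le u hu z hz h1 (H.inj0 (s + 1) hs u hu _ (hom_d0' H hz) h2 (hd z hz))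

theorem dd (H : Pre0 τ Cn N S) {s : ℕ} (hs : s < S) :
    ∀ u ≤ N, ∀ z, τ.Hom 3 s u z → τ.d0 3 (τ.d0 3 z) = 0 := by
  induction s with
  | zero =>
    refine fun u hu z hz => dd_of (fun v hv y hy l => ?_) hz
    by_cases hC : Cn τ.g0 0
    · refine H.sq 0 hs v (hv.trans hu) y hy (fun g b hb => by_contra fun h1 => ?_) l
      obtain ⟨h2, h3⟩ := hom_coeff hy h1
      obtain ⟨rfl, rfl⟩ := H.bot g b h2 (by omega) hb
      exact hb hC
    have hs' : τ.Hom 3 0 v (Pi.single τ.g0 (C (coeff 0 (y τ.g0)))) := hom_of fun g b h => by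
      by_cases hg : g = τ.g0
      · subst hg
        rw [Pi.single_eq_same, coeff_C] at h
        split_ifs at h with h1
        · subst h1
          exact hom_coeff hy h
        · exact absurd rfl h
      · rw [Pi.single_eq_of_ne hg] at h
        exact absurd rfl h
    have hd : τ.d0 3 (Pi.single τ.g0 (C (coeff 0 (y τ.g0)))) = 0 := by
      funext h
      rw [Tw.d0, Finset.sum_eq_single τ.g0
        (fun g' _ hg => by rw [Pi.single_eq_of_ne hg, map_zero])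
        (fun hg => absurd (Finset.mem_univ _) hg), Pi.single_eq_same, op0_apply, del0_C, fn_C,
        H.lam0, map_zero, map_zero, mul_zero, Pi.zero_apply]
    have h5 := hom_sub hy hs'
    have h6 := H.sq 0 hs v (hv.trans hu) _ h5 (fun g b hb => by_contra fun h1 => by
      obtain ⟨h2, h3⟩ := hom_coeff h5 h1
      obtain ⟨rfl, rfl⟩ := H.bot g b h2 (by omega) hb
      apply h1
      rw [Pi.sub_apply, Pi.single_eq_same, coeff_sub, coeff_zero_C, sub_self]) l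
    rwa [d0_sub, hd, sub_zero] at h6
  | succ s ih =>
    refine fun u hu z hz => dd_of (fun v hv y hy l => ?_) hz
    have hv' := hv.trans hu
    obtain ⟨x, h1, -, h2⟩ := span_of H (by omega) hv'
      (inj_of H (by omega) hv' (ih (by omega) v hv')) hy
    have h6 := H.sq (s + 1) hs v hv' _ (hom_sub hy (hom_d0' H h1)) h2 l
    rwa [d0_sub, ih (by omega) v hv' x h1, sub_zero] at h6

end T0

/-- the checked conditions give `Lev0` -/
theorem Pre0.lev0 (H : Pre0 τ Cn N S) : Lev0 τ Cn N S :=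
  ⟨H.sd0, H.dg0, H.top, H.sd_lam, H.wt_lam, H.lam0, H.const, H.bot,
    fun _ hs u hu _ hy => T0.span_of H hs hu (T0.inj_of H hs hu (T0.dd H hs u hu)) hy,
    fun _ hs u hu => T0.inj_of H hs hu (T0.dd H hs u hu), H.sq⟩

/-- the count through positions: the nodes outside `Cn` inject into `P`, and every element of
`Q` is the position of a node of `Cn` -/
theorem cnt_of_pos {s : ℕ} {u : ℤ} {ι κ : Type} (pos : G → Ex → ι) (pos' : G → Ex → κ)
    (P : Finset ι) (Q : Finset κ) (hc : P.card ≤ Q.card)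
    (hP : ∀ h c, τ.sd h = s + 1 → wN τ h c = u → ¬ Cn h c → pos h c ∈ P)
    (hi : ∀ h c h' c', τ.sd h = s + 1 → wN τ h c = u → τ.sd h' = s + 1 → wN τ h' c' = u →
      pos h c = pos h' c' → h = h' ∧ c = c')
    (hQ : ∀ q ∈ Q, ∃ g b, τ.sd g = s ∧ wN τ g b = u ∧ Cn g b ∧ pos' g b = q) :
    ∃ A B : Finset (G × Ex), A.card ≤ B.card ∧
      (∀ h c, τ.sd h = s + 1 → wN τ h c = u → ¬ Cn h c → (h, c) ∈ A) ∧
      ∀ r ∈ B, τ.sd r.1 = s ∧ wN τ r.1 r.2 = u ∧ Cn r.1 r.2 := by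
  classical
  choose g b h1 h2 h3 h4 using hQ
  let D : Set (G × Ex) := {m | τ.sd m.1 = s + 1 ∧ wN τ m.1 m.2 = u ∧ ¬ Cn m.1 m.2}
  have hD : Set.InjOn (fun m : G × Ex => pos m.1 m.2) D := fun m hm m' hm' e =>
    Prod.ext_iff.2 (hi _ _ _ _ hm.1 hm.2.1 hm'.1 hm'.2.1 e)
  have hm : Set.MapsTo (fun m : G × Ex => pos m.1 m.2) D P := fun m hm =>
    hP _ _ hm.1 hm.2.1 hm.2.2
  have hf : D.Finite := Set.Finite.of_finite_image (P.finite_toSet.subset hm.image_subset) hD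
  refine ⟨hf.toFinset, Q.attach.image fun q => (g q.1 q.2, b q.1 q.2), ?_, fun h c e1 e2 e3 =>
    hf.mem_toFinset.2 ⟨e1, e2, e3⟩, fun r hr => ?_⟩
  · rw [Finset.card_image_of_injective _ fun q q' e => Subtype.ext (by
      have e1 : g q.1 q.2 = g q'.1 q'.2 := congrArg Prod.fst e
      have e2 : b q.1 q.2 = b q'.1 q'.2 := congrArg Prod.snd e
      rw [← h4 q.1 q.2, ← h4 q'.1 q'.2, e1, e2]), Finset.card_attach]
    refine le_trans (Finset.card_le_card_of_injOn (fun m : G × Ex => pos m.1 m.2) ?_ ?_) hc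
    · rwa [hf.coe_toFinset]
    · rwa [hf.coe_toFinset]
  · obtain ⟨q, -, rfl⟩ := Finset.mem_image.1 hr
    exact ⟨h1 _ _, h2 _ _, h3 _ _⟩

end Vale.Agent.P236K.Cert
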