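import Vale.Agent.P236K.Cert.RunS
import Vale.Agent.P236K.Cert.Dat
import Vale.Agent.P236K.Cert.Tri0

/-!
# P236K / Cert / PEnd : from the output of the program `run` in all degrees to `Lev0`
-/

set_option linter.unusedSectionVars false

noncomputable section

namespace Vale.Agent.P236K.Cert.Pl

open Vale.Agent.P236K.Alg MvPolynomial Finset

/-- the tests which connect the degrees -/
def Dat.glue (D : Dat) : Bool :=
  Nat.beq (D.LL 0).len 1 && Nat.beq ((D.LL 0).g1 0) 0 &&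
    (allLt D.B.T fun u => Nat.beq ((D.RK 0).g2 (Nat.succ u)) 0) &&
    ((D.LL 1).all fun w _ => Nat.blt 0 w) &&
    allLt D.S fun s => allLt (Nat.succ D.B.T) fun u =>
      Nat.ble ((D.RK (Nat.succ s)).g2 u) ((D.RK s).g1 u)

variable [PL 3 K]

namespace Pe

theorem conv0_zero_left (l : Ex → K) (b : Ex) : conv0 3 0 l b = 0 := fn_zero _

theorem conv0_zero_right (μ : Ex → K) (b : Ex) : conv0 3 μ (fun _ => 0) b = 0 := by
  rw [conv0, op0_apply]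
  simp only [map_zero, fn_zero]

variable {D : Dat}

/-- composition with the differential -/
abbrev pb (D : Dat) (s : ℕ) (ξ : ℕ → Ex → K) : ℕ → Ex → K :=
  psi (D.lamN s) (D.LL (s + 1)).len ξ

theorem lamN_ex (s j : ℕ) {u : ℕ} {t : Tp} (ht : Val (D.LL s) u t) : D.lamN s t.i j t.ex =
    if u = (D.LL (s + 1)).g1 j then
      val ((D.GG s).g2 j) ((D.GG s).g3 j) (D.B.ps (D.LL s) t) else 0 := by
  have h := ht.2
  rw [Dat.lamN, Tp.ex, wE_ex4, ex4_1, ex4_2, ex4_3]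
  exact if_congr (by omega) rfl rfl

theorem hG (s : ℕ) : ∀ j < (D.LL (s + 1)).len, ∀ t, Val (D.LL s) ((D.LL (s + 1)).g1 j) t →
    val ((D.GG s).g2 j) ((D.GG s).g3 j) (D.B.ps (D.LL s) t) = D.lamN s t.i j t.ex :=
  fun j _ _ ht => ((lamN_ex s j ht).trans (if_pos rfl)).symm

/-- the pairing -/
def pr (φ : D.G → Ex → K) (z : D.G → Av K) : K := ∑ g, fn (φ g) (z g)

/-- extension by zero -/
def up (s : ℕ) (ξ : ℕ → Ex → K) (g : D.G) : Ex → K := if (g.1 : ℕ) = s then ξ g.2 else 0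

theorem up_pos {s : ℕ} (ξ : ℕ → Ex → K) {g : D.G} (h : D.tau.sd g = s) : up s ξ g = ξ g.2 :=
  if_pos h

theorem cc_lam (g h : D.G) (b : Ex) : cc F3 (D.tau.lam g h b) =
    if (h.1 : ℕ) = g.1 + 1 then D.lamN g.1 g.2 h.2 b else 0 := by
  change cc F3 (if _ then _ else _) = _
  split_ifs
  · exact cc_C _
  · exact map_zero _

theorem cc_lam' {g : D.G} {s : ℕ} (hg : (g.1 : ℕ) = s) (h : D.G) (b : Ex) :
    cc F3 (D.tau.lam g h b) = if (h.1 : ℕ) = s + 1 then D.lamN s g.2 h.2 b else 0 := by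
  subst hg
  exact cc_lam g h b

theorem pr_d0 {s : ℕ} (hs : s ≤ D.S) (ξ : ℕ → Ex → K) (z : D.G → Av K) :
    pr (up (s + 1) ξ) (D.tau.d0 3 z) = pr (up s (pb D s ξ)) z := by
  simp only [pr, Tw.d0, map_sum, ← fn_conv0]
  rw [sum_comm]
  refine sum_congr rfl fun g _ => ?_
  rw [← fn_sum]
  congr 2
  funext b
  by_cases hg : (g.1 : ℕ) = s
  · rw [up, if_pos hg, pb, psi, Fintype.sum_sigma,
      sum_eq_single (⟨s + 1, by omega⟩ : Fin (D.S + 2)), sum_range]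
    · refine sum_congr rfl fun j _ => ?_
      simp only [up, cc_lam, hg, if_true]
    · intro s' _ h
      exact sum_eq_zero fun j _ => by
        rw [up, if_neg fun e => h (Fin.ext e), conv0_zero_left]
    · intro h
      exact absurd (mem_univ _) h
  · rw [up, if_neg hg]
    refine sum_eq_zero fun h _ => ?_
    by_cases hh : (h.1 : ℕ) = s + 1
    · simp only [cc_lam, if_neg (show ¬(h.1 : ℕ) = g.1 + 1 by omega), conv0_zero_right]
    · rw [up, if_neg hh, conv0_zero_left]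

theorem pr_congr {s : ℕ} {u : ℤ} {z : D.G → Av K} (hz : D.tau.Hom 3 s u z)
    {φ ψ : D.G → Ex → K} (h : ∀ g b, (g.1 : ℕ) = s → wN D.tau g b = u → φ g b = ψ g b) :
    pr φ z = pr ψ z := by
  refine sum_congr rfl fun g _ => ?_
  rw [fn_eq_sum, fn_eq_sum]
  refine sum_congr rfl fun b hb => ?_
  obtain ⟨h1, h2⟩ := T0.hom_coeff hz (mem_support_iff.1 hb)
  rw [h g b h1 h2]

theorem pr_zero (z : D.G → Av K) : pr 0 z = 0 := sum_eq_zero fun _ _ => fn_zero _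

/-- the tuple of a node -/
def tp (g : D.G) (e : Ex) : Tp := ⟨g.2, e 0, e 1, e 2, e 3⟩

theorem node (hB : D.B.Ok) {g : D.G} {e : Ex} {s : ℕ} {w : ℤ} (hs : (g.1 : ℕ) = s)
    (h : wN D.tau g e = w) (hw : w ≤ 2 * (D.B.T : ℤ) + 1) :
    (tp g e).ex = e ∧ ∃ u ≤ D.B.T, w = 2 * (u : ℤ) ∧ Val (D.LL s) u (tp g e) := by
  subst hs
  have hT := hB.T5
  change wE 3 e + 2 * (((D.LL g.1).g1 g.2 : ℕ) : ℤ) = w at h
  have h1 : e = ex4 (e 0) (e 1) (e 2) (e 3) := eq_ex4 (by omega)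
  have h2 := wE_ex4 (e 0) (e 1) (e 2) (e 3)
  rw [← h1] at h2
  exact ⟨h1.symm, (D.LL g.1).g1 g.2 + (e 0 + 4 * e 1 + 13 * e 2 + 40 * e 3), by omega, by omega,
    g.2.2, rfl⟩

theorem cn_iff {g : D.G} {e : Ex} {s u : ℕ} (hs : (g.1 : ℕ) = s) (h : wN D.tau g e = 2 * (u : ℤ))
    (hu : u ≤ D.B.T) : D.Cn g e ↔ ((D.RK s).g3 u).testBit (D.B.ps (D.LL s) (tp g e)) = true := by
  subst hs
  refine ⟨?_, fun h1 => ⟨u, hu, h, h1⟩⟩
  rintro ⟨u', -, h1, h2⟩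
  obtain rfl : u' = u := by
    change wE 3 e + 2 * (D.w g : ℤ) = _ at h
    omega
  exact h2

theorem tp_inj {g g' : D.G} {e e' : Ex} (h : (g.1 : ℕ) = g'.1) (h1 : (tp g e).ex = e)
    (h2 : (tp g' e').ex = e') (h' : tp g e = tp g' e') : g = g' ∧ e = e' := by
  refine ⟨?_, by rw [← h1, h', h2]⟩
  obtain ⟨s, i⟩ := g
  obtain ⟨s', i'⟩ := g'
  obtain rfl : s = s' := Fin.ext h
  obtain rfl : i = i' := Fin.ext (congrArg Tp.i h')
  rfl

/-- the output in degree `s` -/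
def O (D : Dat) (s : ℕ) : Prop := D.B.lay (D.LL s) = true ∧ ∀ u ≤ D.B.T,
  Res D.B (D.LL s) (D.LL (s + 1)).len (D.lamN s) u ((D.RK s).g1 u) ((D.RK s).g2 u) ((D.RK s).g3 u)

theorem inj0 (hB : D.B.Ok) {s : ℕ} (hs : s ≤ D.S) (H : O D s) {w : ℤ}
    (hw : w ≤ 2 * (D.B.T : ℤ) + 1) {z : D.G → Av K} (hz : D.tau.Hom 3 s w z) (hC : Sup D.Cn z)
    (hd : D.tau.d0 3 z = 0) : z = 0 := by
  by_contra h0
  obtain ⟨g1, h1⟩ := Function.ne_iff.1 h0
  obtain ⟨e1, h2⟩ := support_nonempty.2 h1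
  obtain ⟨⟨g, e⟩, h3, h4⟩ := exists_max_image (univ.sigma fun g => (z g).support)
    (fun x => toLex (D.B.rt (tp x.1 x.2), (D.LL s).off x.1.2)) ⟨⟨g1, e1⟩, by simpa using h2⟩
  have h5 : coeff e (z g) ≠ 0 := by simpa using h3
  obtain ⟨h6, h7⟩ := T0.hom_coeff hz h5
  obtain ⟨k1, u, hu, rfl, k2⟩ := node hB h6 h7 hw
  obtain ⟨t0, k3, k4, ξ, k5, k6⟩ := (H.2 u hu).1 _
    ((cn_iff h6 h7 hu).1 (by_contra fun h => h5 (hC _ _ h)))
  obtain rfl := hB.ps_inj H.1 hu k3 k2 k4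
  have k7 : ∀ g' e', coeff e' (z g') ≠ 0 → ¬(g' = g ∧ e' = e) → up s (pb D s ξ) g' e' = 0 := by
    intro g' e' h h'
    obtain ⟨h8, h9⟩ := T0.hom_coeff hz h
    obtain ⟨j1, u', -, j2, j3⟩ := node hB h8 h9 hw
    obtain rfl : u = u' := by omega
    have h10 := k6 _ j3 (Prod.Lex.toLex_le_toLex.1 (h4 ⟨g', e'⟩ (by simpa using h)) :)
      fun j4 => h' (tp_inj (h8.trans h6.symm) j1 k1 j4)
    rw [j1] at h10
    rw [up_pos _ h8]
    exact h10
  have k8 := pr_d0 hs ξ z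
  rw [hd, pr, sum_eq_zero (f := fun g => fn (up (s + 1) ξ g) ((0 : D.G → Av K) g))
    fun _ _ => map_zero _, pr, sum_eq_single g, fn_eq_sum, sum_eq_single e, up_pos _ h6] at k8
  · rw [k1] at k5
    exact mul_ne_zero h5 k5 k8.symm
  · intro e' h h'
    rw [k7 g e' (mem_support_iff.1 h) fun j => h' j.2, mul_zero]
  · intro h
    exact absurd (mem_support_iff.2 h5) h
  · intro g' _ h'
    rw [fn_eq_sum]
    exact sum_eq_zero fun e' h => by rw [k7 g' e' (mem_support_iff.1 h) fun j => h' j.1, mul_zero]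
  · intro h
    exact absurd (mem_univ _) h

theorem cnt (hB : D.B.Ok) {s : ℕ} (hs : s ≤ D.S) (H : O D s) (H' : O D (s + 1))
    (hc : ∀ u ≤ D.B.T, (D.RK (s + 1)).g2 u ≤ (D.RK s).g1 u) {w : ℤ}
    (hw : w ≤ 2 * (D.B.T : ℤ) + 1) : ∃ A B : Finset (D.G × Ex), A.card ≤ B.card ∧
      (∀ h c, D.tau.sd h = s + 1 → wN D.tau h c = w → ¬ D.Cn h c → (h, c) ∈ A) ∧
      ∀ r ∈ B, D.tau.sd r.1 = s ∧ wN D.tau r.1 r.2 = w ∧ D.Cn r.1 r.2 := by
  by_cases h : ∃ u ≤ D.B.T, w = 2 * (u : ℤ)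
  · obtain ⟨u, hu, rfl⟩ := h
    obtain ⟨h1, ⟨Q, h2, h3⟩, -⟩ := H.2 u hu
    obtain ⟨-, -, P, h4, h5⟩ := H'.2 u hu
    refine cnt_of_pos (fun g e => D.B.ps (D.LL (s + 1)) (tp g e))
      (fun g e => D.B.ps (D.LL s) (tp g e)) P Q (h4.trans ((hc u hu).trans h2))
      (fun g e j1 j2 j3 => ?_) (fun g e g' e' j1 j2 j3 j4 j5 => ?_) fun q hq => ?_
    · obtain ⟨-, u', -, k1, k2⟩ := node hB j1 j2 hw
      obtain rfl : u = u' := by omega
      exact (h5 _ k2).resolve_left fun k => j3 ((cn_iff j1 j2 hu).2 k)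
    · obtain ⟨k0, u', -, k1, k2⟩ := node hB j1 j2 hw
      obtain ⟨k3, u'', -, k4, k5⟩ := node hB j3 j4 hw
      obtain rfl : u = u' := by omega
      obtain rfl : u = u'' := by omega
      exact tp_inj (j1.trans j3.symm) k0 k3 (hB.ps_inj H'.1 hu k2 k5 j5)
    · obtain ⟨t, k1, k2, -⟩ := h1 q (h3 q hq)
      have k3 : tp (D := D) ⟨⟨s, by omega⟩, t.i, k1.1⟩ t.ex = t := by simp [tp, Tp.ex]
      have k4 : wN D.tau ⟨⟨s, by omega⟩, t.i, k1.1⟩ t.ex = 2 * (u : ℤ) := by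
        have k5 := k1.2
        rw [wN, Tp.ex, wE_ex4]
        change _ + 2 * (((D.LL s).g1 t.i : ℕ) : ℤ) = _
        omega
      exact ⟨_, _, rfl, k4, (cn_iff rfl k4 hu).2 (by rw [k3, k2]; exact h3 q hq), by rw [k3, k2]⟩
  · refine ⟨∅, ∅, le_rfl, fun g e j1 j2 _ => ?_, fun r hr => absurd hr (notMem_empty _)⟩
    obtain ⟨-, u, hu, k1, -⟩ := node hB j1 j2 hw
    exact absurd ⟨u, hu, k1⟩ h

theorem sd_lam (g h : D.G) (b : Ex) (e : D.tau.sd h ≠ D.tau.sd g + 1) : D.tau.lam g h b = 0 :=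
  if_neg e

theorem wt_lam (g h : D.G) (b : Ex) :
    WA 3 (wE 3 b + D.tau.dg g - D.tau.dg h) (D.tau.lam g h b) := by
  change WA 3 (wE 3 b + 2 * (((D.LL g.1).g1 g.2 : ℕ) : ℤ) - 2 * (((D.LL h.1).g1 h.2 : ℕ) : ℤ))
    (if _ then _ else _)
  split_ifs with h1
  · rw [Dat.lamN]
    split_ifs with h2
    · rw [h2, ← h1, sub_self]
      exact isWeightedHomogeneous_C _ _
    · rw [map_zero]
      exact isWeightedHomogeneous_zero _ _ _
  · exact isWeightedHomogeneous_zero _ _ _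

theorem sq (hB : D.B.Ok) {s : ℕ} (hs : s ≤ D.S) (h0 : ∀ h, D.tau.lam D.tau.g0 h 0 = 0)
    (H : ∀ a < (D.LL (s + 2)).len, Zk D.B (D.LL s) (D.LL (s + 1)) (D.lamN s) ((D.LL (s + 2)).g1 a)
      ((D.GG (s + 1)).g2 a) ((D.GG (s + 1)).g3 a)) {w : ℤ} (hw : w ≤ 2 * (D.B.T : ℤ) + 1)
    {z : D.G → Av K} (hz : D.tau.Hom 3 s w z) (l : D.G) :
    ∑ h, fn (fun b => cc F3 (D.tau.lam h l b)) (D.tau.d0 3 z h) = 0 := by
  have P : Lf.Pre D.tau (fun _ _ => False) D.tau.lam :=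
    ⟨sd_lam, wt_lam, h0, fun _ _ _ h => h.elim, fun _ _ _ => rfl⟩
  have hy := Lf.red_hom (P.Dl_mem (Lf.inc_mem hz))
  rw [red_Dl', Lf.red_inc] at hy
  change pr (fun h b => cc F3 (D.tau.lam h l b)) (D.tau.d0 3 z) = 0
  by_cases h : (l.1 : ℕ) = s + 2 ∧ w = 2 * (((D.LL (s + 2)).g1 l.2 : ℕ) : ℤ)
  · have hl : (l.2 : ℕ) < (D.LL (s + 2)).len := by rw [← h.1]; exact l.2.2
    obtain ⟨φ, h1, h2⟩ := H l.2 hl
    refine (pr_congr hy (ψ := up (s + 1) φ) fun g e j1 j2 => ?_).trans ((pr_d0 hs _ _).trans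
      ((pr_congr hz (ψ := 0) fun g e j1 j2 => ?_).trans (pr_zero _)))
    · obtain ⟨k0, u, -, k1, k2⟩ := node hB j1 j2 hw
      rw [show u = (D.LL (s + 2)).g1 l.2 by omega] at k2
      have k3 := (hG (s + 1) l.2 hl _ k2).symm.trans (h1.2 _ k2)
      rw [k0] at k3
      rw [up_pos _ j1, cc_lam' j1, if_pos h.1]
      exact k3
    · obtain ⟨k0, u, -, k1, k2⟩ := node hB j1 j2 hw
      rw [show u = (D.LL (s + 2)).g1 l.2 by omega] at k2
      have k3 := h2 _ k2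
      rw [k0] at k3
      rw [up_pos _ j1]
      exact k3
  · rw [pr_congr hy (ψ := 0), pr_zero]
    intro g e j1 j2
    obtain ⟨k0, u, -, k1, k2⟩ := node hB j1 j2 hw
    rw [cc_lam' j1]
    split_ifs with h1
    · have k3 := (lamN_ex (s + 1) l.2 k2).trans (if_neg fun h2 => h ⟨h1, by rw [k1, h2]⟩)
      rwa [k0] at k3
    · rfl

/-- the previous layout -/
def pL (D : Dat) : ℕ → L2
  | 0 => L2.nil
  | s + 1 => D.LL s

/-- the previous differential -/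
def pl (D : Dat) : ℕ → ℕ → ℕ → Ex → K
  | 0 => 0
  | s + 1 => D.lamN s

end Pe

open Pe

/-- the runs of the program in all degrees give the conditions modulo `I` -/
theorem Dat.lev0 (D : Dat) (SG : ℕ → L3) (hB : D.B.chk = true) (hg : D.glue = true)
    (hr : ∀ s ≤ D.S, ∃ sp n dl, run D.B sp (D.LL s) (D.LL (s + 1)) (D.GG s) (SG s) (SG (s + 1)) n
      (D.RK s) dl = true) : Lev0 D.tau D.Cn (2 * (D.B.T : ℤ) + 1) D.S := by
  have B := Box.ok_of_chk hB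
  simp only [Dat.glue, Bool.and_eq_true] at hg
  obtain ⟨⟨⟨⟨g1, g2⟩, g3⟩, g4⟩, g5⟩ := hg
  have g1 := beq_iff.1 g1
  have g2 := beq_iff.1 g2
  have hS : ∀ s ≤ D.S, Cx.SOk D.B (pL D s) (D.LL s) (pl D s) (SG s) (SG s).len := by
    intro s hs
    induction s with
    | zero =>
      exact fun a _ h => ⟨fun i e => val ((SG 0).g2 a) ((SG 0).g3 a)
        ((D.LL 0).off i + D.B.rb (e 1) (e 2) (e 3)), ⟨h, fun t _ => by
          simp [Tp.ex, Box.ps, Box.rt]⟩, fun t ht => absurd ht.1 (Nat.not_lt_zero _)⟩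
    | succ s ih =>
      obtain ⟨sp, n, dl, h⟩ := hr s (by omega)
      exact (run_spec B h (hG s) (ih (by omega))).2.2.1
  have hO : ∀ s ≤ D.S, O D s ∧ ∀ a < (D.LL (s + 1)).len, Zk D.B (pL D s) (D.LL s) (pl D s)
      ((D.LL (s + 1)).g1 a) ((D.GG s).g2 a) ((D.GG s).g3 a) := fun s hs => by
    obtain ⟨sp, n, dl, h⟩ := hr s hs
    obtain ⟨h1, h2, -, h3⟩ := run_spec B h (hG s) (hS s hs)
    exact ⟨⟨h1, h3⟩, fun a ha => (h2 a ha).2⟩
  have h0 : ∀ h, D.tau.lam D.tau.g0 h 0 = 0 := fun h => by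
    change (if (h.1 : ℕ) = 0 + 1 then C (D.lamN 0 0 h.2 0) else 0) = 0
    split_ifs with h1
    · have h2 := blt_iff.1 (L2.all_spec g4 (i := h.2) (by rw [← zero_add 1, ← h1]; exact h.2.2))
      rw [Dat.lamN, if_neg (by rw [map_zero, g2, zero_add 1]; omega), map_zero]
    · rfl
  refine Pre0.lev0 ⟨rfl, ?_, fun g => Nat.le_of_lt_succ g.1.2, sd_lam, wt_lam, h0, fun g h b => ?_,
    fun g b j1 j2 j3 => ?_, fun s hs u hu z => inj0 B hs (hO s hs).1 hu,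
    fun s hs u hu => cnt B hs.le (hO s hs.le).1 (hO (s + 1) hs).1
      (fun u hu => ble_iff.1 (allLt_spec (allLt_spec g5 hs) (Nat.lt_succ_of_le hu))) hu,
    fun s hs u hu z hz _ l => sq B hs.le h0 (hO (s + 1) hs).2 hu hz l⟩
  · change 2 * (((D.LL 0).g1 0 : ℕ) : ℤ) = 0
    rw [g2]
    rfl
  · rw [cc_lam]
    change (if _ then _ else _) = _
    split_ifs
    · rfl
    · exact (map_zero _).symm
  · obtain ⟨k0, u, hu, k1, k2⟩ := node B j1 rfl j2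
    rcases u with _ | u
    · have k3 := k2.1
      have k4 := k2.2
      refine tp_inj (g' := D.tau.g0) j1 k0 (by simp [tp, Tp.ex, ex4]) (Tp.ext ?_ ?_ ?_ ?_ ?_)
      · change (tp g b).i = 0
        omega
      all_goals
        change _ = 0
        omega
    · obtain ⟨-, -, P, h4, h5⟩ := (hO 0 (Nat.zero_le _)).1.2 _ hu
      have h6 := (h5 _ k2).resolve_left fun k => j3 ((cn_iff j1 k1 hu).2 k)
      have h7 := card_pos.2 ⟨_, h6⟩
      have h8 := beq_iff.1 (allLt_spec g3 (show u < D.B.T from hu))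
      rw [Nat.succ_eq_add_one] at h8
      omega

end Vale.Agent.P236K.Cert.Pl
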