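import Vale.Agent.P236K.Cert.RunA

/-!
# P236K / Cert / RunS : soundness of the program `run`
-/

set_option linter.unusedSectionVars false

noncomputable section

namespace Vale.Agent.P236K.Cert.Pl

open Vale.Agent.P236K.Alg Finset

variable [PL 3 K]

/-- the functional `ξ ∘ d` -/
def psi (l : ℕ → ℕ → Ex → K) (n : ℕ) (ξ : ℕ → Ex → K) (i : ℕ) (b : Ex) : K :=
  ∑ j ∈ range n, conv0 3 (ξ j) (l i j) b

theorem psi_add (l : ℕ → ℕ → Ex → K) (n : ℕ) (ξ ζ : ℕ → Ex → K) (i : ℕ) (b : Ex) :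
    psi l n (fun j e => ξ j e + ζ j e) i b = psi l n ξ i b + psi l n ζ i b := by
  simp only [psi, conv0, fn_add, sum_add_distrib]

theorem psi_mul (l : ℕ → ℕ → Ex → K) (n : ℕ) (c : K) (ξ : ℕ → Ex → K) (i : ℕ) (b : Ex) :
    psi l n (fun j e => c * ξ j e) i b = c * psi l n ξ i b := by
  simp only [psi, conv0, fn_mul, mul_sum]

theorem psi_conv (l : ℕ → ℕ → Ex → K) (n : ℕ) (μ : Ex → K) (ξ : ℕ → Ex → K) (i : ℕ) :
    psi l n (fun j => conv0 3 μ (ξ j)) i = conv0 3 μ (psi l n ξ i) := by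
  funext b
  have h : psi l n ξ i = fun b => ∑ j ∈ range n, conv0 3 (ξ j) (l i j) b := rfl
  rw [h, psi, conv0, op0_sum, map_sum]
  refine sum_congr rfl fun j _ => ?_
  rw [conv0_assoc rfl]
  rfl

theorem psi_eps (l : ℕ → ℕ → Ex → K) {n j : ℕ} (hj : j < n) (i : ℕ) (b : Ex) :
    psi l n (fun j' e => if j' = j then eps K e else 0) i b = l i j b := by
  rw [psi, sum_eq_single j]
  · simp only [if_true]
    rw [conv0_eps rfl]
  · intro j' _ h
    simp only [if_neg h, conv0, fn_zero]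
  · intro h
    exact absurd (mem_range.2 hj) h

/-- `(p, m)` represents `φ` on the nodes of weight `u` -/
def Rp (B : Box) (L : L2) (u p m : ℕ) (φ : ℕ → Ex → K) : Prop :=
  Can p m ∧ ∀ t, Val L u t → val p m (B.ps L t) = φ t.i t.ex

section rp

variable {B : Box} {L : L2} {u p m p' m' : ℕ} {φ φ' : ℕ → Ex → K}

theorem Rp.add (h : Rp B L u p m φ) (h' : Rp B L u p' m' φ') :
    Rp B L u (ap p m p' m') (am p m p' m') fun j e => φ j e + φ' j e :=
  ⟨h.1.add h'.1, fun t ht => by rw [val_add h.1 h'.1, h.2 t ht, h'.2 t ht]⟩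

theorem Rp.neg (h : Rp B L u p m φ) : Rp B L u m p fun j e => -1 * φ j e :=
  ⟨h.1.symm, fun t ht => by rw [val_swap h.1, h.2 t ht, ← neg_one_mul]⟩

theorem Rp.congr (h : Rp B L u p m φ) (e : ∀ i b, φ i b = φ' i b) : Rp B L u p m φ' :=
  ⟨h.1, fun t ht => (h.2 t ht).trans (e _ _)⟩

theorem rp_zero : Rp B L u 0 0 fun _ _ => 0 * 0 :=
  ⟨can_zero _, fun _ _ => (val_zero _).trans (mul_zero _).symm⟩

theorem Rp.act (h : Rp B L u p m φ) {μ : Ex → K} {W : ℕ} {g : List L3} (ha : Act B L μ W g)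
    {A : L2} (hu : u + W ≤ B.T) (hA : AOk B L (u + W + 1) A) (hc : Can p' m')
    (hv : ∀ q, val p' m' q = (L3.terms g A).ev (val p m) q) :
    Rp B L (u + W) p' m' fun i => conv0 3 μ (φ i) :=
  ⟨hc, fun t ht => (hv _).trans (ha.2 u φ _ A hu hA h.2 t ht)⟩

end rp

/-- the functional `(p, m)` vanishes on the image of the differential -/
def Zk (B : Box) (L0 L : L2) (l0 : ℕ → ℕ → Ex → K) (u p m : ℕ) : Prop :=
  ∃ φ, Rp B L u p m φ ∧ ∀ t, Val L0 u t → psi l0 L.len φ t.i t.ex = 0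

/-- the node `t` is not higher than the node `t0` -/
def Ky (B : Box) (L : L2) (t t0 : Tp) : Prop :=
  B.rt t < B.rt t0 ∨ B.rt t = B.rt t0 ∧ L.off t.i ≤ L.off t0.i

/-- the positions of `M` are leading positions of functionals `ξ ∘ d` -/
def MOk (B : Box) (L : L2) (n : ℕ) (l : ℕ → ℕ → Ex → K) (u M : ℕ) : Prop :=
  ∀ q, M.testBit q = true → ∃ t0, Val L u t0 ∧ B.ps L t0 = q ∧ ∃ ξ, psi l n ξ t0.i t0.ex ≠ 0 ∧
    ∀ t, Val L u t → Ky B L t t0 → t ≠ t0 → psi l n ξ t.i t.ex = 0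

/-- the result in the weight `u` -/
def Res (B : Box) (L : L2) (n : ℕ) (l : ℕ → ℕ → Ex → K) (u r k M : ℕ) : Prop :=
  MOk B L n l u M ∧ (∃ Z : Finset ℕ, r ≤ Z.card ∧ ∀ q ∈ Z, M.testBit q = true) ∧
    ∃ Z : Finset ℕ, Z.card ≤ k ∧ ∀ t, Val L u t → M.testBit (B.ps L t) = true ∨ B.ps L t ∈ Z

/-- `k` contains the positions up to the position `ρ` of the block `i0` -/
def Msk (L : L2) (k i0 ρ : ℕ) : Prop := ∀ i < L.len, ∀ r < L.g2 i,
  r < ρ ∨ r = ρ ∧ L.off i ≤ L.off i0 → k.testBit (L.off i + r) = true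

theorem testBit_lowm {L : L2} {i r ρ : ℕ} (hi : i < L.len) (hr : r < L.g2 i) (h : r < ρ) :
    (lowm L ρ).testBit (L.off i + r) = true := by
  rw [lowm, L2.testBit_cat _ hi hr]
  change (2 ^ ρ - 1).testBit r = true
  rw [Nat.testBit_two_pow_sub_one, decide_eq_true h]

theorem Msk.shift {L : L2} {k i0 ρ : ℕ} (h : Msk L k i0 ρ) (δ : ℕ) :
    Msk L (Nat.lor (Nat.shiftLeft k δ) (lowm L δ)) i0 (ρ + δ) := by
  intro i hi r hr h1
  rw [Nat.lor_eq, Nat.testBit_or, Bool.or_eq_true]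
  by_cases h2 : r < δ
  · exact Or.inr (testBit_lowm hi hr h2)
  · left
    rw [Nat.shiftLeft_eq', Nat.testBit_shiftLeft, decide_eq_true (by omega), Bool.true_and,
      show L.off i + r - δ = L.off i + (r - δ) by omega]
    exact h i hi _ (by omega) (by omega)

theorem msk_new (L : L2) (i0 ρ : ℕ) : Msk L (Nat.lor (lowm L ρ)
    (Nat.mod (L.cat fun _ => Nat.pow 2 ρ) (Nat.pow 2 (Nat.succ (Nat.add (L.off i0) ρ))))) i0 ρ := by
  intro i hi r hr h1
  rw [Nat.lor_eq, Nat.testBit_or, Bool.or_eq_true]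
  rcases h1 with h1 | ⟨rfl, h1⟩
  · exact Or.inl (testBit_lowm hi hr h1)
  · right
    change ((L.cat fun _ => 2 ^ r) % 2 ^ (L.off i0 + r + 1)).testBit _ = true
    rw [Nat.testBit_mod_two_pow, L2.testBit_cat _ hi hr, Nat.testBit_two_pow_self,
      decide_eq_true (by omega)]
    rfl

/-- the setting -/
structure Cx : Type where
  /-- the box -/
  B : Box
  /-- the layout of the previous degree -/
  L0 : L2
  /-- the layout -/
  L : L2
  /-- the layout of the next degree -/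
  L' : L2
  /-- the previous differential -/
  l0 : ℕ → ℕ → Ex → K
  /-- the differential -/
  l : ℕ → ℕ → Ex → K
  hB : B.Ok
  hL : B.lay L = true
  hL' : B.lay L' = true

namespace Cx

variable (X : Cx)

/-- the invariant of a combination -/
def Inv (f : Prop) (u p m p' m' : ℕ) : Prop := Zk X.B X.L0 X.L X.l0 u p m ∧
  (f → ∃ ξ, Rp X.B X.L' u p' m' ξ ∧ Rp X.B X.L u p m (psi X.l X.L'.len ξ))

/-- the invariant of the rows -/
def ROk (u : ℕ) (rows : RL) : Prop :=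
  RL.rec True (fun _ p m low msk p' m' _ r => (X.Inv True u p m p' m' ∧ ∃ t0, Val X.L u t0 ∧
    low = 2 ^ X.B.ps X.L t0 ∧ Msk X.L msk t0.i (X.B.rt t0)) ∧ r) rows

/-- the invariant of the history -/
def HOk (H : HL) : ℕ → Prop :=
  HL.rec (fun _ => True) (fun r _ _ ih u => ∃ u0, u = u0 + 1 ∧ X.ROk u0 r ∧ ih u0) H

/-- a correct operator -/
def Op1 (n δ lo : ℕ) (g g' : List L3) : Prop := ∃ μ l1 l2 l3 l4, Loc μ (n + 1) ∧
  Act X.B X.L μ (n + 1) g ∧ Act X.B X.L' μ (n + 1) g' ∧ n + 1 = l1 + 4 * l2 + 13 * l3 + 40 * l4 ∧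
  δ = X.B.rb l2 l3 l4 ∧ lo = lowm X.L δ

/-- the invariant of the operators -/
def OOk (ops : OL) : Prop := OL.rec True (fun n δ _ _ lo g g' _ r => X.Op1 n δ lo g g' ∧ r) ops

/-- the state -/
def St (u : ℕ) (rows : RL) (M : ℕ) : Prop := X.ROk u rows ∧ MOk X.B X.L X.L'.len X.l u M

/-- the environment in the weight `u` -/
structure Env (u : ℕ) (A A' : L2) (H : HL) (ops : OL) : Prop where
  hu : u ≤ X.B.T
  hA : AOk X.B X.L (u + 1) A
  hA' : AOk X.B X.L' (u + 1) A'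
  hH : X.HOk H u
  hO : X.OOk ops

variable {X} {f : Prop} {u p m p' m' x y x' y' : ℕ}

theorem Inv.mono (h : X.Inv True u p m p' m') : X.Inv f u p m p' m' := ⟨h.1, fun _ => h.2 trivial⟩

theorem Inv.add (h : X.Inv f u x y x' y') (h' : X.Inv f u p m p' m') :
    X.Inv f u (ap x y p m) (am x y p m) (ap x' y' p' m') (am x' y' p' m') := by
  obtain ⟨⟨φ, a1, a2⟩, a3⟩ := h
  obtain ⟨⟨φ', b1, b2⟩, b3⟩ := h'
  refine ⟨⟨_, a1.add b1, fun t ht => by rw [psi_add, a2 t ht, b2 t ht, add_zero]⟩, fun hf => ?_⟩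
  obtain ⟨ξ, a4, a5⟩ := a3 hf
  obtain ⟨ξ', b4, b5⟩ := b3 hf
  exact ⟨_, a4.add b4, (a5.add b5).congr fun i b => (psi_add _ _ _ _ i b).symm⟩

theorem Inv.neg (h : X.Inv f u p m p' m') : X.Inv f u m p m' p' := by
  obtain ⟨⟨φ, a1, a2⟩, a3⟩ := h
  refine ⟨⟨_, a1.neg, fun t ht => by rw [psi_mul, a2 t ht, mul_zero]⟩, fun hf => ?_⟩
  obtain ⟨ξ, a4, a5⟩ := a3 hf
  exact ⟨_, a4.neg, a5.neg.congr fun i b => (psi_mul _ _ _ _ i b).symm⟩

theorem inv_zero : X.Inv f u 0 0 0 0 :=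
  ⟨⟨_, rp_zero, fun t _ => by rw [psi_mul _ _ _ fun _ _ => 0, zero_mul]⟩,
    fun _ => ⟨_, rp_zero, rp_zero.congr fun i b => by
      rw [psi_mul _ _ _ fun _ _ => 0, zero_mul, zero_mul]⟩⟩

theorem Inv.can (h : X.Inv f u p m p' m') : Can p m := h.1.choose_spec.1.1

theorem Inv.act (h : X.Inv True u p m p' m') {n δ lo : ℕ} {g g' : List L3}
    (ho : X.Op1 n δ lo g g') {A A' : L2} (hu : u + (n + 1) ≤ X.B.T)
    (hA : AOk X.B X.L (u + (n + 1) + 1) A) (hA' : AOk X.B X.L' (u + (n + 1) + 1) A')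
    (k : ℕ → ℕ → Bool) : ∃ x y, L3.ap1 p m (L3.terms g A) k = k x y ∧ X.Inv True (u + (n + 1)) x y
      ((L3.apL p' m' (L3.terms g' A')).g1 0) ((L3.apL p' m' (L3.terms g' A')).g2 0) := by
  obtain ⟨μ, -, -, -, -, o1, o2, o3, -⟩ := ho
  obtain ⟨x, y, e, hc, hv⟩ := L3.ap1_spec h.can (L3.canT_terms o2.1 hA.1) k
  obtain ⟨⟨φ, a1, a2⟩, a3⟩ := h
  obtain ⟨ξ, a4, a5⟩ := a3 trivial
  have h1 := L3.apL_spec a4.1 (L3.canT_terms o3.1 hA'.1)
  refine ⟨x, y, e, ⟨_, a1.act o2 hu hA hc hv, fun t ht => ?_⟩, fun _ =>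
    ⟨_, a4.act o3 hu hA' h1.1 h1.2, (a5.act o2 hu hA hc hv).congr fun i b => by rw [psi_conv]⟩⟩
  rw [psi_conv]
  exact o1 _ _ _ _ _ fun a b c d e => a2 ⟨t.i, a, b, c, d⟩
    ⟨ht.1, by have := ht.2; dsimp only; omega⟩

theorem ROk.drop {rows : RL} (h : X.ROk u rows) (n : ℕ) : X.ROk u (rows.drop n) := by
  induction n generalizing rows with
  | zero => exact h
  | succ n ih =>
    cases rows with
    | nil => trivial
    | cons => exact ih h.2

theorem OOk.drop {ops : OL} (h : X.OOk ops) (n : ℕ) : X.OOk (ops.drop n) := by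
  induction n generalizing ops with
  | zero => exact h
  | succ n ih =>
    cases ops with
    | nil => trivial
    | cons => exact ih h.2

theorem HOk.drop {H : HL} (h : X.HOk H u) {n : ℕ} {r : RL} {M : ℕ} {t : HL}
    (e : H.drop n = HL.cons r M t) : ∃ u0, u = u0 + (n + 1) ∧ X.ROk u0 r := by
  induction n generalizing H u with
  | zero =>
    obtain rfl : H = HL.cons r M t := e
    obtain ⟨u0, h1, h2, -⟩ := h
    exact ⟨u0, h1, h2⟩
  | succ n ih =>
    cases H with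
    | nil => exact HL.noConfusion e
    | cons r' M' t' =>
      obtain ⟨u0, h1, -, h3⟩ := h
      obtain ⟨u1, h4, h5⟩ := ih h3 e
      exact ⟨u1, by omega, h5⟩

variable {rows : RL} {M : ℕ}

theorem push_spec {tag msk : ℕ} {k : RL → ℕ → Bool} {t0 : Tp} (hu : u ≤ X.B.T)
    (hk : push tag p m (2 ^ X.B.ps X.L t0) msk p' m' rows M k = true) (hs : X.St u rows M)
    (h : X.Inv True u p m p' m') (ht : Val X.L u t0) (hm : Msk X.L msk t0.i (X.B.rt t0)) :
    ∃ rows M, k rows M = true ∧ X.St u rows M := by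
  have h1 := bf_and (x := k _ _) hk
  refine ⟨_, _, h1.2, ⟨⟨h, t0, ht, rfl, hm⟩, hs.1⟩, fun q hq => ?_⟩
  rw [Nat.lor_eq, Nat.testBit_or, Bool.or_eq_true] at hq
  rcases hq with hq | hq
  · exact hs.2 q hq
  · rw [Nat.testBit_two_pow, decide_eq_true_eq] at hq
    obtain ⟨h2, h3⟩ := low_spec h1.1
    obtain ⟨ξ, -, h4⟩ := h.2 trivial
    refine ⟨t0, ht, hq, ξ, h4.2 t0 ht ▸ h2, fun t h5 h6 h7 => ?_⟩
    rw [← h4.2 t h5]
    exact h3 _ (hm _ h5.1 _ (X.hB.rt_lt X.hL hu h5) h6)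
      fun e => h7 (X.hB.ps_inj X.hL hu h5 ht e)

theorem pass_spec {tag n δ lo free : ℕ} {g g' : List L3} (ho : X.Op1 n δ lo g g') {A A' : L2}
    (hu : u + (n + 1) ≤ X.B.T) (hA : AOk X.B X.L (u + (n + 1) + 1) A)
    (hA' : AOk X.B X.L' (u + (n + 1) + 1) A') {src : RL} (hsrc : X.ROk u src)
    {k : RL → ℕ → Bool}
    (hk : pass tag δ lo free (L3.terms g A) (L3.terms g' A') src rows M k = true)
    (hs : X.St (u + (n + 1)) rows M) : ∃ rows M, k rows M = true ∧ X.St (u + (n + 1)) rows M := by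
  induction src generalizing rows M with
  | nil => exact ⟨rows, M, hk, hs⟩
  | cons tg p m low msk p' m' t ih =>
    change bf (Nat.ble tag tg) (bf (Nat.beq (Nat.land low free) 0)
      (pass tag δ lo free _ _ t rows M k) (L3.ap1 p m (L3.terms g A) fun x y => push tag x y
        (Nat.shiftLeft low δ) (Nat.lor (Nat.shiftLeft msk δ) lo) _ _ rows M fun rows M =>
          pass tag δ lo free (L3.terms g A) (L3.terms g' A') t rows M k)) (k rows M) = true at hk
    rw [bf_ble, bf_beq] at hk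
    split_ifs at hk
    · exact ih hsrc.2 hk hs
    · obtain ⟨⟨h1, t0, h2, rfl, h3⟩, h4⟩ := hsrc
      obtain ⟨μ, l1, l2, l3, l4, -, -, -, o4, o5, rfl⟩ := id ho
      have e1 : X.B.rt ⟨t0.i, t0.a + l1, t0.b + l2, t0.c + l3, t0.d + l4⟩ = X.B.rt t0 + δ := by
        simp only [o5, Box.rt, Box.rb_eq]
        ring
      have e2 : Nat.shiftLeft (2 ^ X.B.ps X.L t0) δ =
          2 ^ X.B.ps X.L ⟨t0.i, t0.a + l1, t0.b + l2, t0.c + l3, t0.d + l4⟩ := by
        rw [Nat.shiftLeft_eq', Nat.shiftLeft_eq, ← pow_add, Box.ps, Box.ps, e1, add_assoc]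
      rw [e2] at hk
      obtain ⟨x, y, e, h5⟩ := h1.act ho hu hA hA' fun x y => push tag x y
        (2 ^ X.B.ps X.L ⟨t0.i, t0.a + l1, t0.b + l2, t0.c + l3, t0.d + l4⟩)
        (Nat.lor (Nat.shiftLeft msk δ) (lowm X.L δ)) ((L3.apL p' m' (L3.terms g' A')).g1 0)
        ((L3.apL p' m' (L3.terms g' A')).g2 0) rows M fun rows M =>
          pass tag δ (lowm X.L δ) free (L3.terms g A) (L3.terms g' A') t rows M k
      rw [e] at hk
      obtain ⟨rows', M', h6, h7⟩ := push_spec hu hk hs h5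
        ⟨h2.1, by have := h2.2; dsimp only; omega⟩ (e1 ▸ h3.shift δ)
      exact ih h4 h6 h7
    · exact ⟨rows, M, hk, hs⟩

variable {A A' : L2} {H : HL} {ops : OL}

theorem opsL_spec (E : X.Env u A A' H ops) {tag : ℕ} {k : RL → ℕ → Bool}
    (hk : opsL A A' H ops tag rows M k = true) (hs : X.St u rows M) :
    ∃ rows M, k rows M = true ∧ X.St u rows M := by
  obtain ⟨hu, hA, hA', hH, hO⟩ := E
  induction ops generalizing tag rows M with
  | nil => exact ⟨rows, M, hk, hs⟩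
  | cons n δ jl ul lo g g' t ih =>
    change HL.rec (motive := fun _ => Bool) (opsL A A' H t (tag + 1) rows M k)
      (fun src Ms _ _ => bf (Nat.beq _ 0) (opsL A A' H t (tag + 1) rows M k)
        (pass tag δ lo _ (L3.terms g A) (L3.terms g' A') src rows M fun rows M =>
          opsL A A' H t (tag + 1) rows M k)) (H.drop n) = true at hk
    generalize e : H.drop n = H' at hk
    cases H' with
    | nil => exact ih hk hs hO.2
    | cons src Ms t' =>
      dsimp only at hk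
      rw [bf_beq] at hk
      split_ifs at hk
      · exact ih hk hs hO.2
      · obtain ⟨u0, rfl, h1⟩ := hH.drop e
        obtain ⟨rows', M', h2, h3⟩ := pass_spec hO.1 hu hA hA' h1 hk hs
        exact ih h2 h3 hO.2

theorem ads_spec {sg : ℕ} {k : ℕ → ℕ → ℕ → ℕ → Bool} (hk : ads sg x y x' y' p m p' m' k = true)
    (h : X.Inv f u x y x' y') (h' : X.Inv f u p m p' m') :
    ∃ x y x' y', k x y x' y' = true ∧ X.Inv f u x y x' y' := by
  unfold ads at hk
  revert hk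
  cases Nat.beq sg 0 <;> intro hk
  · exact ⟨_, _, _, _, hk, h.add h'.neg⟩
  · exact ⟨_, _, _, _, hk, h.add h'⟩

theorem red_spec {l : List ℕ} {k : ℕ → ℕ → ℕ → ℕ → Bool} (hk : red l rows x y x' y' k = true)
    (hr : X.ROk u rows) (h : X.Inv f u x y x' y') :
    ∃ x y x' y', k x y x' y' = true ∧ X.Inv f u x y x' y' := by
  induction l generalizing rows x y x' y' with
  | nil => exact ⟨_, _, _, _, hk, h⟩
  | cons c l ih =>
    change RL.rec (motive := fun _ => Bool) false (fun _ p m _ _ p' m' t _ =>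
      ads (Nat.mod c 2) x y x' y' p m p' m' fun x y x' y' => bf (Nat.beq x 0)
        (red l t x y x' y' k) (red l t x y x' y' k)) (rows.drop (Nat.div c 2)) = true at hk
    have h1 := hr.drop (Nat.div c 2)
    generalize rows.drop (Nat.div c 2) = r at hk h1
    cases r with
    | nil => exact absurd hk Bool.false_ne_true
    | cons tg p m low msk p' m' t =>
      obtain ⟨a, b, a', b', h2, h3⟩ := ads_spec hk h h1.1.1.mono
      rw [bf_beq, ite_self] at h2
      exact ih h2 h1.2 h3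

/-- the given functionals vanish on the image of the differential -/
def SOk (B : Box) (L0 L : L2) (l0 : ℕ → ℕ → Ex → K) (SG : L3) (n : ℕ) : Prop :=
  ∀ a < n, Can (SG.g2 a) (SG.g3 a) → Zk B L0 L l0 (SG.g1 a) (SG.g2 a) (SG.g3 a)

theorem comb_spec (E : X.Env u A A' H ops) {SG it : L3} (hS : SOk X.B X.L0 X.L X.l0 SG SG.len)
    {k : ℕ → ℕ → ℕ → ℕ → Bool} (hk : comb u A A' H ops SG it x y x' y' k = true)
    (h : X.Inv (SG.len = 0) u x y x' y') :
    ∃ x y x' y', k x y x' y' = true ∧ X.Inv (SG.len = 0) u x y x' y' := by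
  induction it generalizing x y x' y' with
  | nil => exact ⟨_, _, _, _, hk, h⟩
  | cons o a sg t ih =>
    rcases o with _ | o
    · have h1 := bf_and (c := Nat.blt a SG.len) hk
      have h2 := bf_and h1.2
      have h3 := bf_and h2.2
      have h4 := blt_iff.1 h1.1
      obtain ⟨_, _, _, _, h5, h6⟩ := ads_spec h3.2 h
        ⟨beq_iff.1 h2.1 ▸ hS a h4 (can_of_land h3.1), fun h0 => by omega⟩
      exact ih h5 h6
    · change OL.rec (motive := fun _ => Bool) false (fun n _ _ _ _ g g' _ _ =>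
        HL.rec (motive := fun _ => Bool) false (fun src _ _ _ =>
        RL.rec (motive := fun _ => Bool) false (fun _ p m _ _ p' m' _ _ =>
          L3.ap1 p m (L3.terms g A) fun a b => ads sg x y x' y' a b
            ((L3.apL p' m' (L3.terms g' A')).g1 0) ((L3.apL p' m' (L3.terms g' A')).g2 0)
            fun x y x' y' => comb u A A' H ops SG t x y x' y' k)
          (src.drop a)) (H.drop n)) (ops.drop o) = true at hk
      have h1 := E.hO.drop o
      generalize ops.drop o = ops' at hk h1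
      cases ops' with
      | nil => exact absurd hk Bool.false_ne_true
      | cons n δ jl ul lo g g' t' =>
        dsimp only at hk
        generalize e : H.drop n = H' at hk
        cases H' with
        | nil => exact absurd hk Bool.false_ne_true
        | cons src Ms t'' =>
          obtain ⟨u0, rfl, h2⟩ := E.hH.drop e
          have h3 := h2.drop a
          dsimp only at hk
          generalize src.drop a = r at hk h3
          cases r with
          | nil => exact absurd hk Bool.false_ne_true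
          | cons tg p m low msk p' m' t3 =>
            obtain ⟨a, b, e1, h4⟩ := h3.1.1.act h1.1 E.hu E.hA E.hA' fun a b =>
              ads sg x y x' y' a b ((L3.apL p' m' (L3.terms g' A')).g1 0)
                ((L3.apL p' m' (L3.terms g' A')).g2 0)
                fun x y x' y' => comb (u0 + (n + 1)) A A' H ops SG t x y x' y' k
            dsimp only at hk
            rw [e1] at hk
            obtain ⟨_, _, _, _, h5, h6⟩ := ads_spec hk h h4.mono
            exact ih h5 h6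

theorem pushD_spec {i b c d : ℕ} {k : RL → ℕ → Bool} (hu : u ≤ X.B.T)
    (hk : pushD X.B X.L u i b c d p m p' m' rows M k = true) (hs : X.St u rows M)
    (h : X.Inv True u p m p' m') : ∃ rows M, k rows M = true ∧ X.St u rows M := by
  have h1 := bf_and hk
  have h2 := bf_and h1.2
  have h3 : X.L.g1 i + (4 * b + (13 * c + 40 * d)) ≤ u := ble_iff.1 h2.1
  exact push_spec (t0 := ⟨i, u - (X.L.g1 i + (4 * b + (13 * c + 40 * d))), b, c, d⟩) hu h2.2 hs h
    ⟨blt_iff.1 h1.1, by dsimp only; omega⟩ (msk_new _ _ _)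

theorem is_spec {l : L3} {j : ℕ} (h : l.is j u x y = true) :
    l.g1 j = u ∧ l.g2 j = x ∧ l.g3 j = y :=
  ⟨beq_iff.1 (bf_and h).1, beq_iff.1 (bf_and (bf_and h).2).1, beq_iff.1 (bf_and (bf_and h).2).2⟩

theorem rp_unit (hu : u ≤ X.B.T) {j : ℕ} (hj : j < X.L'.len) (hw : X.L'.g1 j = u) :
    Rp X.B X.L' u (Nat.pow 2 (X.L'.off j)) 0 fun j' e => if j' = j then eps K e else 0 := by
  refine ⟨can_zero _, fun t ht => ?_⟩
  have h0 : Val X.L' u ⟨j, 0, 0, 0, 0⟩ := ⟨hj, hw⟩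
  have h1 : X.B.ps X.L' ⟨j, 0, 0, 0, 0⟩ = X.L'.off j := by simp [Box.ps, Box.rt, Box.rb_eq]
  rw [val_right_zero]
  change (if (2 ^ X.L'.off j).testBit _ = true then _ else _) = _
  simp only [Nat.testBit_two_pow, decide_eq_true_eq]
  split_ifs with h2 h3 h3
  · rw [← X.hB.ps_inj X.hL' hu h0 ht (h1.trans h2), eps, if_pos (by simp [Tp.ex, ex4])]
  · exact absurd (congrArg Tp.i (X.hB.ps_inj X.hL' hu h0 ht (h1.trans h2))).symm h3
  · rw [eps, if_neg]
    intro h4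
    have h5 : t = ⟨j, 0, 0, 0, 0⟩ := Tp.ext h3 (by simpa [Tp.ex] using DFunLike.congr_fun h4 0)
      (by simpa [Tp.ex] using DFunLike.congr_fun h4 1)
      (by simpa [Tp.ex] using DFunLike.congr_fun h4 2)
      (by simpa [Tp.ex] using DFunLike.congr_fun h4 3)
    exact h2 (by rw [h5, h1])
  · rfl

variable (X) in
/-- the rows of the generators -/
def GOk (GR : L3) : Prop := ∀ j < X.L'.len, ∀ t, Val X.L (X.L'.g1 j) t →
  val (GR.g2 j) (GR.g3 j) (X.B.ps X.L t) = X.l t.i j t.ex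

variable (X) in
/-- the first `j` generators and the first `j'` syzygies have been checked -/
def JOk (GR SG' : L3) (j j' : ℕ) : Prop :=
  (∀ a < j, X.L'.g1 a ≤ X.B.T ∧ Zk X.B X.L0 X.L X.l0 (X.L'.g1 a) (GR.g2 a) (GR.g3 a)) ∧
    SOk X.B X.L X.L' X.l SG' j'

variable {GR SG SG' : L3} (hG : X.GOk GR) (hS : SOk X.B X.L0 X.L X.l0 SG SG.len)
include hG hS

theorem dat_spec (E : X.Env u A A' H ops) {dl : DL} {j j' : ℕ} {k : ℕ → ℕ → RL → ℕ → Bool}
    (hk : dat X.B X.L X.L' u A A' H ops GR SG SG' dl j j' rows M k = true) (hs : X.St u rows M)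
    (hJ : X.JOk GR SG' j j') :
    ∃ j j' rows M, k j j' rows M = true ∧ X.St u rows M ∧ X.JOk GR SG' j j' := by
  induction dl generalizing j j' rows M with
  | nil => exact ⟨_, _, _, _, hk, hs, hJ⟩
  | cons o i b c d it rl t ih =>
    change bf (Nat.beq o 2) (comb u A A' H ops SG it 0 0 0 0 _)
      (comb u A A' H ops L3.nil it 0 0 0 0 _) = true at hk
    rw [bf_beq] at hk
    split_ifs at hk
    · obtain ⟨_, _, _, _, h1, h2⟩ := comb_spec E hS hk inv_zero
      obtain ⟨x, y, _, _, h3, h4⟩ := red_spec h1 hs.1 h2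
      have h5 := bf_and h3
      have h6 := bf_and h5.2
      have h7 := bf_and h6.2
      obtain ⟨-, rfl, rfl⟩ := is_spec h5.1
      have hj := blt_iff.1 h6.1
      have hw := beq_iff.1 h7.1
      obtain ⟨rows', M', h8, h9⟩ := pushD_spec E.hu h7.2 hs ⟨h4.1, fun _ =>
        ⟨_, rp_unit E.hu hj hw, h4.can, fun t ht => by rw [psi_eps _ hj, hG j hj t (hw ▸ ht)]⟩⟩
      refine ih h8 h9 ⟨fun a ha => ?_, hJ.2⟩
      rcases Nat.lt_succ_iff_lt_or_eq.1 ha with ha | rfl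
      · exact hJ.1 a ha
      · exact ⟨hw ▸ E.hu, hw ▸ h4.1⟩
    · obtain ⟨_, _, _, _, h1, h2⟩ := comb_spec (SG := L3.nil) E
        (fun a ha => absurd ha (Nat.not_lt_zero a)) hk inv_zero
      obtain ⟨x, y, x', y', h3, h4⟩ := red_spec h1 hs.1 h2
      rw [bf_beq] at h3
      split_ifs at h3
      · obtain ⟨rows', M', h8, h9⟩ := pushD_spec E.hu h3 hs ⟨h4.1, fun _ => h4.2 rfl⟩
        exact ih h8 h9 hJ
      · have h5 := bf_and h3
        have h6 := bf_and h5.2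
        obtain ⟨e1, e2, e3⟩ := is_spec h6.1
        refine ih h6.2 hs ⟨hJ.1, fun a ha hc => ?_⟩
        rcases Nat.lt_succ_iff_lt_or_eq.1 ha with ha | rfl
        · exact hJ.2 a ha hc
        · obtain ⟨ξ, h7, h8⟩ := h4.2 rfl
          rw [e1, e2, e3]
          exact ⟨ξ, h7, fun t ht => (h8.2 t ht).symm.trans (val_of_lor h5.1 _)⟩

theorem step_spec (E : X.Env u A A' H ops) {n r k cm j j' : ℕ} (hn : n < 4095) {dl : DL}
    {c : L2 → L2 → HL → ℕ → ℕ → Bool}
    (hk : step X.B X.L X.L' ops GR SG SG' n (evy n) u r k cm dl A A' H j j' c = true)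
    (hJ : X.JOk GR SG' j j') : Res X.B X.L X.L'.len X.l u r k cm ∧
      ∃ H' j j', c A A' H' j j' = true ∧ X.HOk H' (u + 1) ∧ X.JOk GR SG' j j' := by
  obtain ⟨_, _, h1, h2⟩ := opsL_spec E hk ⟨trivial, fun q hq => by simp at hq⟩
  obtain ⟨j, j', rows, M, h3, h4, h5⟩ := dat_spec hG hS E h1 h2 hJ
  have h6 := bf_and h3
  have h7 := bf_and h6.2
  have h8 := bf_and h7.2
  have h9 := bf_and h8.2
  obtain rfl := beq_iff.1 h6.1
  refine ⟨⟨h4.2, pc_ge hn h7.1, ?_⟩, _, j, j', h9.2, ⟨u, rfl, h4.1, E.hH⟩, h5⟩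
  obtain ⟨Z, z1, z2⟩ := pc_le hn h8.1 h9.1
  refine ⟨Z, z1, fun t ht => or_iff_not_imp_left.2 fun h0 => z2 _ ?_⟩
  have h10 := E.hA.val E.hu ht 0
  rw [Nat.choose_zero_right, Nat.cast_one, L2.vl, val] at h10
  rw [nd, Nat.xor_eq, Nat.land_eq, Nat.testBit_xor, Nat.testBit_and, Bool.eq_false_iff.2 h0]
  revert h10
  generalize (A.g1 0).testBit _ = a
  generalize (A.g2 0).testBit _ = b
  revert a b
  decide

theorem runL_spec (hO : X.OOk ops) {n : ℕ} (hn : n < 4095) {rk : L3} {D : List DL} {j j' : ℕ}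
    (hk : runL X.B X.L X.L' ops GR SG SG' n (evy n) rk D u A A' H j j' = true)
    (hu : u + rk.len ≤ X.B.T + 1) (hA : AOk X.B X.L u A) (hA' : AOk X.B X.L' u A')
    (hH : X.HOk H u) (hJ : X.JOk GR SG' j j') : X.JOk GR SG' X.L'.len SG'.len ∧
      ∀ v < rk.len, Res X.B X.L X.L'.len X.l (u + v) (rk.g1 v) (rk.g2 v) (rk.g3 v) := by
  induction rk generalizing D u A A' H j j' with
  | nil =>
    have h1 := bf_and (c := Nat.ble X.L'.len j) hk
    exact ⟨⟨fun a ha => hJ.1 a (ha.trans_le (ble_iff.1 h1.1)),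
      fun a ha => hJ.2 a (ha.trans_le (ble_iff.1 h1.2))⟩, fun v hv => absurd hv (Nat.not_lt_zero v)⟩
  | cons r k cm t ih =>
    change u + (t.len + 1) ≤ _ at hu
    cases D with
    | nil => exact absurd hk Bool.false_ne_true
    | cons dl D =>
      have E : X.Env u _ _ H ops := ⟨by omega, X.hB.aOk_pas X.hL (by omega) hA,
        X.hB.aOk_pas X.hL' (by omega) hA', hH, hO⟩
      obtain ⟨h1, H', j, j', h2, h3, h4⟩ := step_spec hG hS E hn hk hJ
      obtain ⟨h5, h6⟩ := ih h2 (by omega) E.hA E.hA' h3 h4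
      refine ⟨h5, fun v hv => ?_⟩
      rcases v with _ | v
      · exact h1
      · have h7 := h6 v (Nat.lt_of_succ_lt_succ hv)
        rwa [Nat.succ_add] at h7

omit hG hS in
theorem oOk_ops (sp : L2) : X.OOk (X.B.ops X.L (X.B.tab X.L X.B.p2 X.B.m2 X.B.S2)
    (X.B.tab X.L X.B.p3 X.B.m3 X.B.S3) (X.B.tab X.L X.B.p4 X.B.m4 X.B.S4)
    (X.B.tab X.L' X.B.p2 X.B.m2 X.B.S2) (X.B.tab X.L' X.B.p3 X.B.m3 X.B.S3)
    (X.B.tab X.L' X.B.p4 X.B.m4 X.B.S4) sp) := by
  induction sp with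
  | nil => trivial
  | cons i n t ih =>
    obtain ⟨μ, h1, h2⟩ := exists_op i (n + 1)
    have e : Nat.pred (Nat.mul (Box.sel i 1 4 13 40) (n + 1)) + 1 =
        Box.sel i 1 4 13 40 * (n + 1) := by
      refine Nat.succ_pred_eq_of_pos (Nat.mul_pos ?_ (Nat.succ_pos n))
      simp only [Box.sel, bf_beq]
      split_ifs <;> norm_num
    refine ⟨⟨μ, Box.sel i (n + 1) 0 0 0, _, _, _, e ▸ h1,
      e ▸ h2 _ _ _ _ _ X.hB (X.hB.uOk2 X.hL) (X.hB.uOk3 X.hL) (X.hB.uOk4 X.hL),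
      e ▸ h2 _ _ _ _ _ X.hB (X.hB.uOk2 X.hL') (X.hB.uOk3 X.hL') (X.hB.uOk4 X.hL'),
      e.trans ?_, rfl, rfl⟩, ih⟩
    simp only [Box.sel, bf_beq]
    split_ifs <;> simp

end Cx

theorem run_spec {B : Box} (hB : B.Ok) {sp L0 L L' : L2} {GR SG SG' : L3} {n : ℕ} {rk : L3}
    {D : List DL} (h : run B sp L L' GR SG SG' n rk D = true) {l0 l : ℕ → ℕ → Ex → K}
    (hG : ∀ j < L'.len, ∀ t, Val L (L'.g1 j) t → val (GR.g2 j) (GR.g3 j) (B.ps L t) = l t.i j t.ex)
    (hS : Cx.SOk B L0 L l0 SG SG.len) : B.lay L = true ∧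
      (∀ a < L'.len, L'.g1 a ≤ B.T ∧ Zk B L0 L l0 (L'.g1 a) (GR.g2 a) (GR.g3 a)) ∧
      Cx.SOk B L L' l SG' SG'.len ∧
      ∀ u ≤ B.T, Res B L L'.len l u (rk.g1 u) (rk.g2 u) (rk.g3 u) := by
  have h1 := bf_and h
  have h2 := bf_and h1.2
  have h3 := bf_and h2.2
  have h4 := bf_and h3.2
  have h5 : rk.len = B.T + 1 := beq_iff.1 h4.1
  obtain ⟨h6, h7⟩ := Cx.runL_spec (X := ⟨B, L0, L, L', l0, l, hB, h1.1, h2.1⟩) hG hS
    (Cx.oOk_ops sp) (blt_iff.1 h3.1) h4.2 (show 0 + rk.len ≤ B.T + 1 by omega) (aOk_nil _ _) (aOk_nil _ _)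
    trivial ⟨fun a ha => absurd ha (Nat.not_lt_zero a), fun a ha => absurd ha (Nat.not_lt_zero a)⟩
  refine ⟨h1.1, h6.1, h6.2, fun u hu => ?_⟩
  have h8 := h7 u (by omega)
  rwa [zero_add] at h8

end Vale.Agent.P236K.Cert.Pl
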