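import Vale.Agent.P236K.Cert.Tri0
import Vale.Agent.P236K.Cert.Dat
import Vale.Agent.P236K.Cert.RunS

/-!
# P236K / Cert / PFin : the checked tables satisfy `Lev0`
-/

set_option linter.unusedSectionVars false

noncomputable section

namespace Vale.Agent.P236K.Cert.Pl

open Vale.Agent.P236K.Alg MvPolynomial Finset

theorem fn_congr {f g : Ex → K} {y : Av K} (h : ∀ b, coeff b y ≠ 0 → f b = g b) :
    fn f y = fn g y := by
  rw [fn_eq_sum, fn_eq_sum]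
  exact sum_congr rfl fun b hb => by rw [h b (mem_support_iff.1 hb)]

/-- the node of the generator `i` and the exponent `b` -/
def tp (i : ℕ) (b : Ex) : Tp := ⟨i, b 0, b 1, b 2, b 3⟩

theorem tp_ex (t : Tp) : tp t.i t.ex = t := by
  simp only [tp, Tp.ex, ex4_0, ex4_1, ex4_2, ex4_3]

theorem Val.wt {L : L2} {u : ℕ} {t : Tp} (h : Val L u t) :
    wE 3 t.ex + 2 * (L.g1 t.i : ℕ) = 2 * (u : ℕ) := by
  have h2 := h.2
  rw [Tp.ex, wE_ex4]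
  omega

namespace Dat

variable (D : Dat)

/-- the small checks -/
def fin : Bool :=
  Nat.beq (D.LL 0).len 1 && Nat.beq ((D.LL 0).g1 0) 0 &&
    (allLt D.B.T fun u => Nat.beq ((D.RK 0).g2 (Nat.succ u)) 0) &&
    ((D.LL 1).all fun w _ => Nat.blt 0 w) &&
    allLt D.S fun s => allLt (Nat.succ D.B.T) fun u =>
      Nat.ble ((D.RK (Nat.succ s)).g2 u) ((D.RK s).g1 u)

/-- all checks -/
structure Chk (YY : ℕ → L3) : Prop where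
  box : D.B.chk = true
  fin : D.fin = true
  run : ∀ s ≤ D.S, ∃ sp n Dl,
    run D.B sp (D.LL s) (D.LL (s + 1)) (D.GG s) (YY s) (YY (s + 1)) n (D.RK s) Dl = true

/-- the layout of the previous degree -/
def L0 (s : ℕ) : L2 := Nat.rec L2.nil (fun s _ => D.LL s) s

theorem pos_eq (s i : ℕ) (b : Ex) : D.pos s i (b 1) (b 2) (b 3) = D.B.ps (D.LL s) (tp i b) := rfl

variable {D}

theorem lamN_eq {s j : ℕ} {t : Tp} (h : Val (D.LL s) ((D.LL (s + 1)).g1 j) t) :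
    val ((D.GG s).g2 j) ((D.GG s).g3 j) (D.B.ps (D.LL s) t) = D.lamN s t.i j t.ex := by
  rw [lamN, if_pos h.wt, pos_eq, tp_ex]

theorem node (hT : D.B.T ≤ 120) {g : D.G} {b : Ex} {u : ℤ} (h : wN D.tau g b = u)
    (hu : u ≤ (2 * D.B.T + 1 : ℕ)) : ∃ v ≤ D.B.T, u = 2 * (v : ℕ) ∧
      Val (D.LL g.1) v (tp g.2 b) ∧ (tp g.2 b).ex = b := by
  change wE 3 b + 2 * ((D.LL g.1).g1 g.2 : ℕ) = u at h
  have h1 : b = ex4 (b 0) (b 1) (b 2) (b 3) := eq_ex4 (by omega)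
  have h2 := wE_ex4 (b 0) (b 1) (b 2) (b 3)
  rw [← h1] at h2
  exact ⟨(D.LL g.1).g1 g.2 + (b 0 + 4 * b 1 + 13 * b 2 + 40 * b 3), by omega, by omega,
    ⟨g.2.2, rfl⟩, h1.symm⟩

theorem node' (hT : D.B.T ≤ 120) {g : D.G} {b : Ex} {v : ℕ} (h : wN D.tau g b = 2 * (v : ℕ))
    (hv : v ≤ D.B.T) : Val (D.LL g.1) v (tp g.2 b) ∧ (tp g.2 b).ex = b := by
  obtain ⟨v', -, h1, h2⟩ := node hT h (by omega)
  obtain rfl : v = v' := by omega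
  exact h2

theorem cn_iff {g : D.G} {b : Ex} {v : ℕ} (h : wN D.tau g b = 2 * (v : ℕ)) (hv : v ≤ D.B.T) :
    D.Cn g b ↔ ((D.RK g.1).g3 v).testBit (D.B.ps (D.LL g.1) (tp g.2 b)) = true := by
  refine ⟨fun ⟨v', _, h1, h2⟩ => ?_, fun h1 => ⟨v, hv, h, h1⟩⟩
  change wE 3 b + 2 * (D.w g : ℕ) = _ at h
  obtain rfl : v = v' := by omega
  exact h2

theorem sum_lev {M : Type} [AddCommMonoid M] (σ : Fin (D.S + 2)) (f : D.G → M)
    (h : ∀ g : D.G, (g.1 : ℕ) ≠ σ → f g = 0) : ∑ g, f g = ∑ i, f ⟨σ, i⟩ := by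
  rw [Fintype.sum_sigma, sum_eq_single σ]
  · exact fun σ' _ h1 => sum_eq_zero fun i _ => h _ fun h2 => h1 (Fin.ext h2)
  · exact fun h1 => absurd (mem_univ σ) h1

theorem sd_lam (g h : D.G) (b : Ex) (e : D.tau.sd h ≠ D.tau.sd g + 1) : D.tau.lam g h b = 0 :=
  if_neg e

theorem wt_lam (g h : D.G) (b : Ex) :
    WA 3 (wE 3 b + D.tau.dg g - D.tau.dg h) (D.tau.lam g h b) := by
  change WA 3 (wE 3 b + 2 * ((D.LL g.1).g1 g.2 : ℕ) - 2 * ((D.LL h.1).g1 h.2 : ℕ))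
    (if (h.1 : ℕ) = g.1 + 1 then C (D.lamN g.1 g.2 h.2 b) else 0)
  split_ifs with h1
  · rw [lamN, ← h1]
    split_ifs with h2
    · rw [h2, sub_self]
      exact isWeightedHomogeneous_C _ _
    · rw [map_zero]
      exact isWeightedHomogeneous_zero _ _ _
  · exact isWeightedHomogeneous_zero _ _ _

theorem const (g h : D.G) (b : Ex) : D.tau.lam g h b = C (cc F3 (D.tau.lam g h b)) := by
  change (if (h.1 : ℕ) = g.1 + 1 then C (D.lamN g.1 g.2 h.2 b) else 0) =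
    C (cc F3 (if (h.1 : ℕ) = g.1 + 1 then C (D.lamN g.1 g.2 h.2 b) else 0))
  split_ifs
  · rw [cc_C]
  · rw [map_zero, map_zero]

theorem cc_lam {g h : D.G} (e : (h.1 : ℕ) = g.1 + 1) :
    (fun b => cc F3 (D.tau.lam g h b)) = D.lamN g.1 g.2 h.2 :=
  funext fun _ => (congrArg (cc F3) (if_pos e)).trans (cc_C _)

variable [PL 3 F3]

theorem idn {s : ℕ} (h0 : s < D.S + 2) (h1 : s + 1 < D.S + 2) (ξ : ℕ → Ex → K) {u : ℤ}
    {y : D.G → Av F3} (hy : D.tau.Hom 3 s u y) :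
    ∑ j : Fin (D.LL (s + 1)).len, fn (ξ j) (D.tau.d0 3 y ⟨⟨s + 1, h1⟩, j⟩) =
      ∑ i : Fin (D.LL s).len, fn (psi (D.lamN s) (D.LL (s + 1)).len ξ i) (y ⟨⟨s, h0⟩, i⟩) := by
  have e : ∀ j : Fin (D.LL (s + 1)).len, D.tau.d0 3 y ⟨⟨s + 1, h1⟩, j⟩ =
      ∑ i : Fin (D.LL s).len, op0 3 (D.lamN s i j) (y ⟨⟨s, h0⟩, i⟩) := fun j => by
    rw [Tw.d0, sum_lev ⟨s, h0⟩ _ fun g hg => by rw [(hy g).1 hg, map_zero]]
    exact sum_congr rfl fun i _ => by rw [cc_lam rfl]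
  simp only [e, map_sum]
  rw [sum_comm]
  refine sum_congr rfl fun i _ => ?_
  have h : psi (D.lamN s) (D.LL (s + 1)).len ξ i =
      fun b => ∑ j ∈ range (D.LL (s + 1)).len, conv0 3 (ξ j) (D.lamN s i j) b := rfl
  rw [h, fn_sum, ← Fin.sum_univ_eq_sum_range fun j => fn (conv0 3 (ξ j) (D.lamN s i j)) _]
  exact sum_congr rfl fun j _ => (fn_conv0 _ _ _).symm

namespace Chk

variable {YY : ℕ → L3} (H : D.Chk YY)
include H

theorem ok : D.B.Ok := Box.ok_of_chk H.box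

theorem sok {s : ℕ} (hs : s ≤ D.S + 1) :
    Cx.SOk D.B (D.L0 s) (D.LL s) (D.lamN (s - 1)) (YY s) (YY s).len := by
  induction s with
  | zero =>
    exact fun a _ hc => ⟨fun i e => val ((YY 0).g2 a) ((YY 0).g3 a) (D.B.ps (D.LL 0) (tp i e)),
      ⟨hc, fun t _ => by simp only [tp_ex]⟩, fun t ht => absurd ht.1 (Nat.not_lt_zero _)⟩
  | succ s ih =>
    obtain ⟨sp, n, Dl, h⟩ := H.run s (by omega)
    exact (run_spec H.ok h (fun _ _ _ => lamN_eq) (ih (by omega))).2.2.1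

theorem spec {s : ℕ} (hs : s ≤ D.S) : D.B.lay (D.LL s) = true ∧
    (∀ a < (D.LL (s + 1)).len, (D.LL (s + 1)).g1 a ≤ D.B.T ∧ Zk D.B (D.L0 s) (D.LL s)
      (D.lamN (s - 1)) ((D.LL (s + 1)).g1 a) ((D.GG s).g2 a) ((D.GG s).g3 a)) ∧
    ∀ u ≤ D.B.T, Res D.B (D.LL s) (D.LL (s + 1)).len (D.lamN s) u ((D.RK s).g1 u)
      ((D.RK s).g2 u) ((D.RK s).g3 u) := by
  obtain ⟨sp, n, Dl, h⟩ := H.run s hs
  have h1 := run_spec H.ok h (fun _ _ _ => lamN_eq) (H.sok (Nat.le_succ_of_le hs))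
  exact ⟨h1.1, h1.2.1, h1.2.2.2⟩

theorem fin' : (D.LL 0).len = 1 ∧ (D.LL 0).g1 0 = 0 ∧ (∀ u < D.B.T, (D.RK 0).g2 (u + 1) = 0) ∧
    (∀ j < (D.LL 1).len, 0 < (D.LL 1).g1 j) ∧
    ∀ s < D.S, ∀ u ≤ D.B.T, (D.RK (s + 1)).g2 u ≤ (D.RK s).g1 u := by
  have h := H.fin
  simp only [Dat.fin, Bool.and_eq_true] at h
  obtain ⟨⟨⟨⟨h1, h2⟩, h3⟩, h4⟩, h5⟩ := h
  exact ⟨beq_iff.1 h1, beq_iff.1 h2, fun u hu => beq_iff.1 (allLt_spec h3 hu),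
    fun j hj => blt_iff.1 (L2.all_spec h4 hj),
    fun s hs u hu => ble_iff.1 (allLt_spec (allLt_spec h5 hs) (Nat.lt_succ_of_le hu))⟩

theorem lam0 (h : D.G) : D.tau.lam D.tau.g0 h 0 = 0 := by
  change (if (h.1 : ℕ) = 0 + 1 then C (D.lamN 0 0 h.2 0) else 0) = 0
  split_ifs with h1
  · have h2 := H.fin'.2.2.2.1 h.2 (by rw [← show (h.1 : ℕ) = 1 from h1]; exact h.2.2)
    rw [lamN, H.fin'.2.1, map_zero, if_neg (by simp only [zero_add]; omega), map_zero]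
  · rfl

theorem hom_d0 {s : ℕ} {u : ℤ} {z : D.G → Av F3} (hz : D.tau.Hom 3 s u z) :
    D.tau.Hom 3 (s + 1) u (D.tau.d0 3 z) := by
  have P : Lf.Pre D.tau (fun _ _ => False) D.tau.lam :=
    ⟨sd_lam, wt_lam, H.lam0, fun _ _ _ h => h.elim, fun _ _ _ => rfl⟩
  have h1 := Lf.red_hom (P.Dl_mem (Lf.inc_mem hz))
  rwa [red_Dl', Lf.red_inc] at h1

theorem bot (g : D.G) (b : Ex) (h0 : D.tau.sd g = 0) (hu : wN D.tau g b ≤ (2 * D.B.T + 1 : ℕ))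
    (hC : ¬ D.Cn g b) : g = D.tau.g0 ∧ b = 0 := by
  obtain ⟨v, hv, h1, h2, h3⟩ := node H.ok.T5 rfl hu
  rw [cn_iff h1 hv] at hC
  obtain ⟨σ, i⟩ := g
  obtain rfl : σ = 0 := Fin.ext h0
  obtain ⟨Z, h4, h5⟩ := ((H.spec (Nat.zero_le _)).2.2 v hv).2.2
  have h6 := card_pos.2 ⟨_, (h5 _ h2).resolve_left hC⟩
  obtain rfl : v = 0 := by
    rcases v with _ | v
    · rfl
    · have := H.fin'.2.2.1 v hv
      omega
  have h7 : (D.LL 0).g1 i + (b 0 + 4 * b 1 + 13 * b 2 + 40 * b 3) = 0 := h2.2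
  have h8 : (i : ℕ) < (D.LL 0).len := i.2
  rw [H.fin'.1] at h8
  refine ⟨congrArg (Sigma.mk 0) (Fin.ext (show (i : ℕ) = 0 by omega)), ?_⟩
  rw [← h3]
  exact ex_ext (by simp [Tp.ex, tp]; omega) (by simp [Tp.ex, tp]; omega)
    (by simp [Tp.ex, tp]; omega) (by simp [Tp.ex, tp]; omega) fun i => by simp [Tp.ex]

theorem inj0 {s : ℕ} (hs : s ≤ D.S) {u : ℤ} (hu : u ≤ (2 * D.B.T + 1 : ℕ)) (z : D.G → Av F3)
    (hz : D.tau.Hom 3 s u z) (hC : Sup D.Cn z) (hd : D.tau.d0 3 z = 0) : z = 0 := by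
  have h0 : s < D.S + 2 := by omega
  by_contra hne
  obtain ⟨⟨σ, i⟩, hg⟩ := Function.ne_iff.1 hne
  obtain ⟨b, hb⟩ := ne_zero_iff.1 hg
  obtain rfl : σ = ⟨s, h0⟩ := Fin.ext (T0.hom_coeff hz hb).1
  obtain ⟨x, hx, hm⟩ := exists_max_image
    (univ.sigma fun i : Fin (D.LL s).len => (z ⟨⟨s, h0⟩, i⟩).support)
    (fun x => toLex (D.B.rt (tp x.1 x.2), (D.LL s).off x.1))
    ⟨⟨i, b⟩, mem_sigma.2 ⟨mem_univ _, mem_support_iff.2 hb⟩⟩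
  have hx' := mem_support_iff.1 (mem_sigma.1 hx).2
  obtain ⟨v, hv, h1, h2, h3⟩ := node H.ok.T5 (T0.hom_coeff hz hx').2 hu
  subst h1
  obtain ⟨t0, h4, h5, ξ, h6, h7⟩ := ((H.spec hs).2.2 v hv).1 _
    ((cn_iff (T0.hom_coeff hz hx').2 hv).1 (by_contra fun h => hx' (hC _ _ h)))
  obtain rfl := H.ok.ps_inj (H.spec hs).1 hv h4 h2 h5
  have h8 := idn h0 (by omega) ξ hz
  simp only [hd, Pi.zero_apply, map_zero, sum_const_zero, fn_eq_sum] at h8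
  rw [sum_sigma', sum_eq_single_of_mem x hx] at h8
  · exact mul_ne_zero hx' (h3 ▸ h6) h8.symm
  · intro y hy hne
    obtain ⟨e1, e2⟩ := node' H.ok.T5
      (T0.hom_coeff hz (mem_support_iff.1 (mem_sigma.1 hy).2)).2 hv
    have e3 := h7 _ e1 (Prod.Lex.toLex_le_toLex.1 (hm y hy)) fun e => hne (by
      have e4 : y.1 = x.1 := Fin.ext (congrArg Tp.i e)
      have e5 : y.2 = x.2 := e2.symm.trans ((congrArg Tp.ex e).trans h3)
      exact Sigma.ext e4 (heq_of_eq e5))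
    rw [e2] at e3
    exact mul_eq_zero_of_right _ e3

theorem cnt {s : ℕ} (hs : s < D.S) {u : ℤ} (hu : u ≤ (2 * D.B.T + 1 : ℕ)) :
    ∃ A B : Finset (D.G × Ex), A.card ≤ B.card ∧
      (∀ h c, D.tau.sd h = s + 1 → wN D.tau h c = u → ¬ D.Cn h c → (h, c) ∈ A) ∧
      ∀ r ∈ B, D.tau.sd r.1 = s ∧ wN D.tau r.1 r.2 = u ∧ D.Cn r.1 r.2 := by
  by_cases h : ∃ v ≤ D.B.T, u = 2 * (v : ℕ)
  swap
  · refine ⟨∅, ∅, le_rfl, fun g c _ h1 _ => ?_, fun r hr => absurd hr (notMem_empty r)⟩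
    obtain ⟨v, hv, h2, -⟩ := node H.ok.T5 h1 hu
    exact absurd ⟨v, hv, h2⟩ h
  obtain ⟨v, hv, rfl⟩ := h
  obtain ⟨h1, ⟨Q, h2, h3⟩, -⟩ := (H.spec hs.le).2.2 v hv
  obtain ⟨-, -, P, h4, h5⟩ := (H.spec hs).2.2 v hv
  have h0 : s + 1 < D.S + 2 := by omega
  refine cnt_of_pos (fun g b => D.B.ps (D.LL g.1) (tp g.2 b))
    (fun g b => D.B.ps (D.LL g.1) (tp g.2 b)) P Q (h4.trans ((H.fin'.2.2.2.2 s hs v hv).trans h2))
    ?_ ?_ fun q hq => ?_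
  · rintro ⟨σ, i⟩ c e1 e2 e3
    obtain rfl : σ = ⟨s + 1, h0⟩ := Fin.ext e1
    exact (h5 _ (node' H.ok.T5 e2 hv).1).resolve_left (mt (cn_iff e2 hv).2 e3)
  · rintro ⟨σ, i⟩ c ⟨σ', i'⟩ c' e1 e2 e3 e4 e5
    obtain rfl : σ = ⟨s + 1, h0⟩ := Fin.ext e1
    obtain rfl : σ' = ⟨s + 1, h0⟩ := Fin.ext e3
    obtain ⟨a1, a2⟩ := node' H.ok.T5 e2 hv
    obtain ⟨a3, a4⟩ := node' H.ok.T5 e4 hv
    have e := H.ok.ps_inj (H.spec hs).1 hv a1 a3 e5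
    exact ⟨congrArg (Sigma.mk _) (Fin.ext (congrArg Tp.i e)),
      a2.symm.trans ((congrArg Tp.ex e).trans a4)⟩
  · obtain ⟨t, a1, a2, -⟩ := h1 q (h3 q hq)
    have a3 : wN D.tau ⟨⟨s, by omega⟩, t.i, a1.1⟩ t.ex = 2 * (v : ℕ) := a1.wt
    have a4 : D.B.ps (D.LL s) (tp t.i t.ex) = q := by rw [tp_ex, a2]
    exact ⟨_, _, rfl, a3, (cn_iff a3 hv).2 (a4 ▸ h3 q hq), a4⟩

theorem sq {s : ℕ} (hs : s < D.S) {u : ℤ} (z : D.G → Av F3) (hz : D.tau.Hom 3 s u z) (l : D.G) :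
    ∑ h, fn (fun b => cc F3 (D.tau.lam h l b)) (D.tau.d0 3 z h) = 0 := by
  have h1 : s + 1 < D.S + 2 := by omega
  have hd := H.hom_d0 hz
  rw [sum_lev ⟨s + 1, h1⟩ _ fun g hg => by rw [(hd g).1 hg, map_zero]]
  by_cases hl : (l.1 : ℕ) = s + 1 + 1
  swap
  · refine sum_eq_zero fun j _ => ?_
    simp only [sd_lam ⟨⟨s + 1, h1⟩, j⟩ l _ hl, map_zero, fn_zero]
  have ha : (l.2 : ℕ) < (D.LL (s + 1 + 1)).len := hl ▸ l.2.2
  obtain ⟨hw, φ, h2, h3⟩ := (H.spec hs).2.1 _ ha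
  by_cases hu : u = 2 * ((D.LL (s + 1 + 1)).g1 l.2 : ℕ)
  swap
  · refine sum_eq_zero fun j _ => ?_
    rw [cc_lam (g := ⟨⟨s + 1, h1⟩, j⟩) hl, ← fn_zero]
    exact fn_congr fun b hb => if_neg fun e => hu ((T0.hom_coeff hd hb).2.symm.trans e)
  subst hu
  refine (sum_congr rfl fun j _ => ?_).trans ((idn (by omega) h1 φ hz).trans
    (sum_eq_zero fun i _ => ?_))
  · rw [cc_lam (g := ⟨⟨s + 1, h1⟩, j⟩) hl]
    refine fn_congr fun b hb => ?_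
    obtain ⟨e1, e2⟩ := node' H.ok.T5 (T0.hom_coeff hd hb).2 hw
    have e3 := (lamN_eq e1).symm.trans (h2.2 _ e1)
    rwa [e2] at e3
  · rw [← fn_zero]
    refine fn_congr fun b hb => ?_
    obtain ⟨e1, e2⟩ := node' H.ok.T5 (T0.hom_coeff hz hb).2 hw
    have e3 := h3 _ e1
    rwa [e2] at e3

/-- the checked tables satisfy the conditions modulo `I` -/
theorem lev0 : Lev0 D.tau D.Cn (2 * D.B.T + 1 : ℕ) D.S :=
  Pre0.lev0 ⟨rfl, by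
    change (2 * ((D.LL 0).g1 0 : ℕ) : ℤ) = 0
    rw [H.fin'.2.1]
    rfl, fun g => Nat.lt_succ_iff.1 g.1.2, sd_lam, wt_lam, H.lam0, const, H.bot,
    fun _ hs _ hu => H.inj0 hs hu, fun _ hs _ hu => H.cnt hs hu,
    fun _ hs _ _ z hz _ => H.sq hs z hz⟩

end Chk

end Dat

end Vale.Agent.P236K.Cert.Pl
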