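import Vale.Agent.P236K.Alg.Frm
import Vale.Agent.P236K.Cert.Spec
import Vale.Agent.P236K.Cert.Lane

/-!
# P236K / Cert / Prog : the programs which evaluate the twisting data, and their specifications

Weights are half of the weights of the library (`|v_1| = |t_1| = 1`). A key of a monomial is the
number with the exponents as digits in base `128`. A node key is `g * 2 ^ 28 + y`. A state is
`K = (hi * 2 ^ 28 + y) * 64 + β` where `β` is the power of `v_1` collected so far.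
-/

noncomputable section

namespace Vale.Agent.P236K.Cert

open Vale.Agent.P236K.Alg MvPolynomial

/-! ### keys -/

/-- evaluate a number before the call -/
def fS {α : Type} (n : ℕ) (f : ℕ → α) : α := Nat.rec (f 0) (fun m _ => f m) (Nat.succ n)

theorem fS_eq {α : Type} (n : ℕ) (f : ℕ → α) : fS n f = f n := rfl

/-- the weight of a key -/
def wl : List ℕ → ℕ → ℕ
  | [], _ => 0
  | w :: ws, k => w * (k % 128) + wl ws (k / 128)

/-- the weight of a key with four digits -/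
def w4 (k : ℕ) : ℕ :=
  Nat.add (Nat.add (Nat.mod k 128) (Nat.mul 4 (Nat.mod (Nat.div k 128) 128)))
    (Nat.add (Nat.mul 13 (Nat.mod (Nat.div k 16384) 128))
      (Nat.mul 40 (Nat.mod (Nat.div k 2097152) 128)))

/-- the exponent with a given key -/
def ex (y : ℕ) : Ex :=
  Finsupp.single 0 (y % 128) + Finsupp.single 1 (y / 128 % 128) +
    Finsupp.single 2 (y / 16384 % 128) + Finsupp.single 3 (y / 2097152 % 128)

/-- the key of an exponent -/
def enc (b : Ex) : ℕ := b 0 + 128 * b 1 + 16384 * b 2 + 2097152 * b 3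

/-! ### factor lists : `f` stands for the variable number `f % 4` to the power `3 ^ (f / 4)` -/

/-- the key of a factor -/
def dd (f : ℕ) : ℕ := Nat.mul (Nat.pow 3 (Nat.div f 4)) (Nat.pow 128 (Nat.mod f 4))

/-- the weight of a variable -/
def wv (i : ℕ) : ℕ := [1, 4, 13, 40].getD i 0

/-- the weight of a factor -/
def wf (f : ℕ) : ℕ := Nat.mul (Nat.pow 3 (Nat.div f 4)) (wv (Nat.mod f 4))

/-- sum over a list -/
def sumF (g : ℕ → ℕ) (l : List ℕ) : ℕ := List.rec 0 (fun f _ r => Nat.add (g f) r) l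

/-- ternary digit sum -/
def ds (n : ℕ) : ℕ :=
  Nat.add (Nat.add (Nat.mod n 3) (Nat.mod (Nat.div n 3) 3))
    (Nat.add (Nat.add (Nat.mod (Nat.div n 9) 3) (Nat.mod (Nat.div n 27) 3)) (Nat.div n 81))

/-- the number of factors -/
def len (r : ℕ) : ℕ :=
  Nat.add (Nat.add (ds (Nat.mod r 128)) (ds (Nat.mod (Nat.div r 128) 128)))
    (Nat.add (ds (Nat.mod (Nat.div r 16384) 128)) (ds (Nat.div r 2097152)))

/-- one step of the factor list -/
def flS (fac : ℕ → ℕ) (_ : ℕ) (ih : ℕ → List ℕ) (r : ℕ) : List ℕ :=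
  fS (fac r) fun f => fS (Nat.sub r (dd f)) fun r' => f :: ih r'

/-- the empty factor list -/
def flZ (_ : ℕ) : List ℕ := []

/-- the factor list of a key (`fac` is an arbitrary rule) -/
def flc (fac : ℕ → ℕ) (r : ℕ) : List ℕ :=
  fS (len r) fun n => Nat.rec (motive := fun _ => ℕ → List ℕ) flZ (flS fac) n r

/-- the factor list is correct -/
def okL (fac : ℕ → ℕ) (r : ℕ) : Bool :=
  Bool.rec false (Nat.beq (sumF wf (flc fac r)) (w4 r)) (Nat.beq (sumF dd (flc fac r)) r)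

/-! ### layouts -/

/-- the layout of the values in the generators `gl` of one degree :
`v_1 ↦ z ^ a`, `v_2 ↦ 1`, `v_3 ↦ z`, `v_4 ↦ z ^ ga`, `h ↦ z ^ off h`, precision `v_1 ^ pi` -/
structure Lay where
  /-- exponent of `v_1` -/
  a : ℕ
  /-- exponent of `v_4` -/
  ga : ℕ
  /-- precision -/
  pi : ℕ
  /-- bound for the weights -/
  N : ℕ
  /-- the generators -/
  gl : List ℕ
  /-- the weights of all generators -/
  w : ℕ → ℕ
  /-- the offsets -/
  off : ℕ → ℕ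

namespace Lay

variable (L : Lay)

/-- number of lanes -/
def H : ℕ := Nat.mul L.a L.pi
/-- unknown value -/
def T : ℕ := Th L.H
/-- mask -/
def K : ℕ := Nat.mul 127 (ones L.H)
/-- mask -/
def K8 : ℕ := Nat.mul 255 (ones L.H)
/-- mask -/
def K3 : ℕ := Nat.mul 3 (ones L.H)
/-- the lanes which matter after multiplication by `v_1 ^ β` -/
def cm (β : ℕ) : ℕ := msk (Nat.mul L.a (Nat.sub L.pi β))
/-- the variable -/
def z : R0 L.H := z0 L.H
/-- the packing map -/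
def kap : Av F3 →+* R0 L.H :=
  eval₂Hom (algebraMap F3 (R0 L.H)) fun i => [L.z ^ L.a, 1, L.z, L.z ^ L.ga].getD i 0
/-- the cells `(h, e_3, e_4)` -/
def cells : List (ℕ × ℕ × ℕ) :=
  (L.gl.flatMap fun h => (List.range 4).flatMap fun e4 => (List.range 10).map fun e3 =>
    (h, e3, e4)).filter fun x => Nat.ble (L.w x.1 + 13 * x.2.1 + 40 * x.2.2) L.N
/-- the weight of a cell -/
def cw (x : ℕ × ℕ × ℕ) : ℕ := L.w x.1 + 13 * x.2.1 + 40 * x.2.2
/-- the position of a cell -/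
def cp (x : ℕ × ℕ × ℕ) : ℕ := L.off x.1 + x.2.1 + L.ga * x.2.2
/-- the conditions on a layout (decidable) -/
def Ok : Prop := 0 < L.a ∧ 0 < L.pi ∧ L.pi ≤ 64 ∧ L.N ≤ 120 ∧ L.gl.Nodup ∧
  L.pi * L.cells.length ≤ 3600 ∧ (∀ x ∈ L.cells, L.cp x < L.a) ∧
  (L.cells.map fun x => 4 * L.cp x + L.cw x % 4).Nodup

/-- the monomials `v_2 ^ e_2 v_3 ^ e_3 v_4 ^ e_4 h` of weight `m` : (`16 *` position, node key) -/
def vm (m : ℕ) : List (ℕ × ℕ) :=
  List.rec [] (fun x _ r => Bool.rec r (Bool.rec r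
    (fS (Nat.mul 16 (L.cp x)) fun p => fS (x.1 * 268435456 + (m - L.cw x) / 4 * 128 +
      x.2.1 * 16384 + x.2.2 * 2097152) fun i => (p, i) :: r)
    (Nat.beq (Nat.mod (Nat.sub m (L.cw x)) 4) 0)) (Nat.ble (L.cw x) m)) L.cells

end Lay

/-! ### normal forms -/

/-- truncation -/
def cut (T M x : ℕ) : ℕ := Bool.rec (Nat.land x M) x (Nat.ble T x)

/-- normal form of lanes `≤ 383` -/
def nr1 (T M K x : ℕ) : ℕ := Bool.rec (nrm1 K (Nat.land x M)) x (Nat.ble T x)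

/-- folding of the high bytes -/
def fld (K K8 y : ℕ) : ℕ := Nat.add (Nat.land y K8) (Nat.land (Nat.shiftRight y 8) K)

/-- normal form of lanes `≤ 32767` -/
def nr2 (T M K K8 x : ℕ) : ℕ := Bool.rec (nrm1 K (fld K K8 (Nat.land x M))) x (Nat.ble T x)

/-! ### tables -/

/-- lists of terms : change of the state, shift -/
inductive TL : Type
  | nil : TL
  | a1 (d : ℕ) : TL
  | s1 (d sh : ℕ) : TL
  | a (d : ℕ) (r : TL) : TL
  | s (d sh : ℕ) (r : TL) : TL

/-- entries of the tables -/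
inductive TB : Type
  | pass (d : ℕ) : TB
  | small (l : TL) : TB
  | large (l : TL) : TB
  | bad : TB

/-- the list is empty -/
def TL.isNil (r : TL) : Bool :=
  TL.rec true (fun _ => false) (fun _ _ => false) (fun _ _ _ => false) (fun _ _ _ _ => false) r

/-- a new term -/
def TL.cons (d sh : ℕ) (r : TL) : TL :=
  Bool.rec (Bool.rec (TL.s d sh r) (TL.s1 d sh) r.isNil) (Bool.rec (TL.a d r) (TL.a1 d) r.isNil)
    (Nat.beq sh 0)

/-- bound for the lanes of the sum -/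
def TL.wt (l : TL) : ℕ :=
  TL.rec 0 (fun _ => 3) (fun _ _ => 6) (fun _ _ r => Nat.add 3 r) (fun _ _ _ r => Nat.add 6 r) l

/-- the sum over the terms -/
def sumT (ih : ℕ → ℕ) (K : ℕ) (l : TL) : ℕ :=
  TL.rec 0 (fun d => fS (Nat.add K d) fun m => Nat.add (ih m) 0)
    (fun d sh => fS (Nat.add K d) fun m => Nat.shiftLeft (ih m) sh)
    (fun d _ r => fS (Nat.add K d) fun m => Nat.add (ih m) r)
    (fun d sh _ r => fS (Nat.add K d) fun m => Nat.add (Nat.shiftLeft (ih m) sh) r) l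

/-- the terms of the `m`-th power (`m = 3 ^ j`) with power of `v_1` below `pi - β` -/
def mkT (L : Lay) (m β : ℕ) (l : Pol.P) : TL :=
  List.rec TL.nil (fun x _ r => fS (Nat.mul (Nat.mod x.1 128) m) fun a1 => Bool.rec r
    (fS (x.1 / 268435456 * m * 64 + a1) fun d =>
      fS (16 * (L.a * a1 + x.1 / 16384 % 128 * m + L.ga * (x.1 / 2097152 % 128 * m)) + (x.2 - 1))
        fun sh => TL.cons d sh r) (Nat.blt (Nat.add a1 β) L.pi)) l

/-- classification by the bound -/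
def clsW (l : TL) : TB :=
  Bool.rec (Bool.rec TB.bad (TB.large l) (Nat.ble l.wt 32767)) (TB.small l) (Nat.ble l.wt 383)

/-- classification -/
def cls (l : TL) : TB :=
  TL.rec (TB.small l) (fun d => TB.pass d) (fun _ _ => TB.small l) (fun _ _ _ => clsW l)
    (fun _ _ _ _ => clsW l) l

/-- the table of the factor `f` -/
def tab (L : Lay) (D : ℕ → Pol.P) (f β : ℕ) : TB :=
  fS (Nat.pow 3 (Nat.div f 4)) fun m => fS (Nat.mod f 4) fun i => cls (mkT L m β (D i))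

/-! ### the recursions -/

/-- one factor -/
def EfS (L : Lay) (D : ℕ → Pol.P) (f : ℕ) (_ : List ℕ) (ih : ℕ → ℕ) (K : ℕ) : ℕ :=
  fS (Nat.mod K 64) fun β => TB.rec (fun d => fS (Nat.add K d) fun m => Nat.add (ih m) 0)
    (fun l => nr1 L.T (L.cm β) L.K (sumT ih K l)) (fun l => nr2 L.T (L.cm β) L.K L.K8 (sumT ih K l))
    L.T (tab L D f β)

/-- expansion of a product of factors -/
def Ef (L : Lay) (D : ℕ → Pol.P) (base : ℕ → ℕ) (l : List ℕ) : ℕ → ℕ :=
  List.rec (motive := fun _ => ℕ → ℕ) base (EfS L D) l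

/-- the value of a node as a state -/
def nvK (L : Lay) (nv : ℕ → ℕ) (K : ℕ) : ℕ :=
  fS (Nat.mod K 64) fun β => fS (Nat.div K 64) fun k => cut L.T (L.cm β) (nv k)

/-- minimum of `f t` and `t` -/
def low (f : ℕ → ℕ) (t : ℕ) : ℕ := Bool.rec t (f t) (Nat.ble (f t) t)

/-- the data for the evaluation of `t ^ y η (v ^ e) h` -/
structure MP where
  /-- layout of the values -/
  L : Lay
  /-- the values of the nodes -/
  nv : ℕ → ℕ
  /-- order of the factors -/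
  fm : ℕ → ℕ
  /-- choice of the precision -/
  ms : ℕ → ℕ

/-- the value of `t ^ y η (v ^ e) h` after multiplication by `v_1 ^ β`,
`i = h * 2 ^ 28 + e`, `yb = y * 64 + β` -/
def Mt (P : MP) (i yb : ℕ) : ℕ :=
  fS (Nat.mod i 128) fun e1 => fS (Nat.sub (Nat.mod i 268435456) e1) fun e =>
    fS (Nat.div i 268435456 * 17179869184 + Nat.div yb 64 * 64 +
      low P.ms (Nat.add (Nat.mod yb 64) e1)) fun K =>
      Bool.rec P.L.T (Nat.shiftLeft (Ef P.L etaD (nvK P.L P.nv) (flc P.fm e) K)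
        (Nat.mul (Nat.mul 16 P.L.a) e1)) (okL P.fm e)

/-- the entries of the value `v` (weight `u`) with coefficient `t` and power `e1` of `v_1` -/
def dlS (L : Lay) (v u t e1 : ℕ) (ih : List ℕ) : List ℕ :=
  Bool.rec ih (fS (Nat.sub u e1) fun m => List.rec ih (fun x _ r =>
    Bool.rec r (fS (Nat.add x.2 e1) fun i => i :: r) (Nat.beq (Nat.land (Nat.shiftRight
      (Nat.shiftRight v (Nat.mul (Nat.mul 16 L.a) e1)) x.1) 65535) t)) (L.vm m)) (Nat.ble e1 u)

/-- the entries with power of `v_1` below `k` -/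
def dl (L : Lay) (v u t k : ℕ) : List ℕ := Nat.rec [] (dlS L v u t) k

/-- the data for the rows of one degree -/
structure Par where
  /-- layout of the values of the nodes of the degree of the rows -/
  L1 : Lay
  /-- the values of these nodes -/
  nv1 : ℕ → ℕ
  /-- the next degree -/
  M : MP
  /-- order of the factors -/
  fe : ℕ → ℕ
  /-- choice of the precision -/
  bs : ℕ → ℕ

/-- the entries of a node -/
def dlc (P : Par) (k t n : ℕ) : List ℕ :=
  fS (Nat.add (P.L1.w (Nat.div k 268435456)) (w4 k)) fun u => dl P.L1 (P.nv1 k) u t n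

/-- sum over entries -/
def sumL (P : MP) (yb : ℕ) (l : List ℕ) : ℕ := List.rec 0 (fun i _ r => Nat.add (Mt P i yb) r) l

/-- the value of `t ^ y η (φ (t ^ c g))`, `K = (c * 2 ^ 28 + y) * 64 + β` -/
def Nf (P : Par) (g K : ℕ) : ℕ :=
  fS (Nat.mod K 64) fun β => fS (Nat.mod K 17179869184) fun yb =>
    fS (Nat.add (Nat.mul g 268435456) (Nat.div K 17179869184)) fun k =>
      fS (Nat.sub P.M.L.pi β) fun n => Bool.rec
        (nr2 P.M.L.T (P.M.L.cm β) P.M.L.K P.M.L.K8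
          (Nat.add (sumL P.M yb (dlc P k 1 n)) (Nat.shiftLeft (sumL P.M yb (dlc P k 2 n)) 1)))
        P.M.L.T (Nat.ble P.L1.T (P.nv1 k))

/-- the same with a choice of the precision -/
def Nb (P : Par) (g K : ℕ) : ℕ :=
  fS (Nat.mod K 64) fun β => fS (Nat.add (Nat.sub K β) (low P.bs β)) fun K' =>
    cut P.M.L.T (P.M.L.cm β) (Nf P g K')

/-- the test of the row `t ^ b g` -/
def rowOK (P : Par) (g b : ℕ) : Bool :=
  Bool.rec false (Nat.beq (Ef P.M.L delD (Nb P g) (flc P.fe b) 0) 0) (okL P.fe b)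

/-! ### stored values -/

/-- search trees -/
inductive BT : Type
  | l : BT
  | n (l : BT) (k d : ℕ) (r : BT) : BT

/-- search : `0` or the successor of the stored number -/
def BT.find (k : ℕ) (t : BT) : ℕ :=
  BT.rec 0 (fun _ k' d _ rl rr => Bool.rec (Bool.rec rr (Nat.succ d) (Nat.beq k k')) rl
    (Nat.blt k k')) t

/-- the keys -/
def BT.keys : BT → List ℕ
  | .l => []
  | .n t k _ r => t.keys ++ k :: r.keys

/-- the size -/
def BT.size (t : BT) : ℕ := BT.rec 0 (fun _ _ _ _ rl rr => Nat.succ (Nat.add rl rr)) t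

/-- the data for the values of the nodes of one degree -/
structure NP where
  /-- layout of the values -/
  L : Lay
  /-- membership in `Cn` -/
  isC : ℕ → Bool
  /-- the values on `Cn` -/
  cv : ℕ → ℕ
  /-- the stored values, by weight -/
  tw : ℕ → BT
  /-- decompression (arbitrary) -/
  unp : ℕ → ℕ

/-- the stored value of a node -/
def NP.sv (Q : NP) (k : ℕ) : ℕ :=
  fS (Nat.add (Q.L.w (Nat.div k 268435456)) (w4 k)) fun u =>
    Nat.rec Q.L.T (fun d _ => Nat.land (Q.unp d) Q.L.K3) ((Q.tw u).find k)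

/-- the value of a node -/
def NP.nv (Q : NP) (k : ℕ) : ℕ := Bool.rec (Q.sv k) (Q.cv k) (Q.isC k)

/-- all rows of a list of node keys pass the test -/
def rowsOK (P : Par) (l : List ℕ) : Bool :=
  List.rec true (fun k _ r => fS (Nat.div k 268435456) fun g => fS (Nat.mod k 268435456) fun b =>
    Bool.rec false r (rowOK P g b)) l

/-- the weight of a node key -/
def wk (L : Lay) (k : ℕ) : ℕ := Nat.add (L.w (Nat.div k 268435456)) (w4 k)

/-- strictly increasing, above `x` -/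
def incr (l : List ℕ) : ℕ → Bool :=
  List.rec (fun _ => true) (fun k _ r x => Bool.rec false (r (Nat.succ k)) (Nat.ble x k)) l

/-- membership -/
def memL (g : ℕ) (l : List ℕ) : Bool :=
  List.rec false (fun k _ r => Bool.rec r true (Nat.beq k g)) l

/-- the number of keys of weight `u` -/
def cntW (L : Lay) (u : ℕ) (l : List ℕ) : ℕ :=
  List.rec (motive := fun _ => ℕ → ℕ) (fun c => c) (fun k _ r c =>
    Bool.rec (r c) (fS (Nat.succ c) r) (Nat.beq (wk L k) u)) l 0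

/-- the rows are distinct nodes of `Cn` of the right degree, and there are enough of them -/
def levOK (Q1 Q2 : NP) (gl rows : List ℕ) : Bool :=
  Bool.rec false (Bool.rec false
    (Nat.rec true (fun u r => Bool.rec false r (Nat.ble (Q2.tw u).size (cntW Q1.L u rows)))
      (Nat.succ Q2.L.N))
    (List.rec true (fun k _ r => Bool.rec false (Bool.rec false (Bool.rec false r (Q1.isC k))
      (Nat.ble (wk Q1.L k) Q2.L.N)) (fS (Nat.div k 268435456) fun g => memL g gl)) rows))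
    (incr rows 0)

/-! ### specifications -/

/-- the value of a factor -/
def Ff {Q : Type} [CommRing Q] (F : ℕ → Q) (f : ℕ) : Q := F (f % 4) ^ 3 ^ (f / 4)

/-- the tables have bounded weights and coefficients `1`, `2` -/
def GoodD (D : ℕ → Pol.P) (ws : List ℕ) : Prop := ∀ i < 4, ∀ x ∈ D i,
  x.1 / 268435456 < 128 ^ ws.length ∧ wl ws (x.1 / 268435456) ≤ wv i ∧ (x.2 = 1 ∨ x.2 = 2)

/-- block B : the expansion of a product -/
def EfStmt : Prop := ∀ (L : Lay) (D : ℕ → Pol.P) (Q : Type) [CommRing Q] (ι : Av F3 →+* Q)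
  (xs : List Q) (ws : List ℕ) (Φ : Q →+ R0 L.H) (F : ℕ → Q) (base : ℕ → ℕ) (W tag : ℕ),
  L.pi ≤ 64 → xs.length = ws.length → (∀ w ∈ ws, 1 ≤ w) → GoodD D ws → W ≤ 127 →
  (∀ a x, Φ (ι a * x) = L.kap a * Φ x) →
  (∀ i < 4, F i = Pol.ev ([ι (X 0), ι (X 1), ι (X 2), ι (X 3)] ++ xs) (D i)) →
  (∀ K, K / 64 / 128 ^ ws.length = tag → wl ws (K / 64) ≤ W → K % 64 < L.pi →
    Rep L.z L.H 3 (L.a * (K % 64)) (base K) (Φ (Pol.mon xs (K / 64)))) →
  ∀ l K, K / 64 / 128 ^ ws.length = tag → sumF wf l + wl ws (K / 64) ≤ W → K % 64 < L.pi →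
    Rep L.z L.H 3 (L.a * (K % 64)) (Ef L D base l K)
      (Φ ((l.map (Ff F)).prod * Pol.mon xs (K / 64)))

/-- block C : reading the entries of a value -/
def DecStmt : Prop := ∀ (L : Lay) (lam : ℕ → Av F3) (u v n : ℕ), L.Ok → u ≤ L.N → n ≤ L.pi →
  (∀ t, (dl L v u t n).length ≤ 3600 ∧ ∀ i ∈ dl L v u t n,
    i / 268435456 ∈ L.gl ∧ L.w (i / 268435456) + w4 i = u ∧ i % 128 < n) ∧
  ((∀ h ∈ L.gl, WA 3 (2 * (u : ℤ) - 2 * (L.w h : ℤ)) (lam h)) → v < L.T →
    Rep L.z L.H 3 0 v (∑ h ∈ L.gl.toFinset, L.kap (lam h) * L.z ^ L.off h) →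
    ∀ (A : Type) [AddCommGroup A] (Ψ : ℕ → Av F3 →+ A),
      (∀ h e c, n ≤ e 0 → Ψ h (monomial e c) = 0) →
      ∑ h ∈ L.gl.toFinset, Ψ h (lam h) =
        ((dl L v u 1 n).map fun i => Ψ (i / 268435456) (monomial (ex i) 1)).sum +
          2 • ((dl L v u 2 n).map fun i => Ψ (i / 268435456) (monomial (ex i) 1)).sum)

/-- `nv` gives the values `B` on the nodes of the generators `gl` -/
def NvOK (L : Lay) (nv : ℕ → ℕ) (gl : List ℕ) (B : ℕ → Ex → R0 L.H) : Prop :=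
  ∀ h ∈ gl, ∀ y < 268435456, L.w h + w4 y ≤ L.N →
    Rep L.z L.H 3 0 (nv (h * 268435456 + y)) (B h (ex y))

variable [PL 3 F3]

/-- the value of `t ^ y η (v ^ e)` -/
def rM {R : Type} [CommRing R] (κ : Av F3 →+* R) (B : Ex → R) (y e : ℕ) : R :=
  fn B (mA κ (monomial (ex y) 1 * etaA 3 F3 (monomial (ex e) 1)))

/-- block D1 : the evaluator `Mt` -/
def MtStmt : Prop := ∀ (P : MP) (gl : List ℕ) (B : ℕ → Ex → R0 P.L.H), P.L.pi ≤ 64 →
  P.L.N ≤ 120 → NvOK P.L P.nv gl B → ∀ h ∈ gl, ∀ e < 268435456, ∀ y < 268435456, ∀ β,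
    β + e % 128 < P.L.pi → P.L.w h + w4 e + w4 y ≤ P.L.N →
    Rep P.L.z P.L.H 3 (P.L.a * β) (Mt P (h * 268435456 + e) (y * 64 + β)) (rM P.L.kap (B h) y e)

variable {n : ℕ}

/-- extension by zero -/
def ofn {R : Type} [Zero R] (B : Fin n → Ex → R) (h : ℕ) (b : Ex) : R :=
  if hh : h < n then B ⟨h, hh⟩ b else 0

/-- the images of the generators -/
def Lay.o (L : Lay) (h : Fin n) : R0 L.H := L.z ^ L.off h

/-- the true values of the nodes -/
def tv (L : Lay) (τ : Tw F3 (Fin n)) : ℕ → Ex → R0 L.H := ofn (Psi L.kap L.o τ)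

/-- `gl` is the list of the generators of degree `s` -/
def FitG (τ : Tw F3 (Fin n)) (gl : List ℕ) (s : ℕ) : Prop :=
  ∀ h, h ∈ gl ↔ ∃ hh : h < n, τ.sd ⟨h, hh⟩ = s

/-- the weights are those of the layout -/
def FitW (τ : Tw F3 (Fin n)) (L : Lay) : Prop := ∀ g : Fin n, τ.dg g = 2 * (L.w g : ℤ)

/-- block D2 : the test of a row -/
def RowStmt : Prop := ∀ (n : ℕ) (τ : Tw F3 (Fin n)) (N₀ : ℤ) (P : Par) (s : ℕ),
  τ.Ok 3 N₀ Unone → P.L1.Ok → P.M.L.pi ≤ P.L1.pi → 0 < P.M.L.pi → P.M.L.N ≤ P.L1.N →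
  FitG τ P.L1.gl (s + 1) → FitW τ P.L1 → FitW τ P.M.L → ∀ g : Fin n, τ.sd g = s →
  NvOK P.L1 P.nv1 [g.1] (tv P.L1 τ) → ∀ B : Fin n → Ex → R0 P.M.L.H,
  NvOK P.M.L P.M.nv P.L1.gl (ofn B) → ∀ b < 268435456, P.L1.w g + w4 b ≤ P.M.L.N →
  rowOK P g b = true → Bt P.M.L.kap B (DD τ g (ex b)) = 0

/-- `isC` and `cv` are correct on the nodes of the generators `gl` (to be proved for the explicit
data modulo `I`) -/
def COK (τ₀ : Tw F3 (Fin n)) (Cn : Fin n → Ex → Prop) (Q : NP) (gl : List ℕ) : Prop :=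
  ∀ h : Fin n, h.1 ∈ gl → ∀ y < 268435456, Q.L.w h + w4 y ≤ Q.L.N →
    (Q.isC (h * 268435456 + y) = true ↔ Cn h (ex y)) ∧ (Cn h (ex y) →
      Rep Q.L.z Q.L.H 3 0 (Q.cv (h * 268435456 + y)) (Psi Q.L.kap Q.L.o τ₀ h (ex y)))

/-- block E0 : degree zero -/
def BotStmt : Prop := ∀ (n : ℕ) (τ₀ τ : Tw F3 (Fin n)) (Cn : Fin n → Ex → Prop) (N₀ : ℤ) (S : ℕ)
  (Q : NP) (gl : List ℕ), Lev0 τ₀ Cn N₀ S → IsLift τ₀ Cn N₀ τ → 2 * (Q.L.N : ℤ) ≤ N₀ →
  Q.L.N ≤ 120 → FitG τ₀ gl 0 → FitW τ₀ Q.L → COK τ₀ Cn Q gl →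
  Q.sv (τ₀.g0 * 268435456) = 0 → NvOK Q.L Q.nv gl (tv Q.L τ)

/-- block E : from degree `s` to degree `s + 1` -/
def LevStmt : Prop := ∀ (n : ℕ) (τ₀ τ : Tw F3 (Fin n)) (Cn : Fin n → Ex → Prop) (N₀ : ℤ) (S : ℕ)
  (Q1 Q2 : NP) (fm ms fe bs : ℕ → ℕ) (gl rows : List ℕ) (s : ℕ),
  Lev0 τ₀ Cn N₀ S → IsLift τ₀ Cn N₀ τ → s < S → 2 * (Q1.L.N : ℤ) ≤ N₀ →
  Q1.L.Ok → Q2.L.Ok → Q2.L.pi ≤ Q1.L.pi → Q2.L.N ≤ Q1.L.N →
  FitG τ₀ gl s → FitG τ₀ Q1.L.gl (s + 1) → FitW τ₀ Q1.L → FitW τ₀ Q2.L →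
  COK τ₀ Cn Q1 gl → COK τ₀ Cn Q2 Q1.L.gl → NvOK Q1.L Q1.nv gl (tv Q1.L τ) →
  (∀ k ∈ rows, rowOK ⟨Q1.L, Q1.nv, ⟨Q2.L, Q2.nv, fm, ms⟩, fe, bs⟩ (k / 268435456)
    (k % 268435456) = true) →
  levOK Q1 Q2 gl rows = true → NvOK Q2.L Q2.nv Q1.L.gl (tv Q2.L τ)

/-- the packed vector -/
def Lay.pk (L : Lay) (u : Fin n → Av F3) : R0 L.H := ∑ l, L.kap (u l) * L.o l

/-- block D3 : `Mt` evaluates the action -/
def ActStmt : Prop := ∀ (n : ℕ) (τ : Tw F3 (Fin n)) (L : Lay) (h : Fin n) (y e : ℕ),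
  rM L.kap (tv L τ h) y e =
    L.pk (τ.act 3 (monomial (ex y) 1) (Pi.single h (monomial (ex e) 1)))

end Vale.Agent.P236K.Cert
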