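import Vale.Agent.P236K.Cert.Prog

/-!
# P236K / Cert / Prog2 : auxiliary programs (no proofs needed)
-/

noncomputable section

namespace Vale.Agent.P236K.Cert

/-- a table of bytes -/
def byt (t i : ℕ) : ℕ := Nat.land (Nat.shiftRight t (Nat.mul 8 i)) 255

/-- four times the position of the leading ternary digit -/
def top (n : ℕ) : ℕ :=
  Bool.rec (Bool.rec 0 4 (Nat.ble 3 n))
    (Bool.rec 8 (Bool.rec 12 16 (Nat.ble 81 n)) (Nat.ble 27 n)) (Nat.ble 9 n)

/-- the order of the factors -/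
def fac1 (r : ℕ) : ℕ :=
  Bool.rec (top (Nat.mod r 128)) (Bool.rec (Nat.add (top (Nat.mod (Nat.div r 128) 128)) 1)
    (Bool.rec (Nat.add (top (Nat.mod (Nat.div r 16384) 128)) 2)
      (Nat.add (top (Nat.div r 2097152)) 3) (Nat.beq (Nat.mod r 2097152) 0))
    (Nat.beq (Nat.mod r 16384) 0)) (Nat.beq (Nat.mod r 128) 0)

/-- one step of the decompression -/
def unpS (i j x : ℕ) : ℕ := Nat.add x (Nat.shiftLeft (Nat.shiftRight x i) j)

/-- decompression : eight fields of two bits in each of `q` lanes -/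
def unpQ (q d : ℕ) : ℕ :=
  unpS 8 (Nat.mul 64 q) (unpS 4 (Nat.mul 32 q) (unpS 2 (Nat.mul 16 q) d))

/-- entry of a list of trees -/
def nthT (l : List BT) (u : ℕ) : BT :=
  List.rec (motive := fun _ => ℕ → BT) (fun _ => BT.l)
    (fun t _ r u => Nat.rec t (fun v _ => r v) u) l u

/-- entry of a list of numbers -/
def nthN (l : List ℕ) (u : ℕ) : ℕ :=
  List.rec (motive := fun _ => ℕ → ℕ) (fun _ => 0)
    (fun t _ r u => Nat.rec t (fun v _ => r v) u) l u

/-- test version of `isC` -/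
def tmpC (w : ℕ → ℕ) (cm : List ℕ) (g0 nG k : ℕ) : Bool :=
  fS (Nat.add (w (Nat.div k 268435456)) (w4 k)) fun u =>
    Nat.beq (Nat.land (Nat.shiftRight (nthN cm u) (k / 268435456 - g0 + nG * (k / 128 % 128 +
      23 * (k / 16384 % 128 + 7 * (k / 2097152 % 128))))) 1) 1

/-- test version of `cv` -/
def tmpV (t : BT) (k : ℕ) : ℕ := Nat.pred (t.find k)

end Vale.Agent.P236K.Cert
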