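import Vale.Agent.P236K.Cert.Run
import Vale.Agent.P236K.Cert.Conv

/-!
# P236K / Cert / RunA : layouts, tables and operators
-/

set_option linter.unusedSectionVars false

noncomputable section

namespace Vale.Agent.P236K.Cert.Pl

open Vale.Agent.P236K.Alg Finset

theorem blt_iff {a b : ℕ} : Nat.blt a b = true ↔ a < b := by rw [Nat.blt_eq]
theorem ble_iff {a b : ℕ} : Nat.ble a b = true ↔ a ≤ b := by rw [Nat.ble_eq]
theorem beq_iff {a b : ℕ} : Nat.beq a b = true ↔ a = b := by rw [Nat.beq_eq]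

theorem bf_ble {α : Type} (a b : ℕ) (x y : α) : bf (Nat.ble a b) x y = if a ≤ b then x else y := by
  split_ifs with h
  · rw [ble_iff.2 h, bf_true]
  · rw [Bool.eq_false_iff.2 (mt ble_iff.1 h), bf_false]

theorem bf_beq {α : Type} (a b : ℕ) (x y : α) : bf (Nat.beq a b) x y = if a = b then x else y := by
  split_ifs with h
  · rw [beq_iff.2 h, bf_true]
  · rw [Bool.eq_false_iff.2 (mt beq_iff.1 h), bf_false]

/-- a generator and four exponents -/
@[ext] structure Tp : Type where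
  /-- the generator -/
  i : ℕ
  /-- first exponent -/
  a : ℕ
  /-- second exponent -/
  b : ℕ
  /-- third exponent -/
  c : ℕ
  /-- fourth exponent -/
  d : ℕ

/-- the exponent -/
def Tp.ex (t : Tp) : Ex := ex4 t.a t.b t.c t.d

/-- a node of weight `u` -/
def Val (L : L2) (u : ℕ) (t : Tp) : Prop :=
  t.i < L.len ∧ L.g1 t.i + (t.a + 4 * t.b + 13 * t.c + 40 * t.d) = u

namespace Box

variable (B : Box)

theorem rb_eq (b c d : ℕ) : B.rb b c d = b + B.S2 * (c + B.S3 * d) := rfl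

/-- the position in the block -/
def rt (t : Tp) : ℕ := B.rb t.b t.c t.d

/-- the position of a node -/
def ps (L : L2) (t : Tp) : ℕ := L.off t.i + B.rt t

/-- the tables are correct -/
structure Ok : Prop where
  h2 : 3 ≤ B.S2
  h3 : 3 ≤ B.S3
  T2 : B.T < 4 * B.S2
  T3 : B.T < 13 * B.S3
  T4 : B.T < 40 * B.S4
  T5 : B.T ≤ 120
  c2 : Can B.p2 B.m2
  c3 : Can B.p3 B.m3
  c4 : Can B.p4 B.m4
  N : ∀ b c d, 4 * b + (13 * c + 40 * d) ≤ B.T → ∀ m ≤ B.T,
    B.N.testBit (B.BS * m + B.rb b c d) = decide (4 * b + (13 * c + 40 * d) = m)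
  U2 : ∀ b c d, 4 * b + (13 * c + 40 * d) ≤ B.T → ∀ j < B.S2,
    val B.p2 B.m2 (B.BS * j + B.rb b c d) = b.choose j
  U3 : ∀ b c d, 4 * b + (13 * c + 40 * d) ≤ B.T → ∀ j < B.S3,
    val B.p3 B.m3 (B.BS * j + B.rb b c d) = c.choose j
  U4 : ∀ b c d, 4 * b + (13 * c + 40 * d) ≤ B.T → ∀ j < B.S4,
    val B.p4 B.m4 (B.BS * j + B.rb b c d) = d.choose j

variable {B}

theorem isC_spec {p m q n j : ℕ} (h : isC p m q n j = true) : val p m q = n.choose j := by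
  have h1 := beq_iff.1 h
  change _ = n.descFactorial j / j.factorial % 3 at h1
  rw [← Nat.choose_eq_descFactorial_div_factorial] at h1
  rw [← ZMod.natCast_mod (n.choose j) 3, ← h1, val]
  cases p.testBit q <;> cases m.testBit q <;> rfl

theorem ok_of_chk (h : B.chk = true) : B.Ok := by
  simp only [chk, Bool.and_eq_true] at h
  obtain ⟨⟨⟨⟨⟨⟨⟨⟨⟨h2, h3⟩, T2⟩, T3⟩, T4⟩, T5⟩, c2⟩, c3⟩, c4⟩, h⟩ := h
  have T2' : B.T < 4 * B.S2 := blt_iff.1 T2
  have T3' : B.T < 13 * B.S3 := blt_iff.1 T3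
  have T4' : B.T < 40 * B.S4 := blt_iff.1 T4
  have h1 : ∀ b c d, 4 * b + (13 * c + 40 * d) ≤ B.T → B.chk1 b c d = true := fun b c d hw => by
    have h4 := allLt_spec (allLt_spec (allLt_spec h (show d < B.S4 by omega))
      (show c < B.S3 by omega)) (show b < B.S2 by omega)
    rwa [bf_ble, if_pos (show Nat.add (Nat.mul 4 b) (Nat.add (Nat.mul 13 c) (Nat.mul 40 d)) ≤ B.T
      from hw)] at h4
  refine ⟨ble_iff.1 h2, ble_iff.1 h3, T2', T3', T4', ble_iff.1 T5, can_of_land c2, can_of_land c3,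
    can_of_land c4, fun b c d hw m hm => ?_,
    fun b c d hw j hj => isC_spec (allLt_spec (bf_and (bf_and (h1 b c d hw)).2).1 hj),
    fun b c d hw j hj => isC_spec (allLt_spec (bf_and (bf_and (bf_and (h1 b c d hw)).2).2).1 hj),
    fun b c d hw j hj => isC_spec (allLt_spec (bf_and (bf_and (bf_and (h1 b c d hw)).2).2).2 hj)⟩
  have h4 := beq_iff.1 (allLt_spec (bf_and (h1 b c d hw)).1 (Nat.lt_succ_of_le hm))
  rw [bf_beq] at h4
  change bf (B.N.testBit (B.BS * m + B.rb b c d)) 1 0 =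
    if 4 * b + (13 * c + 40 * d) = m then 1 else 0 at h4
  revert h4
  cases B.N.testBit (B.BS * m + B.rb b c d) <;> split_ifs with h5 <;> simp [h5]

theorem Ok.rb_lt (hB : B.Ok) {L : L2} (hL : B.lay L = true) {i b c d : ℕ} (hi : i < L.len)
    (h : L.g1 i + (4 * b + (13 * c + 40 * d)) ≤ B.T) : B.rb b c d < L.g2 i := by
  have h1 : B.sz (B.T - L.g1 i) ≤ L.g2 i := ble_iff.1 (L2.all_spec hL hi)
  refine lt_of_lt_of_le ?_ h1
  have T2 := hB.T2
  have T3 := hB.T3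
  generalize hm : B.T - L.g1 i = m
  change b + B.S2 * (c + B.S3 * d) < B.S2 * (m % 40 / 13 + B.S3 * (m / 40) + 1)
  have h2 : c + B.S3 * d ≤ m % 40 / 13 + B.S3 * (m / 40) := by
    rcases (show d ≤ m / 40 by omega).eq_or_lt with h3 | h3
    · rw [← h3]
      omega
    · have h4 := Nat.mul_le_mul_left B.S3 (show d + 1 ≤ m / 40 from h3)
      rw [mul_add, mul_one] at h4
      omega
  have h3 := Nat.mul_le_mul_left B.S2 h2
  rw [mul_add B.S2 _ 1, mul_one]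
  omega

theorem Ok.rt_lt (hB : B.Ok) {L : L2} (hL : B.lay L = true) {u : ℕ} (hu : u ≤ B.T) {t : Tp}
    (h : Val L u t) : B.rt t < L.g2 t.i :=
  hB.rb_lt hL h.1 (by have := h.2; omega)

theorem Ok.ps_inj (hB : B.Ok) {L : L2} (hL : B.lay L = true) {u : ℕ} (hu : u ≤ B.T) {t t' : Tp}
    (h : Val L u t) (h' : Val L u t') (e : B.ps L t = B.ps L t') : t = t' := by
  obtain ⟨e1, e2⟩ := L2.off_inj h.1 h'.1 (hB.rt_lt hL hu h) (hB.rt_lt hL hu h') e
  have T2 := hB.T2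
  have T3 := hB.T3
  have h2 := h.2
  have h2' := h'.2
  have key : ∀ {S x y x' y' : ℕ}, x < S → x' < S → x + S * y = x' + S * y' → x = x' ∧ y = y' := by
    intro S x y x' y' hx hx' e
    have e3 := congrArg (· % S) e
    simp only [Nat.add_mul_mod_self_left, Nat.mod_eq_of_lt hx, Nat.mod_eq_of_lt hx'] at e3
    rw [e3, add_right_inj] at e
    exact ⟨e3, Nat.eq_of_mul_eq_mul_left (by omega) e⟩
  obtain ⟨e3, e4⟩ := key (by omega) (by omega) e2
  obtain ⟨e5, e6⟩ := key (by omega) (by omega) e4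
  rw [e1] at h2
  exact Tp.ext e1 (by omega) e3 e5 e6

theorem canL_tab {p m : ℕ} (h : Can p m) (L : L2) (n : ℕ) : (B.tab L p m n).CanL :=
  L2.canL_mk (fun _ => L2.can_cat (fun _ => h.shr _) L) n 0

theorem vl_tab (p m n j : ℕ) {L : L2} {i r : ℕ} (hi : i < L.len) (hr : r < L.g2 i) :
    (B.tab L p m n).vl j (L.off i + r) = if j < n then val p m (B.BS * j + r) else 0 := by
  rw [L2.vl, tab, L2.g1_mk, L2.g2_mk]
  split_ifs
  · rw [zero_add, L2.val_cat _ _ hi hr, val_shr]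
    rfl
  · exact val_zero _

end Box

/-- the entry `j` of `U` at a node is `e ^ j` times a binomial coefficient -/
def UOk (B : Box) (L U : L2) (e : K) (x : Tp → ℕ) : Prop :=
  U.CanL ∧ ∀ u ≤ B.T, ∀ t, Val L u t → ∀ j, U.vl j (B.ps L t) = e ^ j * ((x t).choose j : K)

theorem UOk.one {B : Box} {L U : L2} {x : Tp → ℕ} (h : UOk B L U 1 x) : UOk B L U.one 0 x := by
  refine ⟨L2.CanL.cons (h.1 0) L2.canL_nil, fun u hu t ht j => ?_⟩
  rcases j with _ | j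
  · rw [pow_zero, ← pow_zero (1 : K)]
    exact h.2 u hu t ht 0
  · rw [pow_succ, mul_zero, zero_mul]
    exact val_zero _

/-- the triangle of Pascal for the first exponent, before the weight `u` -/
def AOk (B : Box) (L : L2) (u : ℕ) (A : L2) : Prop :=
  A.CanL ∧ ∀ i b c d j, i < L.len → L.g1 i + (4 * b + (13 * c + 40 * d)) ≤ B.T →
    A.vl j (L.off i + B.rb b c d) = if L.g1 i + (4 * b + (13 * c + 40 * d)) < u then
      ((u - 1 - (L.g1 i + (4 * b + (13 * c + 40 * d)))).choose j : K) else 0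

theorem aOk_nil (B : Box) (L : L2) : AOk B L 0 L2.nil :=
  ⟨L2.canL_nil, fun _ _ _ _ _ _ _ => by rw [L2.vl_nil, if_neg (Nat.not_lt_zero _)]⟩

theorem AOk.val {B : Box} {L A : L2} {u : ℕ} (h : AOk B L (u + 1) A) (hu : u ≤ B.T) {t : Tp}
    (ht : Val L u t) (j : ℕ) : A.vl j (B.ps L t) = t.a.choose j := by
  have h2 := ht.2
  rw [Box.ps, Box.rt, h.2 _ _ _ _ _ ht.1 (by omega), if_pos (by omega)]
  congr 2
  omega

namespace Box.Ok

variable {B : Box} (hB : B.Ok) {L : L2} (hL : B.lay L = true)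
include hB hL

theorem uOk2 : UOk B L (B.tab L B.p2 B.m2 B.S2) 1 Tp.b := by
  refine ⟨canL_tab hB.c2 L _, fun u hu t ht j => ?_⟩
  have h2 := ht.2
  have T2 := hB.T2
  rw [ps, vl_tab _ _ _ _ ht.1 (hB.rt_lt hL hu ht), one_pow, one_mul]
  split_ifs with h
  · exact hB.U2 _ _ _ (by omega) j h
  · rw [Nat.choose_eq_zero_of_lt (by omega), Nat.cast_zero]

theorem uOk3 : UOk B L (B.tab L B.p3 B.m3 B.S3) 1 Tp.c := by
  refine ⟨canL_tab hB.c3 L _, fun u hu t ht j => ?_⟩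
  have h2 := ht.2
  have T3 := hB.T3
  rw [ps, vl_tab _ _ _ _ ht.1 (hB.rt_lt hL hu ht), one_pow, one_mul]
  split_ifs with h
  · exact hB.U3 _ _ _ (by omega) j h
  · rw [Nat.choose_eq_zero_of_lt (by omega), Nat.cast_zero]

theorem uOk4 : UOk B L (B.tab L B.p4 B.m4 B.S4) 1 Tp.d := by
  refine ⟨canL_tab hB.c4 L _, fun u hu t ht j => ?_⟩
  have h2 := ht.2
  have T4 := hB.T4
  rw [ps, vl_tab _ _ _ _ ht.1 (hB.rt_lt hL hu ht), one_pow, one_mul]
  split_ifs with h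
  · exact hB.U4 _ _ _ (by omega) j h
  · rw [Nat.choose_eq_zero_of_lt (by omega), Nat.cast_zero]

theorem aOk_pas {u : ℕ} (hu : u ≤ B.T) {A : L2} (h : AOk B L u A) :
    AOk B L (u + 1) (A.pas (B.new L u) 0) := by
  refine ⟨h.1.pas (can_zero _), fun i b c d j hi hw => ?_⟩
  rcases j with _ | j
  · rw [L2.vl_pas_zero h.1 (can_zero _), h.2 _ _ _ _ _ hi hw, val_right_zero, new,
      L2.testBit_cat _ hi (hB.rb_lt hL hi hw), bf_ble]
    simp only [Nat.choose_zero_right, Nat.cast_one]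
    by_cases h1 : L.g1 i ≤ u
    · rw [if_pos h1]
      change _ + (if (B.N >>> (B.BS * (u - L.g1 i))).testBit _ = true then _ else _) = _
      rw [Nat.testBit_shiftRight, hB.N _ _ _ (by omega) _ (by omega)]
      simp only [decide_eq_true_eq]
      split_ifs <;> first | omega | simp
    · rw [if_neg h1, Nat.zero_testBit, if_neg (by omega), if_neg Bool.false_ne_true,
        if_neg (by omega), add_zero]
  · rw [L2.vl_pas_succ h.1, h.2 _ _ _ _ _ hi hw, h.2 _ _ _ _ _ hi hw]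
    generalize L.g1 i + (4 * b + (13 * c + 40 * d)) = ω
    rcases lt_trichotomy ω u with h1 | h1 | h1
    · rw [if_pos h1, if_pos h1, if_pos (by omega), show u + 1 - 1 - ω = u - 1 - ω + 1 by omega,
        Nat.choose_succ_succ', Nat.cast_add, add_comm]
    · rw [if_neg (by omega), if_neg (by omega), if_pos (by omega),
        show u + 1 - 1 - ω = 0 by omega, Nat.choose_zero_succ, Nat.cast_zero, add_zero]
    · rw [if_neg (by omega), if_neg (by omega), if_neg (by omega), add_zero]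

end Box.Ok

section grp

variable {B : Box} {U2 U3 U4 : L2} (h2 : U2.CanL) (h3 : U3.CanL) (h4 : U4.CanL) (δ3 δ4 : ℕ)
include h2 h3 h4

theorem canT_grp (n : ℕ) : (B.grp δ3 δ4 U2 U3 U4 n).CanT := by
  refine L3.canT_loop (fun j3 t ht => L3.canT_loop (fun j4 t ht => ?_) _ ht) _ trivial
  rw [bf_ble]
  split_ifs
  · exact L3.CanT.cz (((h2 _).mul (h3 _)).mul (h4 _)) ht
  · exact ht

theorem ev_grp (n : ℕ) (f : ℕ → K) (q : ℕ) : (B.grp δ3 δ4 U2 U3 U4 n).ev f q =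
    ∑ j3 ∈ range B.S3, ∑ j4 ∈ range B.S4, if j3 + j4 ≤ n then
      U2.vl (n - (j3 + j4)) q * U3.vl j3 q * U4.vl j4 q *
        shf f (n - (j3 + j4) + (δ3 * j3 + δ4 * j4)) q else 0 := by
  rw [Box.grp, L3.ev_loop, L3.ev_nil, add_zero]
  intro j3 t
  rw [L3.ev_loop]
  intro j4 t
  rw [bf_ble]
  change L3.ev (if j3 + j4 ≤ n then _ else _) f q = _
  split_ifs
  · rw [Box.tm, L3.ev_cz, val_mul ((h2 _).mul (h3 _)) (h4 _), val_mul (h2 _) (h3 _)]
    rfl
  · rw [zero_add]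

end grp

variable [PL 3 K]

/-- the groups `g` compute the convolution with `μ`, which raises the weight by `W` -/
def Act (B : Box) (L : L2) (μ : Ex → K) (W : ℕ) (g : List L3) : Prop :=
  (∀ ts ∈ g, ts.CanT) ∧ ∀ (u : ℕ) (φ : ℕ → Ex → K) (f : ℕ → K) (A : L2), u + W ≤ B.T →
    AOk B L (u + W + 1) A → (∀ t, Val L u t → f (B.ps L t) = φ t.i t.ex) →
    ∀ t, Val L (u + W) t → (L3.terms g A).ev f (B.ps L t) = conv0 3 μ (φ t.i) t.ex

/-- the convolution with `μ` only depends on the values in the weight lower by `W` -/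
def Loc (μ : Ex → K) (W : ℕ) : Prop := ∀ (φ : Ex → K) (a b c d : ℕ),
  (∀ a' b' c' d', a' + 4 * b' + 13 * c' + 40 * d' + W = a + 4 * b + 13 * c + 40 * d →
    φ (ex4 a' b' c' d') = 0) → conv0 3 μ φ (ex4 a b c d) = 0

theorem ne_zero_of {e : K} {x j : ℕ} (h : e ^ j * (x.choose j : K) ≠ 0) :
    j ≤ x ∧ (j = 0 ∨ e ≠ 0) := by
  refine ⟨Nat.le_of_not_lt fun h1 => h ?_, ?_⟩
  · rw [Nat.choose_eq_zero_of_lt h1, Nat.cast_zero, mul_zero]
  · by_contra h1
    rw [not_or, not_not] at h1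
    rw [h1.2, zero_pow h1.1, zero_mul] at h
    exact h rfl

/-- the data of an operator -/
structure OpD (e1 e2 e3 : K) (x21 x31 x32 x41 x42 x43 W : ℕ) : Prop where
  fml : Fml 3 e1 e2 e3 x21 x31 x32 x41 x42 x43
  w1 : e1 ≠ 0 → W = 1
  w2 : e2 ≠ 0 → x21 + W = 4
  w3 : e3 ≠ 0 → x31 + 4 * x32 + W = 13
  w4 : x41 + 4 * x42 + 13 * x43 + W = 40

theorem OpD.wt {e1 e2 e3 : K} {x21 x31 x32 x41 x42 x43 W : ℕ}
    (H : OpD e1 e2 e3 x21 x31 x32 x41 x42 x43 W) {a b c d j1 j2 j3 j4 : ℕ}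
    (h1 : e1 ^ j1 * (a.choose j1 : K) ≠ 0) (h2 : e2 ^ j2 * (b.choose j2 : K) ≠ 0)
    (h3 : e3 ^ j3 * (c.choose j3 : K) ≠ 0) (h4 : (d.choose j4 : K) ≠ 0) :
    (j2 ≤ b ∧ j3 ≤ c ∧ j4 ≤ d) ∧ a - j1 + x21 * j2 + x31 * j3 + x41 * j4 +
      4 * (b - j2 + x32 * j3 + x42 * j4) + 13 * (c - j3 + x43 * j4) + 40 * (d - j4) +
      W * (j1 + j2 + j3 + j4) = a + 4 * b + 13 * c + 40 * d := by
  obtain ⟨a1, b1⟩ := ne_zero_of h1
  obtain ⟨a2, b2⟩ := ne_zero_of h2
  obtain ⟨a3, b3⟩ := ne_zero_of h3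
  obtain ⟨a4, -⟩ := ne_zero_of (e := 1) (x := d) (j := j4) (by rwa [one_pow, one_mul])
  have c1 : W * j1 = j1 := by
    rcases b1 with rfl | b1
    · rfl
    · rw [H.w1 b1, one_mul]
  have c2 : (x21 + W) * j2 = 4 * j2 := by
    rcases b2 with rfl | b2
    · rfl
    · rw [H.w2 b2]
  have c3 : (x31 + 4 * x32 + W) * j3 = 13 * j3 := by
    rcases b3 with rfl | b3
    · rfl
    · rw [H.w3 b3]
  have c4 : (x41 + 4 * x42 + 13 * x43 + W) * j4 = 40 * j4 := by rw [H.w4]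
  refine ⟨⟨a2, a3, a4⟩, ?_⟩
  obtain ⟨a, rfl⟩ := Nat.exists_eq_add_of_le a1
  obtain ⟨b, rfl⟩ := Nat.exists_eq_add_of_le a2
  obtain ⟨c, rfl⟩ := Nat.exists_eq_add_of_le a3
  obtain ⟨d, rfl⟩ := Nat.exists_eq_add_of_le a4
  simp only [Nat.add_sub_cancel_left]
  zify at c1 c2 c3 c4 ⊢
  linear_combination c1 + c2 + c3 + c4

theorem OpD.exists {e1 e2 e3 : K} {x21 x31 x32 x41 x42 x43 W : ℕ}
    (H : OpD e1 e2 e3 x21 x31 x32 x41 x42 x43 W) (n : ℕ) : ∃ μ, Loc μ (W * n) ∧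
      ∀ (B : Box) (L U2 U3 U4 : L2) (δ3 δ4 n1 : ℕ), B.Ok → UOk B L U2 e2 Tp.b →
        UOk B L U3 e3 Tp.c → UOk B L U4 1 Tp.d → δ3 + x32 = B.S2 →
        δ4 + x42 + B.S2 * x43 = B.S2 * B.S3 → (e1 = 1 ∧ n1 = n + 1 ∨ e1 = 0 ∧ n1 = 1) →
        Act B L μ (W * n) ((List.range n1).map fun j => B.grp δ3 δ4 U2 U3 U4 (n - j)) := by
  obtain ⟨μ, hμ⟩ := H.fml n
  refine ⟨μ, fun φ a b c d h => ?_, fun B L U2 U3 U4 δ3 δ4 n1 hB h2 h3 h4 d3 d4 hn => ?_⟩
  · rw [hμ φ a b c d _ _ (Nat.lt_succ_self c) (Nat.lt_succ_self d)]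
    refine sum_eq_zero fun j1 hj => ?_
    rw [mem_range] at hj
    by_cases h1 : e1 ^ j1 * (a.choose j1 : K) = 0
    · rw [h1, zero_mul]
    refine mul_eq_zero_of_right _ (sum_eq_zero fun j3 _ => sum_eq_zero fun j4 _ => ?_)
    split_ifs with h5
    · by_contra h6
      have h7 := H.wt h1 (left_ne_zero_of_mul (left_ne_zero_of_mul (left_ne_zero_of_mul h6)))
        (right_ne_zero_of_mul (left_ne_zero_of_mul (left_ne_zero_of_mul h6)))
        (right_ne_zero_of_mul (left_ne_zero_of_mul h6))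
      rw [show j1 + (n - j1 - (j3 + j4)) + j3 + j4 = n by omega] at h7
      exact right_ne_zero_of_mul h6 (h _ _ _ _ h7.2)
    · rfl
  · have hc : ∀ ts ∈ (List.range n1).map fun j => B.grp δ3 δ4 U2 U3 U4 (n - j), ts.CanT := by
      intro ts hts
      obtain ⟨j, -, rfl⟩ := List.mem_map.1 hts
      exact canT_grp h2.1 h3.1 h4.1 _ _ _
    refine ⟨hc, fun u φ f A hu hA hf t ht => ?_⟩
    have t2 := ht.2
    have T3 := hB.T3
    have T4 := hB.T4
    have hn1 : n1 ≤ n + 1 := by omega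
    rw [L3.ev_terms hc hA.1, Tp.ex, hμ _ _ _ _ _ B.S3 B.S4 (by omega) (by omega), List.length_map,
      List.length_range, ← sum_subset (range_subset_range.2 hn1)]
    · refine sum_congr rfl fun j1 hj => ?_
      rw [mem_range] at hj
      have e0 : (t.a.choose j1 : K) = e1 ^ j1 * (t.a.choose j1 : K) := by
        rcases hn with ⟨rfl, -⟩ | ⟨-, rfl⟩
        · rw [one_pow, one_mul]
        · rw [Nat.lt_one_iff.1 hj, pow_zero, one_mul]
      rw [hA.val hu ht, e0, List.getD_eq_getElem _ _ (by simpa using hj), List.getElem_map,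
        List.getElem_range, ev_grp h2.1 h3.1 h4.1, ← e0, ← e0]
      by_cases h1 : e1 ^ j1 * (t.a.choose j1 : K) = 0
      · rw [e0, h1, zero_mul, zero_mul]
      congr 1
      refine sum_congr rfl fun j3 _ => sum_congr rfl fun j4 _ => ?_
      split_ifs with h5
      swap
      · rfl
      rw [h2.2 _ hu t ht, h3.2 _ hu t ht, h4.2 _ hu t ht, one_pow, one_mul]
      by_cases h6 : e2 ^ (n - j1 - (j3 + j4)) * (t.b.choose (n - j1 - (j3 + j4)) : K) *
          (e3 ^ j3 * (t.c.choose j3 : K)) * (t.d.choose j4 : K) = 0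
      · rw [h6, zero_mul, zero_mul]
      obtain ⟨⟨a2, a3, a4⟩, h7⟩ := H.wt h1 (left_ne_zero_of_mul (left_ne_zero_of_mul h6))
        (right_ne_zero_of_mul (left_ne_zero_of_mul h6)) (right_ne_zero_of_mul h6)
      rw [show j1 + (n - j1 - (j3 + j4)) + j3 + j4 = n by omega] at h7
      generalize n - j1 - (j3 + j4) = j2 at a2 h7 ⊢
      have h8 := hf ⟨t.i, t.a - j1 + x21 * j2 + x31 * j3 + x41 * j4, t.b - j2 + x32 * j3 + x42 * j4,
        t.c - j3 + x43 * j4, t.d - j4⟩ ⟨ht.1, by dsimp only; omega⟩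
      rw [Tp.ex] at h8
      dsimp only at h8
      rw [← h8, ← shf_add f (j2 + (δ3 * j3 + δ4 * j4))]
      congr 2
      simp only [Box.ps, Box.rt, Box.rb_eq]
      obtain ⟨b, hb⟩ := Nat.exists_eq_add_of_le a2
      obtain ⟨c, hc⟩ := Nat.exists_eq_add_of_le a3
      obtain ⟨d, hd⟩ := Nat.exists_eq_add_of_le a4
      simp only [hb, hc, hd, Nat.add_sub_cancel_left]
      zify at d3 d4 ⊢
      linear_combination (-(j3 : ℤ)) * d3 - (j4 : ℤ) * d4
    · intro j1 hj hj'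
      rw [mem_range] at hj hj'
      rcases hn with ⟨-, rfl⟩ | ⟨rfl, rfl⟩
      · exact absurd hj hj'
      · rw [zero_pow (by omega), zero_mul, zero_mul]

theorem exists_op (i n : ℕ) : ∃ μ, Loc μ (Box.sel i 1 4 13 40 * n) ∧
    ∀ (B : Box) (L U2 U3 U4 : L2), B.Ok → UOk B L U2 1 Tp.b → UOk B L U3 1 Tp.c →
      UOk B L U4 1 Tp.d → Act B L μ (Box.sel i 1 4 13 40 * n) (B.grps U2 U3 U4 i n) := by
  simp only [Box.sel, Box.grps, bf_beq]
  split_ifs
  · obtain ⟨μ, h1, h2⟩ := (⟨fml0, fun _ => rfl, fun _ => rfl, fun _ => rfl, rfl⟩ :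
      OpD 1 1 1 3 0 3 0 0 3 1).exists n
    refine ⟨μ, h1, fun B L U2 U3 U4 hB a b c =>
      h2 B L U2 U3 U4 _ _ _ hB a b c (Nat.sub_add_cancel hB.h2) ?_ (Or.inl ⟨rfl, rfl⟩)⟩
    change B.S2 * (B.S3 - 3) + 0 + B.S2 * 3 = _
    rw [add_zero, ← mul_add, Nat.sub_add_cancel hB.h3]
  · obtain ⟨μ, h1, h2⟩ := (⟨fml1, fun h => absurd rfl h, fun _ => rfl, fun _ => rfl, rfl⟩ :
      OpD 0 1 1 0 9 0 0 9 0 4).exists n
    exact ⟨μ, h1, fun B L U2 U3 U4 hB a b c => h2 B L U2 U3 U4 _ _ 1 hB a b c rfl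
      (Nat.sub_add_cancel (Nat.mul_le_mul hB.h2 hB.h3)) (Or.inr ⟨rfl, rfl⟩)⟩
  · obtain ⟨μ, h1, h2⟩ := (⟨fml2, fun h => absurd rfl h, fun h => absurd rfl h, fun _ => rfl,
      rfl⟩ : OpD 0 0 1 0 0 0 27 0 0 13).exists n
    exact ⟨μ, h1, fun B L U2 U3 U4 hB a b c => h2 B L _ U3 U4 _ _ 1 hB a.one b c rfl rfl
      (Or.inr ⟨rfl, rfl⟩)⟩
  · obtain ⟨μ, h1, h2⟩ := (⟨fml3, fun h => absurd rfl h, fun h => absurd rfl h,
      fun h => absurd rfl h, rfl⟩ : OpD 0 0 0 0 0 0 0 0 0 40).exists n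
    exact ⟨μ, h1, fun B L U2 U3 U4 hB a b c => h2 B L _ _ U4 _ _ 1 hB a.one b.one c rfl rfl
      (Or.inr ⟨rfl, rfl⟩)⟩

end Vale.Agent.P236K.Cert.Pl
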